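/-
P336 (helper66): the counting lemma behind inequality (B).
Purely combinatorial: from per-slot and per-triple inequalities deduce the linear inequality for the
total asymmetry `A`.
-/
import Mathlib

namespace Vale.Agent.Lib.P336_h66

set_option linter.unusedSectionVars false

open Finset

variable {V : Type} [Fintype V] [DecidableEq V]

/-- Indicator as a real number. -/
noncomputable def bo (P : Prop) : ℝ := by
  classical exact if P then 1 else 0

lemma bo_of {P : Prop} (h : P) : bo P = 1 := by simp [bo, h]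
lemma bo_not {P : Prop} (h : ¬ P) : bo P = 0 := by simp [bo, h]
lemma bo_nonneg (P : Prop) : 0 ≤ bo P := by
  unfold bo; split_ifs <;> norm_num
lemma bo_le_one (P : Prop) : bo P ≤ 1 := by
  unfold bo; split_ifs <;> norm_num
lemma bo_mono {P Q : Prop} (h : P → Q) : bo P ≤ bo Q := by
  by_cases hP : P
  · rw [bo_of hP, bo_of (h hP)]
  · rw [bo_not hP]; exact bo_nonneg _

open Classical in
lemma sum_bo_le_card (s : Finset V) (P : V → Prop) :
    ∑ x ∈ s, bo (P x) = ((s.filter P).card : ℝ) := by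
  classical
  rw [Finset.card_filter]
  push_cast
  apply Finset.sum_congr rfl
  intro x _
  by_cases h : P x <;> simp [bo, h]

/-- sum over a finset as a sum over everything with an indicator -/
lemma sum_mem_eq (s : Finset V) (f : V → ℝ) : ∑ x ∈ s, f x = ∑ x, bo (x ∈ s) * f x := by
  classical
  rw [← Finset.sum_filter_add_sum_filter_not (Finset.univ) (fun x => x ∈ s)]
  have h1 : (Finset.univ.filter (fun x => x ∈ s)) = s := by ext; simp
  rw [h1]
  have h2 : ∑ x ∈ Finset.univ.filter (fun x => ¬ x ∈ s), bo (x ∈ s) * f x = 0 := by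
    apply Finset.sum_eq_zero
    intro x hx
    rw [bo_not (Finset.mem_filter.mp hx).2]; ring
  rw [h2, add_zero]
  apply Finset.sum_congr rfl
  intro x hx
  rw [bo_of hx]; ring

/-- Slot swap. -/
lemma slot_swap (C : V → Finset V) (g : V → V → ℝ) :
    ∑ c, ∑ u ∈ C c, g c u = ∑ u, ∑ c ∈ Finset.univ.filter (fun c => u ∈ C c), g c u := by
  apply Finset.sum_comm'
  intro c u
  simp

/-- Symmetric swap in a double sum over ordered pairs of distinct elements. -/
lemma erase_swap (C : Finset V) (f : V → V → ℝ) :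
    ∑ u ∈ C, ∑ y ∈ C.erase u, f u y = ∑ y ∈ C, ∑ u ∈ C.erase y, f u y := by
  apply Finset.sum_comm'
  intro u y
  simp only [Finset.mem_erase]
  constructor
  · rintro ⟨h1, h2, h3⟩; exact ⟨⟨(h2).symm, h1⟩, h3⟩
  · rintro ⟨⟨h2, h1⟩, h3⟩; exact ⟨h1, h2.symm, h3⟩

/-- Inner bound: a triple sum with an `I`-indicator, whose value depends only on the slot `(c,u)`. -/
lemma tri_slot_le (K : ℕ) (C : V → Finset V) (hC : ∀ x, (C x).card ≤ K)
    (I : V → V → V → Prop) (g : V → V → ℝ) (hg : ∀ c u, 0 ≤ g c u) :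
    ∑ c, ∑ u ∈ C c, ∑ y ∈ (C c).erase u, bo (I c u y) * g c u
      ≤ K * ∑ c, ∑ u ∈ C c, g c u := by
  rw [Finset.mul_sum]
  apply Finset.sum_le_sum
  intro c _
  rw [Finset.mul_sum]
  apply Finset.sum_le_sum
  intro u _
  have h1 : ∑ y ∈ (C c).erase u, bo (I c u y) * g c u ≤ ∑ _y ∈ (C c).erase u, g c u := by
    apply Finset.sum_le_sum
    intro y _
    have := bo_le_one (I c u y)
    have h2 := hg c u
    nlinarith
  refine le_trans h1 ?_
  rw [Finset.sum_const, nsmul_eq_mul]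
  have h3 : (((C c).erase u).card : ℝ) ≤ K := by
    exact_mod_cast le_trans (Finset.card_le_card (Finset.erase_subset _ _)) (hC c)
  exact mul_le_mul_of_nonneg_right h3 (hg c u)

/-- A triple sum with values on the slot `(w₁,w₂)` after reindexing: general `univ` form. -/
lemma tri_univ_le (K : ℕ) (C : V → Finset V) (hC : ∀ x, (C x).card ≤ K)
    (I : V → V → V → Prop) (g : V → V → ℝ) (hg : ∀ c u, 0 ≤ g c u)
    (hI : ∀ w₁ w₂ w₃, I w₁ w₂ w₃ → w₂ ∈ C w₁ ∧ w₃ ∈ C w₁) :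
    ∑ w₁, ∑ w₂, ∑ w₃, bo (I w₁ w₂ w₃) * g w₁ w₂ ≤ K * ∑ w₁, ∑ w₂ ∈ C w₁, g w₁ w₂ := by
  rw [Finset.mul_sum]
  apply Finset.sum_le_sum
  intro w₁ _
  rw [sum_mem_eq (C w₁), Finset.mul_sum]
  apply Finset.sum_le_sum
  intro w₂ _
  by_cases h2 : w₂ ∈ C w₁
  · rw [bo_of h2, one_mul]
    have h3 : ∑ w₃, bo (I w₁ w₂ w₃) * g w₁ w₂ ≤ ∑ w₃ ∈ C w₁, g w₁ w₂ := by
      rw [sum_mem_eq (C w₁)]
      apply Finset.sum_le_sum
      intro w₃ _
      apply mul_le_mul_of_nonneg_right _ (hg w₁ w₂)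
      exact bo_mono (fun h => (hI _ _ _ h).2)
    refine le_trans h3 ?_
    rw [Finset.sum_const, nsmul_eq_mul]
    have h4 : ((C w₁).card : ℝ) ≤ K := by exact_mod_cast hC w₁
    exact mul_le_mul_of_nonneg_right h4 (hg _ _)
  · rw [bo_not h2, zero_mul, mul_zero]
    apply le_of_eq
    apply Finset.sum_eq_zero
    intro w₃ _
    rw [bo_not (fun h => h2 (hI _ _ _ h).1), zero_mul]

/-- Rewriting a nested triple sum over children as a sum over everything. -/
lemma tri_eq_univ (C : V → Finset V) (h : V → V → V → ℝ) :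
    ∑ c, ∑ u ∈ C c, ∑ y ∈ (C c).erase u, h c u y
      = ∑ c, ∑ u, ∑ y, bo (u ∈ C c ∧ y ∈ C c ∧ y ≠ u) * h c u y := by
  apply Finset.sum_congr rfl
  intro c _
  rw [sum_mem_eq (C c)]
  apply Finset.sum_congr rfl
  intro u _
  by_cases hu : u ∈ C c
  · rw [bo_of hu, one_mul, sum_mem_eq ((C c).erase u)]
    apply Finset.sum_congr rfl
    intro y _
    congr 1
    unfold bo
    have : (y ∈ (C c).erase u) ↔ (u ∈ C c ∧ y ∈ C c ∧ y ≠ u) := by
      simp only [Finset.mem_erase]; tauto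
    simp [this]
  · rw [bo_not hu, zero_mul]
    symm
    apply Finset.sum_eq_zero
    intro y _
    rw [bo_not (fun h' => hu h'.1), zero_mul]

lemma bo_and (P Q : Prop) : bo (P ∧ Q) = bo P * bo Q := by
  by_cases a : P <;> by_cases b : Q <;> simp [bo, a, b]

/-- Hypotheses of the counting lemma. -/
structure CD (V : Type) [Fintype V] [DecidableEq V] where
  K : ℕ
  hK : 0 < K
  C : V → Finset V
  hC : ∀ x, (C x).card ≤ K
  hirr : ∀ x, x ∉ C x
  a : V → V → ℝ
  ha : ∀ x y, 0 ≤ a x y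
  Q : V → ℝ
  hQ : ∀ x, 0 ≤ Q x
  Sol : V → V → Prop
  Cv : V → V → V → ℝ
  hCv : ∀ x y z, 0 ≤ Cv x y z
  τ : V → V → V → ℝ
  hτ : ∀ c u y, 0 ≤ τ c u y
  Cf : ℝ
  hCf : 0 ≤ Cf
  Cm : ℝ
  hCm : 0 ≤ Cm
  R : ℝ
  hR : 0 ≤ R
  π₀ : ℝ
  hπ₀ : 0 < π₀
  κ₁ : ℝ
  hκ₁ : 0 ≤ κ₁
  M : ℝ
  hM : 0 ≤ M
  E₁ : ℝ
  hE₁ : 0 ≤ E₁
  E₂ : ℝ
  hE₂ : 0 ≤ E₂
  E₃ : ℝ
  hE₃ : 0 ≤ E₃
  H0 : ∀ c, (K : ℝ) - (C c).card ≤ 2 * K * Q c
  H1 : ∀ c, ∑ u ∈ C c, bo (¬ Sol c u) ≤ 4 * K * Q c
  H2 : ∀ c u, u ∈ C c → Sol c u →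
    ((C u \ insert c (C c)).card : ℝ) ≤ K * (Cf * (a c u + Q u))
  H3 : ∀ c u, u ∈ C c → Sol c u → c ∉ C u → 1 ≤ Cm * (a c u + Q u)
  H4 : ∀ u, π₀ * ∑ c, bo (u ∈ C c ∧ Sol c u) ≤ K * R + ∑ c, bo (u ∈ C c) * a c u
  H5 : ∀ c u, u ∈ C c → ∀ Y : Finset V, Y ⊆ (C c).erase u → (∀ y ∈ Y, y ∈ C u) →
    (κ₁ / K) * ∑ y ∈ Y, τ c u y ≤ a c u
  H6 : ∀ c u y, u ∈ C c → y ∈ C c → y ≠ u → Sol c u → Sol c y → c ∈ C u → c ∈ C y →
    y ∈ C u → u ∈ C y → Sol u y →
    M - E₁ * (((C u \ insert c (C c)).card : ℝ) / K + ((C y \ insert c (C c)).card : ℝ) / K + Q u)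
      - E₂ * (Cv c u y + Cv y u c) - E₃ * (a u y + a y u + a c y + a y c) ≤ τ c u y
  H7 : ∀ x, ∑ y ∈ C x, ∑ z ∈ (C x).erase y, Cv x y z ≤ (K : ℝ) ^ 2 * Q x

namespace CD

variable (D : CD V)

/-- hub threshold -/
noncomputable def D₀ : ℝ := 2 * D.R / D.π₀

/-- solid in-degree -/
noncomputable def m (u : V) : ℝ := ∑ c, bo (u ∈ D.C c ∧ D.Sol c u)

/-- not a hub -/
def Light (u : V) : Prop := D.m u ≤ D.D₀ * D.K

/-- good slot -/
def Lc (c u : V) : Prop := u ∈ D.C c ∧ D.Sol c u ∧ D.Light u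

/-- total asymmetry -/
noncomputable def Atot : ℝ := ∑ c, ∑ u ∈ D.C c, D.a c u

/-- total quality defect -/
noncomputable def TT : ℝ := ∑ x, D.Q x

lemma hKpos : (0 : ℝ) < D.K := by exact_mod_cast D.hK

lemma Atot_nonneg : 0 ≤ D.Atot :=
  Finset.sum_nonneg (fun c _ => Finset.sum_nonneg (fun u _ => D.ha c u))

lemma TT_nonneg : 0 ≤ D.TT := Finset.sum_nonneg (fun x _ => D.hQ x)

lemma D₀_nonneg : 0 ≤ D.D₀ := by
  unfold D₀
  have := D.hR
  have := D.hπ₀
  positivity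

lemma m_nonneg (u : V) : 0 ≤ D.m u := Finset.sum_nonneg (fun _ _ => bo_nonneg _)

/-- `Atot` as a sum over in-slots. -/
lemma Atot_swap : D.Atot = ∑ u, ∑ c, bo (u ∈ D.C c) * D.a c u := by
  unfold Atot
  have : ∀ c, ∑ u ∈ D.C c, D.a c u = ∑ u, bo (u ∈ D.C c) * D.a c u :=
    fun c => sum_mem_eq (D.C c) (D.a c)
  simp only [this]
  rw [Finset.sum_comm]

lemma Cfn (c u : V) : 0 ≤ D.a c u + D.Q u := add_nonneg (D.ha _ _) (D.hQ _)

/-- Hubs carry asymmetry. -/
lemma heavy_le (u : V) (h : ¬ D.Light u) :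
    D.m u ≤ (2 / D.π₀) * ∑ c, bo (u ∈ D.C c) * D.a c u := by
  have h4 := D.H4 u
  have hlt : D.D₀ * D.K < D.m u := not_le.mp h
  have hπ := D.hπ₀
  have e : D.π₀ * (D.D₀ * D.K) = 2 * (D.K * D.R) := by
    unfold D₀; field_simp
  have h5 : D.π₀ * (D.D₀ * D.K) < D.π₀ * D.m u := mul_lt_mul_of_pos_left hlt hπ
  rw [e] at h5
  change D.π₀ * D.m u ≤ _ at h4
  rw [div_mul_eq_mul_div, le_div_iff₀ hπ]
  linarith

/-- Number of non-good slots. -/
lemma nonL_le : ∑ c, ∑ u ∈ D.C c, bo (¬ D.Lc c u) ≤ 4 * D.K * D.TT + (2 / D.π₀) * D.Atot := by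
  have hpt : ∀ c, ∀ u ∈ D.C c, bo (¬ D.Lc c u) ≤
      bo (¬ D.Sol c u) + bo (u ∈ D.C c ∧ D.Sol c u) * bo (¬ D.Light u) := by
    intro c u hu
    by_cases h1 : D.Sol c u
    · by_cases h2 : D.Light u
      · have hL : D.Lc c u := ⟨hu, h1, h2⟩
        rw [bo_not (not_not.mpr hL)]
        have := bo_nonneg (¬ D.Sol c u)
        have h3 := mul_nonneg (bo_nonneg (u ∈ D.C c ∧ D.Sol c u)) (bo_nonneg (¬ D.Light u))
        linarith
      · rw [bo_of (⟨hu, h1⟩ : u ∈ D.C c ∧ D.Sol c u), bo_of h2, mul_one]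
        have := bo_le_one (¬ D.Lc c u)
        have := bo_nonneg (¬ D.Sol c u)
        linarith
    · rw [bo_of h1]
      have := bo_le_one (¬ D.Lc c u)
      have h3 := mul_nonneg (bo_nonneg (u ∈ D.C c ∧ D.Sol c u)) (bo_nonneg (¬ D.Light u))
      linarith
  have h1 : ∑ c, ∑ u ∈ D.C c, bo (¬ D.Lc c u) ≤
      ∑ c, (∑ u ∈ D.C c, bo (¬ D.Sol c u)
        + ∑ u ∈ D.C c, bo (u ∈ D.C c ∧ D.Sol c u) * bo (¬ D.Light u)) := by
    apply Finset.sum_le_sum
    intro c _
    rw [← Finset.sum_add_distrib]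
    exact Finset.sum_le_sum (hpt c)
  refine le_trans h1 ?_
  rw [Finset.sum_add_distrib]
  apply add_le_add
  · have : ∑ c, ∑ u ∈ D.C c, bo (¬ D.Sol c u) ≤ ∑ c, 4 * (D.K : ℝ) * D.Q c :=
      Finset.sum_le_sum (fun c _ => D.H1 c)
    refine le_trans this (le_of_eq ?_)
    unfold TT
    rw [Finset.mul_sum]
  · have h2 : ∀ c, ∑ u ∈ D.C c, bo (u ∈ D.C c ∧ D.Sol c u) * bo (¬ D.Light u)
        ≤ ∑ u, bo (u ∈ D.C c ∧ D.Sol c u) * bo (¬ D.Light u) := by
      intro c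
      apply Finset.sum_le_sum_of_subset_of_nonneg (Finset.subset_univ _)
      intro u _ _
      exact mul_nonneg (bo_nonneg _) (bo_nonneg _)
    refine le_trans (Finset.sum_le_sum (fun c _ => h2 c)) ?_
    rw [Finset.sum_comm]
    have h3 : ∀ u, ∑ c, bo (u ∈ D.C c ∧ D.Sol c u) * bo (¬ D.Light u)
        ≤ (2 / D.π₀) * ∑ c, bo (u ∈ D.C c) * D.a c u := by
      intro u
      rw [← Finset.sum_mul]
      by_cases hL : D.Light u
      · rw [bo_not (not_not.mpr hL), mul_zero]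
        apply mul_nonneg
        · have := D.hπ₀
          positivity
        · exact Finset.sum_nonneg (fun c _ => mul_nonneg (bo_nonneg _) (D.ha _ _))
      · rw [bo_of hL, mul_one]
        exact D.heavy_le u hL
    refine le_trans (Finset.sum_le_sum (fun u _ => h3 u)) (le_of_eq ?_)
    rw [← Finset.mul_sum, ← D.Atot_swap]

/-- Weighted sum over good slots. -/
noncomputable def YY : ℝ := ∑ c, ∑ u ∈ D.C c, bo (D.Lc c u) * (D.a c u + D.Q u)

lemma YY_nonneg : 0 ≤ D.YY :=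
  Finset.sum_nonneg (fun c _ => Finset.sum_nonneg (fun u _ => mul_nonneg (bo_nonneg _) (D.Cfn c u)))

lemma YY_le : D.YY ≤ D.Atot + D.D₀ * D.K * D.TT := by
  have h1 : ∀ c, ∀ u ∈ D.C c, bo (D.Lc c u) * (D.a c u + D.Q u) ≤ D.a c u + bo (D.Lc c u) * D.Q u := by
    intro c u _
    have a1 := bo_le_one (D.Lc c u)
    have a2 := D.ha c u
    nlinarith
  have h2 : D.YY ≤ D.Atot + ∑ c, ∑ u ∈ D.C c, bo (D.Lc c u) * D.Q u := by
    unfold YY Atot
    rw [← Finset.sum_add_distrib]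
    apply Finset.sum_le_sum
    intro c _
    rw [← Finset.sum_add_distrib]
    exact Finset.sum_le_sum (h1 c)
  refine le_trans h2 ?_
  have h3 : ∑ c, ∑ u ∈ D.C c, bo (D.Lc c u) * D.Q u ≤ D.D₀ * D.K * D.TT := by
    have h4 : ∀ c, ∑ u ∈ D.C c, bo (D.Lc c u) * D.Q u ≤ ∑ u, bo (D.Lc c u) * D.Q u := by
      intro c
      apply Finset.sum_le_sum_of_subset_of_nonneg (Finset.subset_univ _)
      intro u _ _
      exact mul_nonneg (bo_nonneg _) (D.hQ _)
    refine le_trans (Finset.sum_le_sum (fun c _ => h4 c)) ?_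
    rw [Finset.sum_comm]
    unfold TT
    rw [Finset.mul_sum]
    apply Finset.sum_le_sum
    intro u _
    rw [← Finset.sum_mul]
    apply mul_le_mul_of_nonneg_right _ (D.hQ u)
    by_cases hL : D.Light u
    · have : ∑ c, bo (D.Lc c u) ≤ D.m u :=
        Finset.sum_le_sum (fun c _ => bo_mono (fun h => ⟨h.1, h.2.1⟩))
      exact le_trans this hL
    · have : ∑ c, bo (D.Lc c u) = 0 :=
        Finset.sum_eq_zero (fun c _ => bo_not (fun h => hL h.2.2))
      rw [this]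
      exact mul_nonneg D.D₀_nonneg D.hKpos.le
  linarith

lemma sum_bo_le_of_subset (E T : Finset V) (P : V → Prop) (h : ∀ y ∈ E, P y → y ∈ T) :
    ∑ y ∈ E, bo (P y) ≤ (T.card : ℝ) := by
  have h1 : ∑ y ∈ E, bo (P y) ≤ ∑ y ∈ E, bo (y ∈ T) := by
    apply Finset.sum_le_sum
    intro y hy
    exact bo_mono (h y hy)
  have h2 : ∑ y ∈ E, bo (y ∈ T) ≤ ∑ y, bo (y ∈ T) :=
    Finset.sum_le_sum_of_subset_of_nonneg (Finset.subset_univ _) (fun _ _ _ => bo_nonneg _)
  have h3 : ∑ y, bo (y ∈ T) = (T.card : ℝ) := by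
    have := sum_mem_eq T (fun _ => 1)
    simp only [mul_one, Finset.sum_const, nsmul_eq_mul] at this
    exact this.symm
  linarith

/-- Size comparison of closed neighbourhoods. -/
lemma card_N_sdiff {c u : V} (hu : u ∈ D.C c) :
    ((insert c (D.C c) \ insert u (D.C u)).card : ℝ)
      ≤ ((D.K : ℝ) - (D.C u).card) + ((D.C u \ insert c (D.C c)).card : ℝ) := by
  set Nc := insert c (D.C c) with hNc
  set Nu := insert u (D.C u) with hNu
  have h1 : Nc.card ≤ D.K + 1 := le_trans (Finset.card_insert_le _ _) (by have := D.hC c; omega)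
  have h2 : Nu.card = (D.C u).card + 1 := Finset.card_insert_of_notMem (D.hirr u)
  have h3 := Finset.card_sdiff_add_card_inter Nc Nu
  have h4 := Finset.card_sdiff_add_card_inter Nu Nc
  rw [Finset.inter_comm] at h4
  have h5 : Nu \ Nc ⊆ D.C u \ Nc := by
    intro z hz
    obtain ⟨hz1, hz2⟩ := Finset.mem_sdiff.mp hz
    rcases Finset.mem_insert.mp hz1 with rfl | hz3
    · exact absurd (Finset.mem_insert_of_mem hu) hz2
    · exact Finset.mem_sdiff.mpr ⟨hz3, hz2⟩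
  have h6 := Finset.card_le_card h5
  have h7 : (D.C u).card ≤ D.K := D.hC u
  have h8 : (Nc \ Nu).card + (D.C u).card ≤ D.K + (D.C u \ Nc).card := by omega
  have h9 : ((Nc \ Nu).card : ℝ) + (D.C u).card ≤ D.K + ((D.C u \ Nc).card : ℝ) := by
    exact_mod_cast h8
  linarith

/-- Children of `c` missing from `C_u` (good slot). -/
lemma miss_le {c u : V} (h : D.Lc c u) :
    ∑ y ∈ (D.C c).erase u, bo (y ∉ D.C u) ≤ D.K * ((2 + D.Cf) * (D.a c u + D.Q u)) := by
  obtain ⟨hu, hS, _⟩ := h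
  have h1 := D.card_N_sdiff hu
  have h2 := D.H0 u
  have h3 := D.H2 c u hu hS
  have h4 : ∑ y ∈ (D.C c).erase u, bo (y ∉ D.C u)
      ≤ ((insert c (D.C c) \ insert u (D.C u)).card : ℝ) := by
    apply sum_bo_le_of_subset
    intro y hy1 hy2
    obtain ⟨hy3, hy4⟩ := Finset.mem_erase.mp hy1
    refine Finset.mem_sdiff.mpr ⟨Finset.mem_insert_of_mem hy4, ?_⟩
    intro hy5
    rcases Finset.mem_insert.mp hy5 with h6 | h6
    · exact hy3 h6
    · exact hy2 h6
  have hK := D.hKpos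
  have ha := D.ha c u
  have hQ := D.hQ u
  have hCf := D.hCf
  have h5 : (2 : ℝ) * D.K * D.Q u ≤ D.K * (2 * (D.a c u + D.Q u)) := by
    have : 0 ≤ (D.K : ℝ) * (2 * D.a c u) := by positivity
    nlinarith
  nlinarith

/-- The bad part of a triple. -/
noncomputable def B (c u y : V) : ℝ :=
  bo (¬ D.Lc c u) + bo (D.Lc c u) * bo (c ∉ D.C u) + bo (D.Lc c u) * bo (y ∉ D.C u)
    + bo (D.Lc c u) * bo (y ∈ D.C u ∧ ¬ D.Sol u y)

lemma sum_erase_const_le (C : Finset V) (u : V) (K : ℕ) (hC : C.card ≤ K) {x : ℝ} (hx : 0 ≤ x) :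
    ∑ _y ∈ C.erase u, x ≤ K * x := by
  rw [Finset.sum_const, nsmul_eq_mul]
  apply mul_le_mul_of_nonneg_right _ hx
  exact_mod_cast le_trans (Finset.card_le_card (Finset.erase_subset _ _)) hC

/-- Inner sum of `B`. -/
lemma B_inner {c u : V} (_hu : u ∈ D.C c) :
    ∑ y ∈ (D.C c).erase u, D.B c u y ≤ D.K * bo (¬ D.Lc c u)
      + D.K * ((D.Cm + D.Cf + 6) * (bo (D.Lc c u) * (D.a c u + D.Q u))) := by
  have hK := D.hKpos
  by_cases hL : D.Lc c u
  · have e : ∀ y, D.B c u y = 0 + 1 * bo (c ∉ D.C u) + 1 * bo (y ∉ D.C u)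
        + 1 * bo (y ∈ D.C u ∧ ¬ D.Sol u y) := by
      intro y
      unfold B
      rw [bo_of hL, bo_not (not_not.mpr hL)]
    simp only [e, zero_add, one_mul]
    rw [bo_of hL, bo_not (not_not.mpr hL), one_mul, mul_zero, zero_add]
    rw [Finset.sum_add_distrib, Finset.sum_add_distrib]
    have hA := D.Cfn c u
    -- first
    have h1 : ∑ _y ∈ (D.C c).erase u, bo (c ∉ D.C u) ≤ D.K * (D.Cm * (D.a c u + D.Q u)) := by
      refine le_trans (sum_erase_const_le _ _ _ (D.hC c) (bo_nonneg _)) ?_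
      apply mul_le_mul_of_nonneg_left _ hK.le
      by_cases hc : c ∈ D.C u
      · rw [bo_not (not_not.mpr hc)]
        exact mul_nonneg D.hCm hA
      · rw [bo_of hc]
        exact D.H3 c u hL.1 hL.2.1 hc
    have h2 := D.miss_le hL
    -- third
    have h3 : ∑ y ∈ (D.C c).erase u, bo (y ∈ D.C u ∧ ¬ D.Sol u y) ≤ 4 * D.K * D.Q u := by
      have h4 : ∑ y ∈ (D.C c).erase u, bo (y ∈ D.C u ∧ ¬ D.Sol u y)
          ≤ ∑ y, bo (y ∈ D.C u ∧ ¬ D.Sol u y) := by
        apply Finset.sum_le_sum_of_subset_of_nonneg (Finset.subset_univ _)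
        intro y _ _
        exact bo_nonneg _
      refine le_trans h4 ?_
      have h5 : ∑ y, bo (y ∈ D.C u ∧ ¬ D.Sol u y) = ∑ y ∈ D.C u, bo (¬ D.Sol u y) := by
        rw [sum_mem_eq (D.C u)]
        apply Finset.sum_congr rfl
        intro y _
        rw [bo_and]
      rw [h5]
      exact D.H1 u
    have h6 : 4 * (D.K : ℝ) * D.Q u ≤ D.K * (4 * (D.a c u + D.Q u)) := by
      have := D.ha c u
      have : 0 ≤ (D.K : ℝ) * D.a c u := by positivity
      nlinarith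
    have e2 : (D.K : ℝ) * ((D.Cm + D.Cf + 6) * (D.a c u + D.Q u))
        = D.K * (D.Cm * (D.a c u + D.Q u)) + D.K * ((2 + D.Cf) * (D.a c u + D.Q u))
          + D.K * (4 * (D.a c u + D.Q u)) := by ring
    rw [e2]
    linarith
  · have e : ∀ y, D.B c u y = 1 := by
      intro y
      unfold B
      rw [bo_of hL, bo_not hL]
      ring
    simp only [e]
    rw [bo_of hL, bo_not hL, zero_mul, mul_zero]
    have := sum_erase_const_le (D.C c) u D.K (D.hC c) (x := 1) (by norm_num)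
    linarith

/-- Sum of `B`. -/
lemma B_sum : ∑ c, ∑ u ∈ D.C c, ∑ y ∈ (D.C c).erase u, D.B c u y
    ≤ D.K * (4 * D.K * D.TT + (2 / D.π₀) * D.Atot) + D.K * ((D.Cm + D.Cf + 6) * D.YY) := by
  have hK := D.hKpos
  have h1 : ∑ c, ∑ u ∈ D.C c, ∑ y ∈ (D.C c).erase u, D.B c u y
      ≤ D.K * (∑ c, ∑ u ∈ D.C c, bo (¬ D.Lc c u)) + D.K * ((D.Cm + D.Cf + 6) * D.YY) := by
    unfold YY
    rw [Finset.mul_sum, Finset.mul_sum, Finset.mul_sum, ← Finset.sum_add_distrib]
    apply Finset.sum_le_sum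
    intro c _
    rw [Finset.mul_sum, Finset.mul_sum, Finset.mul_sum, ← Finset.sum_add_distrib]
    exact Finset.sum_le_sum (fun u hu => D.B_inner hu)
  refine le_trans h1 ?_
  have h2 := D.nonL_le
  have := mul_le_mul_of_nonneg_left h2 hK.le
  linarith

/-- A good triple. -/
def Tri (c u y : V) : Prop :=
  D.Lc c u ∧ D.Lc c y ∧ c ∈ D.C u ∧ c ∈ D.C y ∧ y ∈ D.C u ∧ u ∈ D.C y ∧ D.Sol u y

lemma one_le_tri (c u y : V) : 1 ≤ bo (D.Tri c u y) + D.B c u y + D.B c y u := by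
  by_cases ht : D.Tri c u y
  · rw [bo_of ht]
    have h1 : 0 ≤ D.B c u y := by
      unfold B
      have := bo_nonneg (¬ D.Lc c u)
      have := mul_nonneg (bo_nonneg (D.Lc c u)) (bo_nonneg (c ∉ D.C u))
      have := mul_nonneg (bo_nonneg (D.Lc c u)) (bo_nonneg (y ∉ D.C u))
      have := mul_nonneg (bo_nonneg (D.Lc c u)) (bo_nonneg (y ∈ D.C u ∧ ¬ D.Sol u y))
      linarith
    have h2 : 0 ≤ D.B c y u := by
      unfold B
      have := bo_nonneg (¬ D.Lc c y)
      have := mul_nonneg (bo_nonneg (D.Lc c y)) (bo_nonneg (c ∉ D.C y))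
      have := mul_nonneg (bo_nonneg (D.Lc c y)) (bo_nonneg (u ∉ D.C y))
      have := mul_nonneg (bo_nonneg (D.Lc c y)) (bo_nonneg (u ∈ D.C y ∧ ¬ D.Sol y u))
      linarith
    linarith
  · rw [bo_not ht, zero_add]
    have h1 : 0 ≤ D.B c y u := by
      unfold B
      have := bo_nonneg (¬ D.Lc c y)
      have := mul_nonneg (bo_nonneg (D.Lc c y)) (bo_nonneg (c ∉ D.C y))
      have := mul_nonneg (bo_nonneg (D.Lc c y)) (bo_nonneg (u ∉ D.C y))
      have := mul_nonneg (bo_nonneg (D.Lc c y)) (bo_nonneg (u ∈ D.C y ∧ ¬ D.Sol y u))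
      linarith
    have h2 : 0 ≤ D.B c u y := by
      unfold B
      have := bo_nonneg (¬ D.Lc c u)
      have := mul_nonneg (bo_nonneg (D.Lc c u)) (bo_nonneg (c ∉ D.C u))
      have := mul_nonneg (bo_nonneg (D.Lc c u)) (bo_nonneg (y ∉ D.C u))
      have := mul_nonneg (bo_nonneg (D.Lc c u)) (bo_nonneg (y ∈ D.C u ∧ ¬ D.Sol u y))
      linarith
    by_cases a1 : D.Lc c u
    · by_cases a2 : c ∈ D.C u
      · by_cases a3 : y ∈ D.C u
        · by_cases a4 : D.Sol u y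
          · -- then the `y` side fails
            by_cases b1 : D.Lc c y
            · by_cases b2 : c ∈ D.C y
              · by_cases b3 : u ∈ D.C y
                · exact absurd ⟨a1, b1, a2, b2, a3, b3, a4⟩ ht
                · have : D.B c y u = 0 + 1 * 0 + 1 * 1 + 1 * 0 := by
                    unfold B
                    rw [bo_not (not_not.mpr b1), bo_of b1, bo_not (not_not.mpr b2), bo_of b3,
                      bo_not (fun h : u ∈ D.C y ∧ ¬ D.Sol y u => b3 h.1)]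
                  linarith
              · have h3 : 1 ≤ D.B c y u := by
                  unfold B
                  rw [bo_not (not_not.mpr b1), bo_of b1, bo_of b2]
                  have := bo_nonneg (u ∉ D.C y)
                  have := bo_nonneg (u ∈ D.C y ∧ ¬ D.Sol y u)
                  linarith
                linarith
            · have h3 : 1 ≤ D.B c y u := by
                unfold B
                rw [bo_of b1, bo_not b1]
                norm_num
              linarith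
          · have h3 : 1 ≤ D.B c u y := by
              unfold B
              rw [bo_not (not_not.mpr a1), bo_of a1, bo_of (⟨a3, a4⟩ : y ∈ D.C u ∧ ¬ D.Sol u y)]
              have := bo_nonneg (c ∉ D.C u)
              have := bo_nonneg (y ∉ D.C u)
              linarith
            linarith
        · have h3 : 1 ≤ D.B c u y := by
            unfold B
            rw [bo_not (not_not.mpr a1), bo_of a1, bo_of a3]
            have := bo_nonneg (c ∉ D.C u)
            have := bo_nonneg (y ∈ D.C u ∧ ¬ D.Sol u y)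
            linarith
          linarith
      · have h3 : 1 ≤ D.B c u y := by
          unfold B
          rw [bo_not (not_not.mpr a1), bo_of a1, bo_of a2]
          have := bo_nonneg (y ∉ D.C u)
          have := bo_nonneg (y ∈ D.C u ∧ ¬ D.Sol u y)
          linarith
        linarith
    · have h3 : 1 ≤ D.B c u y := by
        unfold B
        rw [bo_of a1, bo_not a1]
        norm_num
      linarith

/-- Total number of ordered sibling triples. -/
lemma all_ge : (Fintype.card V : ℝ) * (D.K : ℝ) ^ 2 - (Fintype.card V : ℝ) * D.K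
      - 4 * (D.K : ℝ) ^ 2 * D.TT
    ≤ ∑ c, ∑ u ∈ D.C c, ∑ _y ∈ (D.C c).erase u, (1 : ℝ) := by
  have hK := D.hKpos
  have h1 : ∀ c : V, (D.K : ℝ) ^ 2 - D.K - 4 * (D.K : ℝ) ^ 2 * D.Q c
      ≤ ∑ u ∈ D.C c, ∑ _y ∈ (D.C c).erase u, (1 : ℝ) := by
    intro c
    have h2 : ∑ u ∈ D.C c, ∑ _y ∈ (D.C c).erase u, (1 : ℝ)
        = ((D.C c).card : ℝ) * ((D.C c).card - 1) := by
      have h3 : ∀ u ∈ D.C c, ∑ _y ∈ (D.C c).erase u, (1 : ℝ) = ((D.C c).card : ℝ) - 1 := by
        intro u hu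
        rw [Finset.sum_const, nsmul_eq_mul, mul_one, Finset.card_erase_of_mem hu]
        have : 1 ≤ (D.C c).card := Finset.card_pos.mpr ⟨u, hu⟩
        push_cast [Nat.cast_sub this]
        ring
      rw [Finset.sum_congr rfl h3, Finset.sum_const, nsmul_eq_mul]
    rw [h2]
    have h4 := D.H0 c
    have hc0 : (D.C c).card ≤ D.K := D.hC c
    have hc : ((D.C c).card : ℝ) ≤ D.K := by exact_mod_cast hc0
    set t := (D.K : ℝ) - (D.C c).card with ht
    have ht0 : 0 ≤ t := by linarith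
    have e : ((D.C c).card : ℝ) = D.K - t := by rw [ht]; ring
    rw [e]
    have h5 : 2 * (D.K : ℝ) * t ≤ 4 * (D.K : ℝ) ^ 2 * D.Q c := by
      have : (2 : ℝ) * D.K * t ≤ 2 * D.K * (2 * D.K * D.Q c) :=
        mul_le_mul_of_nonneg_left h4 (by positivity)
      nlinarith
    nlinarith [sq_nonneg t]
  have h2 := Finset.sum_le_sum (fun c (_ : c ∈ (Finset.univ : Finset V)) => h1 c)
  refine le_trans (le_of_eq ?_) h2
  unfold TT
  rw [Finset.sum_sub_distrib, Finset.sum_sub_distrib, Finset.sum_const, Finset.sum_const,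
    ← Finset.mul_sum, Finset.card_univ, nsmul_eq_mul, nsmul_eq_mul]

/-- Sum over good triples of a function. -/
noncomputable def TriS (F : V → V → V → ℝ) : ℝ :=
  ∑ c, ∑ u ∈ D.C c, ∑ y ∈ (D.C c).erase u, bo (D.Tri c u y) * F c u y

lemma TriS_add (F G : V → V → V → ℝ) :
    D.TriS (fun c u y => F c u y + G c u y) = D.TriS F + D.TriS G := by
  unfold TriS
  rw [← Finset.sum_add_distrib]
  apply Finset.sum_congr rfl
  intro c _
  rw [← Finset.sum_add_distrib]
  apply Finset.sum_congr rfl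
  intro u _
  rw [← Finset.sum_add_distrib]
  apply Finset.sum_congr rfl
  intro y _
  ring

lemma TriS_smul (k : ℝ) (F : V → V → V → ℝ) :
    D.TriS (fun c u y => k * F c u y) = k * D.TriS F := by
  unfold TriS
  rw [Finset.mul_sum]
  apply Finset.sum_congr rfl
  intro c _
  rw [Finset.mul_sum]
  apply Finset.sum_congr rfl
  intro u _
  rw [Finset.mul_sum]
  apply Finset.sum_congr rfl
  intro y _
  ring

lemma TriS_sub (F G : V → V → V → ℝ) :
    D.TriS (fun c u y => F c u y - G c u y) = D.TriS F - D.TriS G := by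
  have := D.TriS_add F (fun c u y => (-1) * G c u y)
  rw [D.TriS_smul] at this
  have e : (fun c u y => F c u y - G c u y) = (fun c u y => F c u y + (-1) * G c u y) := by
    funext c u y; ring
  rw [e, this]; ring

/-- Number of good triples is large. -/
lemma TriS_one_ge : (Fintype.card V : ℝ) * (D.K : ℝ) ^ 2 - (Fintype.card V : ℝ) * D.K
      - 4 * (D.K : ℝ) ^ 2 * D.TT
      - 2 * (D.K * (4 * D.K * D.TT + (2 / D.π₀) * D.Atot) + D.K * ((D.Cm + D.Cf + 6) * D.YY))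
    ≤ D.TriS (fun _ _ _ => 1) := by
  have h1 := D.all_ge
  have h2 := D.B_sum
  have h3 : ∑ c, ∑ u ∈ D.C c, ∑ _y ∈ (D.C c).erase u, (1 : ℝ)
      ≤ D.TriS (fun _ _ _ => 1)
        + ∑ c, ∑ u ∈ D.C c, ∑ y ∈ (D.C c).erase u, D.B c u y
        + ∑ c, ∑ u ∈ D.C c, ∑ y ∈ (D.C c).erase u, D.B c y u := by
    unfold TriS
    rw [← Finset.sum_add_distrib, ← Finset.sum_add_distrib]
    apply Finset.sum_le_sum
    intro c _
    rw [← Finset.sum_add_distrib, ← Finset.sum_add_distrib]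
    apply Finset.sum_le_sum
    intro u _
    rw [← Finset.sum_add_distrib, ← Finset.sum_add_distrib]
    apply Finset.sum_le_sum
    intro y _
    have := D.one_le_tri c u y
    simp only [mul_one]
    exact this
  have h4 : ∑ c, ∑ u ∈ D.C c, ∑ y ∈ (D.C c).erase u, D.B c y u
      = ∑ c, ∑ u ∈ D.C c, ∑ y ∈ (D.C c).erase u, D.B c u y := by
    apply Finset.sum_congr rfl
    intro c _
    exact erase_swap (D.C c) (fun u y => D.B c y u)
  rw [h4] at h3
  linarith

/-- Slot-valued functions on good triples, first coordinate. -/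
lemma TriS_slot_left (g : V → V → ℝ) (hg : ∀ c u, 0 ≤ g c u) :
    D.TriS (fun c u _ => g c u) ≤ D.K * ∑ c, ∑ u ∈ D.C c, bo (D.Lc c u) * g c u := by
  unfold TriS
  rw [Finset.mul_sum]
  apply Finset.sum_le_sum
  intro c _
  rw [Finset.mul_sum]
  apply Finset.sum_le_sum
  intro u _
  have h1 : ∑ y ∈ (D.C c).erase u, bo (D.Tri c u y) * g c u ≤ ∑ _y ∈ (D.C c).erase u, bo (D.Lc c u) * g c u := by
    apply Finset.sum_le_sum
    intro y _
    apply mul_le_mul_of_nonneg_right _ (hg c u)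
    exact bo_mono (fun h => h.1)
  refine le_trans h1 ?_
  exact sum_erase_const_le _ _ _ (D.hC c) (mul_nonneg (bo_nonneg _) (hg c u))

/-- Slot-valued functions on good triples, second coordinate. -/
lemma TriS_slot_right (g : V → V → ℝ) (hg : ∀ c u, 0 ≤ g c u) :
    D.TriS (fun c _ y => g c y) ≤ D.K * ∑ c, ∑ u ∈ D.C c, bo (D.Lc c u) * g c u := by
  unfold TriS
  rw [Finset.mul_sum]
  apply Finset.sum_le_sum
  intro c _
  rw [erase_swap (D.C c) (fun u y => bo (D.Tri c u y) * g c y), Finset.mul_sum]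
  apply Finset.sum_le_sum
  intro y _
  have h1 : ∑ u ∈ (D.C c).erase y, bo (D.Tri c u y) * g c y ≤ ∑ _u ∈ (D.C c).erase y, bo (D.Lc c y) * g c y := by
    apply Finset.sum_le_sum
    intro u _
    apply mul_le_mul_of_nonneg_right _ (hg c y)
    exact bo_mono (fun h => h.2.1)
  refine le_trans h1 ?_
  exact sum_erase_const_le _ _ _ (D.hC c) (mul_nonneg (bo_nonneg _) (hg c y))

/-- The value on good slots. -/
lemma slot_f_le : ∑ c, ∑ u ∈ D.C c, bo (D.Lc c u) * (((D.C u \ insert c (D.C c)).card : ℝ) / D.K)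
    ≤ D.Cf * D.YY := by
  unfold YY
  rw [Finset.mul_sum]
  apply Finset.sum_le_sum
  intro c _
  rw [Finset.mul_sum]
  apply Finset.sum_le_sum
  intro u hu
  by_cases hL : D.Lc c u
  · rw [bo_of hL, one_mul, one_mul, div_le_iff₀ D.hKpos]
    have := D.H2 c u hu hL.2.1
    linarith
  · rw [bo_not hL, zero_mul, zero_mul, mul_zero]

lemma slot_Q_le : ∑ c, ∑ u ∈ D.C c, bo (D.Lc c u) * D.Q u ≤ D.YY := by
  unfold YY
  apply Finset.sum_le_sum
  intro c _
  apply Finset.sum_le_sum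
  intro u _
  apply mul_le_mul_of_nonneg_left _ (bo_nonneg _)
  have := D.ha c u
  linarith

/-- Sibling covariance at `c` on good triples. -/
lemma TriS_Cv1 : D.TriS (fun c u y => D.Cv c u y) ≤ (D.K : ℝ) ^ 2 * D.TT := by
  unfold TT
  rw [Finset.mul_sum]
  unfold TriS
  apply Finset.sum_le_sum
  intro c _
  refine le_trans ?_ (D.H7 c)
  apply Finset.sum_le_sum
  intro u _
  apply Finset.sum_le_sum
  intro y _
  have := bo_le_one (D.Tri c u y)
  have h2 := D.hCv c u y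
  nlinarith

/-- Reindexing the triple sum to root `y`. -/
lemma TriS_Cv2 : D.TriS (fun c u y => D.Cv y u c) ≤ (D.K : ℝ) ^ 2 * D.TT := by
  unfold TT
  rw [Finset.mul_sum]
  have h1 : D.TriS (fun c u y => D.Cv y u c)
      ≤ ∑ y, ∑ u ∈ D.C y, ∑ c ∈ (D.C y).erase u, D.Cv y u c := by
    unfold TriS
    rw [tri_eq_univ]
    rw [tri_eq_univ (D.C) (fun y u c => D.Cv y u c)]
    have h2 : ∑ c, ∑ u, ∑ y, bo (u ∈ D.C c ∧ y ∈ D.C c ∧ y ≠ u) * (bo (D.Tri c u y) * D.Cv y u c)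
        ≤ ∑ c, ∑ u, ∑ y, bo (u ∈ D.C y ∧ c ∈ D.C y ∧ c ≠ u) * D.Cv y u c := by
      apply Finset.sum_le_sum
      intro c _
      apply Finset.sum_le_sum
      intro u _
      apply Finset.sum_le_sum
      intro y _
      by_cases ht : (u ∈ D.C c ∧ y ∈ D.C c ∧ y ≠ u) ∧ D.Tri c u y
      · obtain ⟨⟨h1, h2, h3⟩, h4⟩ := ht
        have hcu : c ≠ u := fun e => D.hirr c (e ▸ h1)
        rw [bo_of (⟨h1, h2, h3⟩ : u ∈ D.C c ∧ y ∈ D.C c ∧ y ≠ u), bo_of h4,
          bo_of (⟨h4.2.2.2.2.2.1, h4.2.2.2.1, hcu⟩ : u ∈ D.C y ∧ c ∈ D.C y ∧ c ≠ u)]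
        linarith
      · have h5 : bo (u ∈ D.C c ∧ y ∈ D.C c ∧ y ≠ u) * (bo (D.Tri c u y) * D.Cv y u c) = 0 := by
          by_cases h6 : u ∈ D.C c ∧ y ∈ D.C c ∧ y ≠ u
          · rw [bo_not (fun h => ht ⟨h6, h⟩)]; ring
          · rw [bo_not h6]; ring
        rw [h5]
        exact mul_nonneg (bo_nonneg _) (D.hCv _ _ _)
    refine le_trans h2 (le_of_eq ?_)
    -- swap c and y
    rw [Finset.sum_comm]
    have h3 : ∀ u : V, ∑ c, ∑ y, bo (u ∈ D.C y ∧ c ∈ D.C y ∧ c ≠ u) * D.Cv y u c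
        = ∑ y, ∑ c, bo (u ∈ D.C y ∧ c ∈ D.C y ∧ c ≠ u) * D.Cv y u c := fun u => Finset.sum_comm
    simp only [h3]
    rw [Finset.sum_comm]
  refine le_trans h1 ?_
  apply Finset.sum_le_sum
  intro y _
  exact D.H7 y

/-- Triple indicator. -/
def Jt (c u y : V) : Prop := (u ∈ D.C c ∧ y ∈ D.C c ∧ y ≠ u) ∧ D.Tri c u y

lemma TriS_eq_univ (F : V → V → V → ℝ) :
    D.TriS F = ∑ c, ∑ u, ∑ y, bo (D.Jt c u y) * F c u y := by
  unfold TriS
  rw [tri_eq_univ]
  apply Finset.sum_congr rfl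
  intro c _
  apply Finset.sum_congr rfl
  intro u _
  apply Finset.sum_congr rfl
  intro y _
  unfold Jt
  rw [bo_and (u ∈ D.C c ∧ y ∈ D.C c ∧ y ≠ u) (D.Tri c u y)]
  ring

lemma TriS_a1 : D.TriS (fun _ u y => D.a u y) ≤ D.K * D.Atot := by
  rw [D.TriS_eq_univ]
  have := tri_univ_le D.K D.C D.hC (fun u y c => D.Jt c u y) D.a D.ha
    (fun u y c h => ⟨h.2.2.2.2.2.1, h.2.2.2.1⟩)
  refine le_trans (le_of_eq ?_) this
  rw [Finset.sum_comm]
  apply Finset.sum_congr rfl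
  intro u _
  rw [Finset.sum_comm]

lemma TriS_a2 : D.TriS (fun _ u y => D.a y u) ≤ D.K * D.Atot := by
  rw [D.TriS_eq_univ]
  have := tri_univ_le D.K D.C D.hC (fun y u c => D.Jt c u y) D.a D.ha
    (fun y u c h => ⟨h.2.2.2.2.2.2.1, h.2.2.2.2.1⟩)
  refine le_trans (le_of_eq ?_) this
  exact (Finset.sum_comm).trans
    ((Finset.sum_congr rfl (fun u _ => Finset.sum_comm)).trans Finset.sum_comm)

lemma TriS_a3 : D.TriS (fun c _ y => D.a c y) ≤ D.K * D.Atot := by
  rw [D.TriS_eq_univ]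
  have := tri_univ_le D.K D.C D.hC (fun c y u => D.Jt c u y) D.a D.ha
    (fun c y u h => ⟨h.1.2.1, h.1.1⟩)
  refine le_trans (le_of_eq ?_) this
  apply Finset.sum_congr rfl
  intro c _
  rw [Finset.sum_comm]

lemma TriS_a4 : D.TriS (fun c _ y => D.a y c) ≤ D.K * D.Atot := by
  rw [D.TriS_eq_univ]
  have := tri_univ_le D.K D.C D.hC (fun y c u => D.Jt c u y) D.a D.ha
    (fun y c u h => ⟨h.2.2.2.2.1, h.2.2.2.2.2.2.1⟩)
  refine le_trans (le_of_eq ?_) this
  exact (Finset.sum_congr rfl (fun c _ => Finset.sum_comm)).trans Finset.sum_comm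

/-- Constant in front of `Atot`. -/
noncomputable def GG : ℝ := 2 * D.M * (D.Cm + D.Cf + 6) + D.E₁ * (2 * D.Cf + 1)

/-- Constant in front of `Atot`. -/
noncomputable def CA : ℝ := 2 * D.M * (2 / D.π₀) + D.GG + 4 * D.E₃

/-- Constant in front of `TT`. -/
noncomputable def CT : ℝ := 12 * D.M + D.GG * D.D₀ + 2 * D.E₂

lemma GG_nonneg : 0 ≤ D.GG := by
  unfold GG
  have := D.hM; have := D.hCm; have := D.hCf; have := D.hE₁
  positivity

lemma CA_nonneg : 0 ≤ D.CA := by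
  unfold CA
  have := D.GG_nonneg; have := D.hM; have := D.hπ₀; have := D.hE₃
  positivity

lemma CT_nonneg : 0 ≤ D.CT := by
  unfold CT
  have := D.GG_nonneg; have := D.hM; have := D.D₀_nonneg; have := D.hE₂
  positivity

lemma kappa_step : (D.κ₁ / D.K) * D.TriS D.τ ≤ D.Atot := by
  classical
  unfold TriS Atot
  rw [Finset.mul_sum]
  apply Finset.sum_le_sum
  intro c _
  rw [Finset.mul_sum]
  apply Finset.sum_le_sum
  intro u hu
  set Y := ((D.C c).erase u).filter (fun y => D.Tri c u y) with hY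
  have e : ∑ y ∈ (D.C c).erase u, bo (D.Tri c u y) * D.τ c u y = ∑ y ∈ Y, D.τ c u y := by
    rw [hY, Finset.sum_filter]
    apply Finset.sum_congr rfl
    intro y _
    by_cases h : D.Tri c u y
    · rw [bo_of h, if_pos h, one_mul]
    · rw [bo_not h, if_neg h, zero_mul]
  rw [e]
  apply D.H5 c u hu Y (Finset.filter_subset _ _)
  intro y hy
  exact (Finset.mem_filter.mp hy).2.2.2.2.2.1

/-- Lower bound for the sum of `τ` over good triples. -/
lemma tri_lower :
    D.M * D.TriS (fun _ _ _ => 1)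
      - D.E₁ * (D.TriS (fun c u _ => ((D.C u \ insert c (D.C c)).card : ℝ) / D.K)
        + D.TriS (fun c _ y => ((D.C y \ insert c (D.C c)).card : ℝ) / D.K)
        + D.TriS (fun _ u _ => D.Q u))
      - D.E₂ * (D.TriS (fun c u y => D.Cv c u y) + D.TriS (fun c u y => D.Cv y u c))
      - D.E₃ * (D.TriS (fun _ u y => D.a u y) + D.TriS (fun _ u y => D.a y u)
        + D.TriS (fun c _ y => D.a c y) + D.TriS (fun c _ y => D.a y c))
    ≤ D.TriS D.τ := by
  have e : D.M * D.TriS (fun _ _ _ => 1)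
      - D.E₁ * (D.TriS (fun c u _ => ((D.C u \ insert c (D.C c)).card : ℝ) / D.K)
        + D.TriS (fun c _ y => ((D.C y \ insert c (D.C c)).card : ℝ) / D.K)
        + D.TriS (fun _ u _ => D.Q u))
      - D.E₂ * (D.TriS (fun c u y => D.Cv c u y) + D.TriS (fun c u y => D.Cv y u c))
      - D.E₃ * (D.TriS (fun _ u y => D.a u y) + D.TriS (fun _ u y => D.a y u)
        + D.TriS (fun c _ y => D.a c y) + D.TriS (fun c _ y => D.a y c))
      = D.TriS (fun c u y => D.M * 1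
        - D.E₁ * (((D.C u \ insert c (D.C c)).card : ℝ) / D.K
            + ((D.C y \ insert c (D.C c)).card : ℝ) / D.K + D.Q u)
        - D.E₂ * (D.Cv c u y + D.Cv y u c)
        - D.E₃ * (D.a u y + D.a y u + D.a c y + D.a y c)) := by
    rw [D.TriS_sub, D.TriS_sub, D.TriS_sub, D.TriS_smul, D.TriS_smul, D.TriS_smul, D.TriS_smul,
      D.TriS_add, D.TriS_add, D.TriS_add, D.TriS_add, D.TriS_add, D.TriS_add]
  rw [e]
  unfold TriS
  apply Finset.sum_le_sum
  intro c _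
  apply Finset.sum_le_sum
  intro u hu
  apply Finset.sum_le_sum
  intro y hy
  by_cases ht : D.Tri c u y
  · rw [bo_of ht, one_mul, one_mul, mul_one]
    obtain ⟨hyne, hyc⟩ := Finset.mem_erase.mp hy
    obtain ⟨h1, h2, h3, h4, h5, h6, h7⟩ := ht
    exact D.H6 c u y hu hyc hyne h1.2.1 h2.2.1 h3 h4 h5 h6 h7
  · rw [bo_not ht, zero_mul, zero_mul]

/-- The linear inequality for the total asymmetry. -/
theorem main_ineq :
    D.κ₁ * (D.M * (Fintype.card V : ℝ) * ((D.K : ℝ) - 1))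
      ≤ D.Atot * (1 + D.κ₁ * D.CA) + D.κ₁ * ((D.K : ℝ) * D.TT * D.CT) := by
  have hK := D.hKpos
  have hκ := D.hκ₁
  set k : ℝ := (D.K : ℝ) with hk
  set n : ℝ := (Fintype.card V : ℝ) with hn
  set A := D.Atot with hA
  set Tt := D.TT with hTt
  set Yv := D.YY with hYv
  have hf1 : D.TriS (fun c u _ => ((D.C u \ insert c (D.C c)).card : ℝ) / D.K) ≤ k * (D.Cf * Yv) := by
    refine le_trans (D.TriS_slot_left (fun c u => ((D.C u \ insert c (D.C c)).card : ℝ) / D.K)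
      (fun c u => by positivity)) ?_
    exact mul_le_mul_of_nonneg_left D.slot_f_le hK.le
  have hf2 : D.TriS (fun c _ y => ((D.C y \ insert c (D.C c)).card : ℝ) / D.K) ≤ k * (D.Cf * Yv) := by
    refine le_trans (D.TriS_slot_right (fun c u => ((D.C u \ insert c (D.C c)).card : ℝ) / D.K)
      (fun c u => by positivity)) ?_
    exact mul_le_mul_of_nonneg_left D.slot_f_le hK.le
  have hq : D.TriS (fun _ u _ => D.Q u) ≤ k * Yv := by
    refine le_trans (D.TriS_slot_left (fun _ u => D.Q u) (fun _ u => D.hQ u)) ?_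
    exact mul_le_mul_of_nonneg_left D.slot_Q_le hK.le
  have hc1 := D.TriS_Cv1
  have hc2 := D.TriS_Cv2
  have ha1 := D.TriS_a1
  have ha2 := D.TriS_a2
  have ha3 := D.TriS_a3
  have ha4 := D.TriS_a4
  have h1 := D.TriS_one_ge
  have hY := D.YY_le
  have hlow := D.tri_lower
  have hstep := D.kappa_step
  have hM := D.hM
  have hE1 := D.hE₁
  have hE2 := D.hE₂
  have hE3 := D.hE₃
  set X₁ := D.TriS (fun _ _ _ => 1) with hX₁
  set F1 := D.TriS (fun c u _ => ((D.C u \ insert c (D.C c)).card : ℝ) / D.K) with hF1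
  set F2 := D.TriS (fun c _ y => ((D.C y \ insert c (D.C c)).card : ℝ) / D.K) with hF2
  set Q1 := D.TriS (fun _ u _ => D.Q u) with hQ1
  set V1 := D.TriS (fun c u y => D.Cv c u y) with hV1
  set V2 := D.TriS (fun c u y => D.Cv y u c) with hV2
  set B1 := D.TriS (fun _ u y => D.a u y) with hB1
  set B2 := D.TriS (fun _ u y => D.a y u) with hB2
  set B3 := D.TriS (fun c _ y => D.a c y) with hB3
  set B4 := D.TriS (fun c _ y => D.a y c) with hB4
  set Ts := D.TriS D.τ with hTs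
  set t := 2 / D.π₀ with ht
  have p1 := mul_le_mul_of_nonneg_left h1 hM
  have p2 : D.E₁ * (F1 + F2 + Q1) ≤ D.E₁ * (k * (D.Cf * Yv) + k * (D.Cf * Yv) + k * Yv) :=
    mul_le_mul_of_nonneg_left (by linarith) hE1
  have p3 : D.E₂ * (V1 + V2) ≤ D.E₂ * (k ^ 2 * Tt + k ^ 2 * Tt) :=
    mul_le_mul_of_nonneg_left (by linarith) hE2
  have p4 : D.E₃ * (B1 + B2 + B3 + B4) ≤ D.E₃ * (k * A + k * A + k * A + k * A) :=
    mul_le_mul_of_nonneg_left (by linarith) hE3
  have hG := D.GG_nonneg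
  have p5 : k * (D.GG * Yv) ≤ k * (D.GG * (A + D.D₀ * k * Tt)) :=
    mul_le_mul_of_nonneg_left (mul_le_mul_of_nonneg_left hY hG) hK.le
  have key : k * (D.M * n * (k - 1) - D.CA * A - k * D.CT * Tt) ≤ Ts := by
    have e1 : D.GG = 2 * D.M * (D.Cm + D.Cf + 6) + D.E₁ * (2 * D.Cf + 1) := rfl
    have e2 : D.CA = 2 * D.M * t + D.GG + 4 * D.E₃ := rfl
    have e3 : D.CT = 12 * D.M + D.GG * D.D₀ + 2 * D.E₂ := rfl
    rw [e2, e3]
    rw [e1] at p5 ⊢
    linear_combination hlow + p1 + p2 + p3 + p4 + p5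
  have h5 : (D.κ₁ / k) * (k * (D.M * n * (k - 1) - D.CA * A - k * D.CT * Tt)) ≤ (D.κ₁ / k) * Ts :=
    mul_le_mul_of_nonneg_left key (by positivity)
  have h6 : (D.κ₁ / k) * (k * (D.M * n * (k - 1) - D.CA * A - k * D.CT * Tt))
      = D.κ₁ * (D.M * n * (k - 1) - D.CA * A - k * D.CT * Tt) := by
    field_simp
  rw [h6] at h5
  linear_combination h5 + hstep

/-- Usable form: if the total quality defect is small then the total asymmetry is large. -/
theorem final_bound (hK4 : 4 ≤ D.K) {t₀ : ℝ} (hTT : D.TT ≤ (Fintype.card V : ℝ) * t₀)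
    (hC : D.CT * t₀ ≤ D.M / 4) :
    D.κ₁ * D.M * (Fintype.card V : ℝ) * D.K / 2 ≤ D.Atot * (1 + D.κ₁ * D.CA) := by
  have h := D.main_ineq
  have hk : (4 : ℝ) ≤ D.K := by exact_mod_cast hK4
  have hκ := D.hκ₁
  have hM := D.hM
  have hn : (0 : ℝ) ≤ (Fintype.card V : ℝ) := Nat.cast_nonneg _
  have hCT := D.CT_nonneg
  have h2 : (D.K : ℝ) * D.TT * D.CT ≤ (D.K : ℝ) * (Fintype.card V : ℝ) * (D.M / 4) := by
    have h3 : D.TT * D.CT ≤ (Fintype.card V : ℝ) * t₀ * D.CT :=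
      mul_le_mul_of_nonneg_right hTT hCT
    have h4 : (Fintype.card V : ℝ) * t₀ * D.CT ≤ (Fintype.card V : ℝ) * (D.M / 4) := by
      calc (Fintype.card V : ℝ) * t₀ * D.CT = (Fintype.card V : ℝ) * (D.CT * t₀) := by ring
        _ ≤ _ := mul_le_mul_of_nonneg_left hC hn
    calc (D.K : ℝ) * D.TT * D.CT = (D.K : ℝ) * (D.TT * D.CT) := by ring
      _ ≤ (D.K : ℝ) * ((Fintype.card V : ℝ) * (D.M / 4)) :=
          mul_le_mul_of_nonneg_left (le_trans h3 h4) (by positivity)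
      _ = _ := by ring
  have h3 := mul_le_mul_of_nonneg_left h2 hκ
  have h5 : D.κ₁ * (D.M * (Fintype.card V : ℝ) * (D.K : ℝ)) / 2 ≤
      D.κ₁ * (D.M * (Fintype.card V : ℝ) * ((D.K : ℝ) - 1)) - D.κ₁ * ((D.K : ℝ) * (Fintype.card V : ℝ) * (D.M / 4)) := by
    have h6 : 0 ≤ D.κ₁ * (D.M * (Fintype.card V : ℝ)) := by positivity
    have h7 : (D.K : ℝ) / 2 ≤ ((D.K : ℝ) - 1) - (D.K : ℝ) / 4 := by linarith
    have := mul_le_mul_of_nonneg_left h7 h6
    linear_combination this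
  linear_combination h + h5 + h3

end CD

end Vale.Agent.Lib.P336_h66
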