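/-
P336 (helper66): shared definitions for the strict improvement of the PPSZ constant.
See BLUEPRINT.md in this folder.

`TS V K`  : a critical-tree system on variable set `V` with branching at most `K`.
            `ch Φ` are the children of the node with path `Φ` (a reversed list: head is the
            newest label, last element is the root); children avoid the path.
`bad S j Φ`: the node `Φ` has a downward path of `j` further labels, all in `S`.
`later τ u`: the variables that are not strictly earlier than `u` under the level map `τ`.
`FF T d τ` : number of `u` whose depth-`d` tree has no path inside `later τ u` (forced variables).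
-/
import Mathlib

namespace Vale.Agent.Lib.P336_h66

open Finset

/-- Critical-tree system. -/
structure TS (V : Type) [DecidableEq V] (K : ℕ) where
  ch : List V → Finset V
  card_le : ∀ Φ, (ch Φ).card ≤ K
  disj : ∀ Φ, ∀ y ∈ ch Φ, y ∉ Φ

section
variable {V : Type} [DecidableEq V] {K : ℕ}

/-- `T.bad S j Φ`: there is a descending path of `j` labels from the node `Φ`, all labels in `S`. -/
def TS.bad (T : TS V K) (S : Finset V) : ℕ → List V → Prop
  | 0, _ => True
  | j + 1, Φ => ∃ y ∈ T.ch Φ, y ∈ S ∧ TS.bad T S j (y :: Φ)

end

section
variable {V : Type} [Fintype V] [DecidableEq V] {K M : ℕ}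

/-- Variables not strictly earlier than `u` (ties count as later). -/
def later (τ : V → Fin M) (u : V) : Finset V :=
  Finset.univ.filter (fun v => v ≠ u ∧ τ u ≤ τ v)

open Classical in
/-- The number of forced variables for the depth-`d` trees under the level map `τ`. -/
noncomputable def FF (T : TS V K) (d : ℕ) (τ : V → Fin M) : ℕ :=
  (Finset.univ.filter (fun u => ¬ T.bad (later τ u) d [u])).card

end

/-- Universal exponential-moment bound with constant `μ`:
for all large `K`, `d` there is a number of levels `K * N` such that every critical-tree system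
of branching `K` and depth `d` has `avg_τ 2^{F(τ)} ≥ 2^{μ n / K}`. -/
def UniversalBound (μ : ℝ) : Prop :=
  ∃ K₀ d₀ : ℕ, ∀ K ≥ K₀, ∀ d ≥ d₀, ∃ N : ℕ, 0 < N ∧
    ∀ (V : Type) [Fintype V] [DecidableEq V] (T : TS V K),
      (2 : ℝ) ^ (μ * (Fintype.card V : ℝ) / (K : ℝ)) ≤
        (∑ τ : V → Fin (K * N), (2 : ℝ) ^ (FF T d τ)) /
          ((K * N : ℕ) : ℝ) ^ (Fintype.card V)

/-- The recursion of the probability of a bad path at density `r`: `β₀ = 1`,
`β_{j+1} = 1 - (1 - r β_j)^K`. -/
noncomputable def betaSeq (r : ℝ) (K : ℕ) : ℕ → ℝ
  | 0 => 1
  | j + 1 => 1 - (1 - r * betaSeq r K j) ^ K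

end Vale.Agent.Lib.P336_h66
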