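/-
P336 (helper66): the product measure of density `p` on subsets of a finite set `V`:
expectation `Ep`, conditioning on one coordinate, Harris inequality, restricted worlds,
covariances.
-/
import Vale.Agent.Lib.P336_h66.Defs

namespace Vale.Agent.Lib.P336_h66

set_option linter.unusedSectionVars false

open Finset

variable {V : Type} [Fintype V] [DecidableEq V]

/-- Expectation over subsets of `A`, each element kept with probability `p`. -/
noncomputable def EA (p : ℝ) (A : Finset V) (f : Finset V → ℝ) : ℝ :=
  ∑ T ∈ A.powerset, p ^ T.card * (1 - p) ^ (A.card - T.card) * f T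

lemma EA_empty (p : ℝ) (f : Finset V → ℝ) : EA p ∅ f = f ∅ := by
  simp [EA]

lemma EA_insert (p : ℝ) {A : Finset V} {v : V} (hv : v ∉ A) (f : Finset V → ℝ) :
    EA p (insert v A) f = (1 - p) * EA p A f + p * EA p A (fun T => f (insert v T)) := by
  unfold EA
  rw [Finset.sum_powerset_insert hv, Finset.mul_sum, Finset.mul_sum]
  congr 1
  · apply Finset.sum_congr rfl
    intro T hT
    have hT' : T ⊆ A := Finset.mem_powerset.mp hT
    have hc : T.card ≤ A.card := Finset.card_le_card hT'
    have h1 : (insert v A).card - T.card = (A.card - T.card) + 1 := by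
      rw [Finset.card_insert_of_notMem hv]; omega
    rw [h1, pow_succ]; ring
  · apply Finset.sum_congr rfl
    intro T hT
    have hT' : T ⊆ A := Finset.mem_powerset.mp hT
    have hvT : v ∉ T := fun h => hv (hT' h)
    have hc : T.card ≤ A.card := Finset.card_le_card hT'
    have h1 : (insert v A).card - (insert v T).card = A.card - T.card := by
      rw [Finset.card_insert_of_notMem hv, Finset.card_insert_of_notMem hvT]; omega
    rw [h1, Finset.card_insert_of_notMem hvT, pow_succ]; ring

lemma EA_add (p : ℝ) (A : Finset V) (f g : Finset V → ℝ) :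
    EA p A (fun T => f T + g T) = EA p A f + EA p A g := by
  unfold EA; rw [← Finset.sum_add_distrib]; apply Finset.sum_congr rfl; intros; ring

lemma EA_smul (p : ℝ) (A : Finset V) (c : ℝ) (f : Finset V → ℝ) :
    EA p A (fun T => c * f T) = c * EA p A f := by
  unfold EA; rw [Finset.mul_sum]; apply Finset.sum_congr rfl; intros; ring

lemma EA_const (p : ℝ) (A : Finset V) (c : ℝ) : EA p A (fun _ => c) = c := by
  classical
  induction A using Finset.induction_on with
  | empty => simp [EA]
  | insert v A hv ih => rw [EA_insert p hv, ih]; ring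

lemma EA_mono {p : ℝ} (h0 : 0 ≤ p) (h1 : p ≤ 1) (A : Finset V) {f g : Finset V → ℝ}
    (h : ∀ T, f T ≤ g T) : EA p A f ≤ EA p A g := by
  unfold EA
  apply Finset.sum_le_sum
  intro T _
  apply mul_le_mul_of_nonneg_left (h T)
  exact mul_nonneg (pow_nonneg h0 _) (pow_nonneg (by linarith) _)

/-- Harris inequality on `EA`. -/
lemma EA_harris {p : ℝ} (h0 : 0 ≤ p) (h1 : p ≤ 1) (A : Finset V) :
    ∀ {f g : Finset V → ℝ}, Monotone f → Monotone g →
      EA p A f * EA p A g ≤ EA p A (fun T => f T * g T) := by
  classical
  induction A using Finset.induction_on with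
  | empty => intro f g _ _; simp [EA_empty]
  | insert v A hv ih =>
    intro f g hf hg
    rw [EA_insert p hv, EA_insert p hv, EA_insert p hv]
    have hf' : Monotone (fun T => f (insert v T)) :=
      fun S T hST => hf (Finset.insert_subset_insert v hST)
    have hg' : Monotone (fun T => g (insert v T)) :=
      fun S T hST => hg (Finset.insert_subset_insert v hST)
    have h2 := ih hf hg
    have h3 := ih hf' hg'
    have hq : 0 ≤ 1 - p := by linarith
    have h4 : EA p A f ≤ EA p A (fun T => f (insert v T)) :=
      EA_mono h0 h1 A (fun T => hf (Finset.subset_insert v T))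
    have h5 : EA p A g ≤ EA p A (fun T => g (insert v T)) :=
      EA_mono h0 h1 A (fun T => hg (Finset.subset_insert v T))
    set a := EA p A f
    set b := EA p A g
    set a' := EA p A (fun T => f (insert v T))
    set b' := EA p A (fun T => g (insert v T))
    set c := EA p A (fun T => f T * g T)
    set c' := EA p A (fun T => f (insert v T) * g (insert v T))
    have key : ((1 - p) * a + p * a') * ((1 - p) * b + p * b')
        = (1 - p) * (a * b) + p * (a' * b') - p * (1 - p) * ((a' - a) * (b' - b)) := by ring
    rw [key]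
    have h6 : 0 ≤ p * (1 - p) * ((a' - a) * (b' - b)) :=
      mul_nonneg (mul_nonneg h0 hq) (mul_nonneg (by linarith) (by linarith))
    have h7 : (1 - p) * (a * b) ≤ (1 - p) * c := mul_le_mul_of_nonneg_left h2 hq
    have h8 : p * (a' * b') ≤ p * c' := mul_le_mul_of_nonneg_left h3 h0
    linarith

/-- Expectation under the product measure of density `p` on subsets of `V`. -/
noncomputable def Ep (p : ℝ) (f : Finset V → ℝ) : ℝ := EA p Finset.univ f

lemma Ep_add (p : ℝ) (f g : Finset V → ℝ) :
    Ep p (fun T => f T + g T) = Ep p f + Ep p g := EA_add p _ f g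

lemma Ep_smul (p : ℝ) (c : ℝ) (f : Finset V → ℝ) :
    Ep p (fun T => c * f T) = c * Ep p f := EA_smul p _ c f

lemma Ep_const (p : ℝ) (c : ℝ) : Ep p (fun _ : Finset V => c) = c := EA_const p _ c

lemma Ep_neg (p : ℝ) (f : Finset V → ℝ) : Ep p (fun T => - f T) = - Ep p f := by
  have := Ep_smul p (-1) f
  simpa using this

lemma Ep_sub (p : ℝ) (f g : Finset V → ℝ) :
    Ep p (fun T => f T - g T) = Ep p f - Ep p g := by
  have h1 := Ep_add p f (fun T => - g T)
  rw [Ep_neg] at h1
  simpa [sub_eq_add_neg] using h1

lemma Ep_sum {ι : Type} (p : ℝ) (s : Finset ι) (f : ι → Finset V → ℝ) :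
    Ep p (fun T => ∑ i ∈ s, f i T) = ∑ i ∈ s, Ep p (f i) := by
  classical
  induction s using Finset.induction_on with
  | empty => simp [Ep_const]
  | insert a s ha ih =>
    simp only [Finset.sum_insert ha]
    rw [Ep_add, ih]

lemma Ep_mono {p : ℝ} (h0 : 0 ≤ p) (h1 : p ≤ 1) {f g : Finset V → ℝ}
    (h : ∀ T, f T ≤ g T) : Ep p f ≤ Ep p g := EA_mono h0 h1 _ h

lemma Ep_nonneg {p : ℝ} (h0 : 0 ≤ p) (h1 : p ≤ 1) {f : Finset V → ℝ}
    (h : ∀ T, 0 ≤ f T) : 0 ≤ Ep p f := by
  have := Ep_mono h0 h1 (f := fun _ => (0 : ℝ)) (g := f) h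
  rwa [Ep_const] at this

lemma Ep_harris {p : ℝ} (h0 : 0 ≤ p) (h1 : p ≤ 1) {f g : Finset V → ℝ}
    (hf : Monotone f) (hg : Monotone g) :
    Ep p f * Ep p g ≤ Ep p (fun T => f T * g T) := EA_harris h0 h1 _ hf hg

/-- Harris for two antitone functions. -/
lemma Ep_harris_anti {p : ℝ} (h0 : 0 ≤ p) (h1 : p ≤ 1) {f g : Finset V → ℝ}
    (hf : Antitone f) (hg : Antitone g) :
    Ep p f * Ep p g ≤ Ep p (fun T => f T * g T) := by
  have hf' : Monotone (fun T => - f T) := fun S T h => neg_le_neg (hf h)
  have hg' : Monotone (fun T => - g T) := fun S T h => neg_le_neg (hg h)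
  have := Ep_harris h0 h1 hf' hg'
  rw [Ep_neg, Ep_neg] at this
  simpa using this

/-- Harris for a monotone and an antitone function. -/
lemma Ep_harris_mono_anti {p : ℝ} (h0 : 0 ≤ p) (h1 : p ≤ 1) {f g : Finset V → ℝ}
    (hf : Monotone f) (hg : Antitone g) :
    Ep p (fun T => f T * g T) ≤ Ep p f * Ep p g := by
  have hg' : Monotone (fun T => - g T) := fun S T h => neg_le_neg (hg h)
  have := Ep_harris h0 h1 hf hg'
  rw [Ep_neg] at this
  have h3 : Ep p (fun T => f T * - g T) = - Ep p (fun T => f T * g T) := by
    rw [← Ep_neg]; congr 1; funext T; ring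
  rw [h3] at this
  linarith

/-- Conditioning on one coordinate. -/
lemma Ep_cond (p : ℝ) (v : V) (f : Finset V → ℝ) :
    Ep p f = (1 - p) * Ep p (fun T => f (T.erase v)) + p * Ep p (fun T => f (insert v T)) := by
  have hv : v ∉ (Finset.univ : Finset V).erase v := by simp
  have hu : (Finset.univ : Finset V) = insert v (Finset.univ.erase v) := by
    rw [Finset.insert_erase (Finset.mem_univ v)]
  have key : ∀ g : Finset V → ℝ, Ep p g = (1 - p) * EA p (Finset.univ.erase v) g
      + p * EA p (Finset.univ.erase v) (fun T => g (insert v T)) := by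
    intro g
    unfold Ep
    conv_lhs => rw [hu]
    exact EA_insert p hv g
  -- erase-part
  have h1 : Ep p (fun T => f (T.erase v)) = EA p (Finset.univ.erase v) f := by
    rw [key]
    have e1 : EA p (Finset.univ.erase v) (fun T => f (T.erase v))
        = EA p (Finset.univ.erase v) f := by
      unfold EA
      apply Finset.sum_congr rfl
      intro T hT
      have hT' := Finset.mem_powerset.mp hT
      have : v ∉ T := fun h => hv (hT' h)
      simp only [Finset.erase_eq_of_notMem this]
    have e2 : EA p (Finset.univ.erase v) (fun T => f ((insert v T).erase v))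
        = EA p (Finset.univ.erase v) f := by
      unfold EA
      apply Finset.sum_congr rfl
      intro T hT
      have hT' := Finset.mem_powerset.mp hT
      have : v ∉ T := fun h => hv (hT' h)
      simp only [Finset.erase_insert this]
    rw [e1, e2]; ring
  have h2 : Ep p (fun T => f (insert v T)) = EA p (Finset.univ.erase v) (fun T => f (insert v T)) := by
    rw [key]
    have e2 : EA p (Finset.univ.erase v) (fun T => f (insert v (insert v T)))
        = EA p (Finset.univ.erase v) (fun T => f (insert v T)) := by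
      unfold EA
      apply Finset.sum_congr rfl
      intro T _
      simp only [Finset.insert_idem]
    rw [e2]; ring
  rw [h1, h2]
  exact key f

/-- Covariance. -/
noncomputable def Cov (p : ℝ) (f g : Finset V → ℝ) : ℝ :=
  Ep p (fun T => f T * g T) - Ep p f * Ep p g

lemma Cov_nonneg {p : ℝ} (h0 : 0 ≤ p) (h1 : p ≤ 1) {f g : Finset V → ℝ}
    (hf : Monotone f) (hg : Monotone g) : 0 ≤ Cov p f g := by
  have := Ep_harris h0 h1 hf hg
  unfold Cov; linarith

/-- One-coordinate covariance decomposition. -/
lemma Cov_cond (p : ℝ) (v : V) (f g : Finset V → ℝ) :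
    Cov p f g = (1 - p) * Cov p (fun T => f (T.erase v)) (fun T => g (T.erase v))
      + p * Cov p (fun T => f (insert v T)) (fun T => g (insert v T))
      + p * (1 - p) * ((Ep p (fun T => f (insert v T)) - Ep p (fun T => f (T.erase v)))
          * (Ep p (fun T => g (insert v T)) - Ep p (fun T => g (T.erase v)))) := by
  unfold Cov
  rw [Ep_cond p v f, Ep_cond p v g, Ep_cond p v (fun T => f T * g T)]
  ring

/-- The world in which the labels of `D` are removed. -/
noncomputable def EW (p : ℝ) (D : Finset V) (f : Finset V → ℝ) : ℝ :=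
  Ep p (fun T => f (T \ D))

lemma EW_empty (p : ℝ) (f : Finset V → ℝ) : EW p ∅ f = Ep p f := by
  simp [EW]

/-- Indicator of a predicate on sets. -/
noncomputable def ind (P : Finset V → Prop) : Finset V → ℝ := by
  classical exact fun S => if P S then 1 else 0

lemma ind_apply_of {P : Finset V → Prop} {S : Finset V} (h : P S) : ind P S = 1 := by
  simp [ind, h]

lemma ind_apply_not {P : Finset V → Prop} {S : Finset V} (h : ¬ P S) : ind P S = 0 := by
  simp [ind, h]

lemma ind_nonneg (P : Finset V → Prop) (S : Finset V) : 0 ≤ ind P S := by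
  unfold ind; split_ifs <;> norm_num

lemma ind_le_one (P : Finset V → Prop) (S : Finset V) : ind P S ≤ 1 := by
  unfold ind; split_ifs <;> norm_num

lemma ind_mono {P : Finset V → Prop} (h : ∀ S T, S ⊆ T → P S → P T) : Monotone (ind P) := by
  intro S T hST
  by_cases hS : P S
  · rw [ind_apply_of hS, ind_apply_of (h S T hST hS)]
  · rw [ind_apply_not hS]; exact ind_nonneg _ _

lemma ind_anti {P : Finset V → Prop} (h : ∀ S T, S ⊆ T → P T → P S) : Antitone (ind P) := by
  intro S T hST
  by_cases hT : P T
  · rw [ind_apply_of hT, ind_apply_of (h S T hST hT)]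
  · rw [ind_apply_not hT]; exact ind_nonneg _ _

/-- Probability of a predicate. -/
noncomputable def Pr (p : ℝ) (P : Finset V → Prop) : ℝ := Ep p (ind P)

lemma Pr_nonneg {p : ℝ} (h0 : 0 ≤ p) (h1 : p ≤ 1) (P : Finset V → Prop) : 0 ≤ Pr p P :=
  Ep_nonneg h0 h1 (ind_nonneg P)

lemma Pr_le_one {p : ℝ} (h0 : 0 ≤ p) (h1 : p ≤ 1) (P : Finset V → Prop) : Pr p P ≤ 1 := by
  have := Ep_mono h0 h1 (f := ind P) (g := fun _ => (1 : ℝ)) (ind_le_one P)
  rwa [Ep_const] at this

/-- Probability of a predicate in the world where the labels of `D` are removed. -/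
noncomputable def PrW (p : ℝ) (D : Finset V) (P : Finset V → Prop) : ℝ := EW p D (ind P)

lemma PrW_nonneg {p : ℝ} (h0 : 0 ≤ p) (h1 : p ≤ 1) (D : Finset V) (P : Finset V → Prop) :
    0 ≤ PrW p D P :=
  Ep_nonneg h0 h1 (fun T => ind_nonneg P _)

lemma PrW_le_one {p : ℝ} (h0 : 0 ≤ p) (h1 : p ≤ 1) (D : Finset V) (P : Finset V → Prop) :
    PrW p D P ≤ 1 := by
  have := Ep_mono h0 h1 (f := fun T => ind P (T \ D)) (g := fun _ => (1 : ℝ))
    (fun T => ind_le_one P _)
  rwa [Ep_const] at this

/-- Label independence: if `g` ignores `v` then `E[1_{v∈S} g] = p E[g]`. -/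
lemma Ep_mem_mul (p : ℝ) (v : V) {g : Finset V → ℝ} (hg : ∀ T, g (insert v T) = g (T.erase v)) :
    Ep p (fun T => (if v ∈ T then (1 : ℝ) else 0) * g T) = p * Ep p g := by
  have h1 := Ep_cond p v (fun T => (if v ∈ T then (1 : ℝ) else 0) * g T)
  have h2 := Ep_cond p v g
  simp only [Finset.mem_erase, ne_eq, not_true_eq_false, false_and, if_false, zero_mul,
    Finset.mem_insert, true_or, if_true, one_mul] at h1
  rw [h1]
  have h3 : Ep p (fun T : Finset V => (0 : ℝ)) = 0 := Ep_const p 0
  rw [h3]
  have h4 : Ep p (fun T => g (insert v T)) = Ep p (fun T => g (T.erase v)) := by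
    congr 1; funext T; exact hg T
  rw [h2, h4]; ring

/-- Absence of a label: `E[1_{v∉S} f] = (1-p) E[f(S \ v)]`. -/
lemma Ep_notMem_mul (p : ℝ) (v : V) (f : Finset V → ℝ) :
    Ep p (fun T => (if v ∉ T then (1 : ℝ) else 0) * f T) = (1 - p) * Ep p (fun T => f (T.erase v)) := by
  have h1 := Ep_cond p v (fun T => (if v ∉ T then (1 : ℝ) else 0) * f T)
  simp only [Finset.mem_erase, ne_eq, not_true_eq_false, false_and, not_false_eq_true, if_true,
    one_mul, Finset.mem_insert, true_or, not_true_eq_false, if_false, zero_mul] at h1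
  rw [h1]
  have h3 : Ep p (fun T : Finset V => (0 : ℝ)) = 0 := Ep_const p 0
  rw [h3]; ring

/-- `E[1_{S ∩ D = ∅} f] = (1-p)^{|D|} E[f(S \ D)]`. -/
lemma Ep_disj_mul (p : ℝ) (D : Finset V) (f : Finset V → ℝ) :
    Ep p (fun T => (if Disjoint T D then (1 : ℝ) else 0) * f T)
      = (1 - p) ^ D.card * EW p D f := by
  classical
  induction D using Finset.induction_on generalizing f with
  | empty => simp [EW]
  | insert v D hv ih =>
    have h1 : (fun T : Finset V => (if Disjoint T (insert v D) then (1 : ℝ) else 0) * f T)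
        = fun T => (if v ∉ T then (1 : ℝ) else 0) * ((if Disjoint T D then (1 : ℝ) else 0) * f T) := by
      funext T
      by_cases hT : v ∈ T
      · have : ¬ Disjoint T (insert v D) := by
          rw [Finset.disjoint_insert_right]; simp [hT]
        simp [this, hT]
      · by_cases hD : Disjoint T D
        · have : Disjoint T (insert v D) := by
            rw [Finset.disjoint_insert_right]; exact ⟨hT, hD⟩
          simp [this, hT, hD]
        · have : ¬ Disjoint T (insert v D) := by
            rw [Finset.disjoint_insert_right]; simp [hD]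
          simp [this, hT, hD]
    rw [h1, Ep_notMem_mul]
    -- now apply the induction hypothesis to g = f ∘ erase v
    have h2 : (fun T : Finset V => (if Disjoint (T.erase v) D then (1 : ℝ) else 0) * f (T.erase v))
        = fun T => (if Disjoint T D then (1 : ℝ) else 0) * f (T.erase v) := by
      funext T
      have : Disjoint (T.erase v) D ↔ Disjoint T D := by
        constructor
        · intro h
          rw [Finset.disjoint_left] at h ⊢
          intro a ha haD
          have hav : a ≠ v := fun e => hv (e ▸ haD)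
          exact h (Finset.mem_erase.mpr ⟨hav, ha⟩) haD
        · intro h
          exact Finset.disjoint_of_subset_left (Finset.erase_subset _ _) h
      simp [this]
    rw [h2, ih (fun T => f (T.erase v))]
    have h3 : EW p D (fun T => f (T.erase v)) = EW p (insert v D) f := by
      unfold EW
      congr 1; funext T
      have e : (T \ D).erase v = T \ insert v D := by
        ext a
        simp only [Finset.mem_erase, Finset.mem_sdiff, Finset.mem_insert, not_or]
        tauto
      simp only [e]
    rw [h3, Finset.card_insert_of_notMem hv, pow_succ]; ring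

/-- Probability that `S` misses `D`. -/
lemma Ep_disj (p : ℝ) (D : Finset V) :
    Ep p (fun T => if Disjoint T D then (1 : ℝ) else 0) = (1 - p) ^ D.card := by
  have := Ep_disj_mul p D (fun _ => 1)
  simp only [mul_one] at this
  rw [this]
  unfold EW; rw [Ep_const]; ring

end Vale.Agent.Lib.P336_h66
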