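/-
P336 (helper66): basic facts on `TS.bad`, the recursion `betaSeq`, Harris products,
reachable label sets `gam` and their first moments.
-/
import Vale.Agent.Lib.P336_h66.Prod

namespace Vale.Agent.Lib.P336_h66

set_option linter.unusedSectionVars false

open Finset

variable {V : Type} [Fintype V] [DecidableEq V] {K : ℕ}

/-! ### `bad` -/

lemma TS.bad_zero (T : TS V K) (S : Finset V) (Φ : List V) : T.bad S 0 Φ := by
  simp [TS.bad]

lemma TS.bad_succ (T : TS V K) (S : Finset V) (j : ℕ) (Φ : List V) :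
    T.bad S (j + 1) Φ ↔ ∃ y ∈ T.ch Φ, y ∈ S ∧ T.bad S j (y :: Φ) := by
  simp [TS.bad]

lemma TS.bad_mono (T : TS V K) {S S' : Finset V} (h : S ⊆ S') :
    ∀ (j : ℕ) (Φ : List V), T.bad S j Φ → T.bad S' j Φ := by
  intro j
  induction j with
  | zero => intro Φ _; exact T.bad_zero _ _
  | succ j ih =>
    intro Φ hb
    rw [T.bad_succ] at hb ⊢
    obtain ⟨y, hy, hyS, hb'⟩ := hb
    exact ⟨y, hy, h hyS, ih _ hb'⟩

/-- A path of length `j'` has a prefix of length `j ≤ j'`. -/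
lemma TS.bad_of_le (T : TS V K) {S : Finset V} :
    ∀ {j j' : ℕ} (_ : j ≤ j') (Φ : List V), T.bad S j' Φ → T.bad S j Φ := by
  intro j
  induction j with
  | zero => intro j' _ Φ _; exact T.bad_zero _ _
  | succ j ih =>
    intro j' hj Φ hb
    obtain ⟨j'', rfl⟩ : ∃ j'', j' = j'' + 1 := ⟨j' - 1, by omega⟩
    rw [T.bad_succ] at hb ⊢
    obtain ⟨y, hy, hyS, hb'⟩ := hb
    exact ⟨y, hy, hyS, ih (by omega) _ hb'⟩

/-- `bad` ignores labels on the path. -/
lemma TS.bad_congr (T : TS V K) :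
    ∀ (j : ℕ) (Φ : List V) {S S' : Finset V}, (∀ v, v ∉ Φ → (v ∈ S ↔ v ∈ S')) →
      (T.bad S j Φ ↔ T.bad S' j Φ) := by
  intro j
  induction j with
  | zero => intro Φ S S' _; simp [TS.bad]
  | succ j ih =>
    intro Φ S S' h
    rw [T.bad_succ, T.bad_succ]
    constructor
    · rintro ⟨y, hy, hyS, hb⟩
      refine ⟨y, hy, (h y (T.disj Φ y hy)).mp hyS, ?_⟩
      refine (ih (y :: Φ) ?_).mp hb
      intro v hv
      exact h v (fun hh => hv (List.mem_cons_of_mem _ hh))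
    · rintro ⟨y, hy, hyS, hb⟩
      refine ⟨y, hy, (h y (T.disj Φ y hy)).mpr hyS, ?_⟩
      refine (ih (y :: Φ) ?_).mpr hb
      intro v hv
      exact h v (fun hh => hv (List.mem_cons_of_mem _ hh))

/-! ### `betaSeq` -/

lemma betaSeq_zero (r : ℝ) (K : ℕ) : betaSeq r K 0 = 1 := rfl

lemma betaSeq_succ (r : ℝ) (K j : ℕ) :
    betaSeq r K (j + 1) = 1 - (1 - r * betaSeq r K j) ^ K := rfl

lemma betaSeq_mem {r : ℝ} (h0 : 0 ≤ r) (h1 : r ≤ 1) (K j : ℕ) :
    0 ≤ betaSeq r K j ∧ betaSeq r K j ≤ 1 := by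
  induction j with
  | zero => simp [betaSeq_zero]
  | succ j ih =>
    rw [betaSeq_succ]
    have h2 : r * betaSeq r K j ≤ 1 := by nlinarith [ih.1, ih.2]
    have h3 : 0 ≤ r * betaSeq r K j := mul_nonneg h0 ih.1
    constructor
    · have : (1 - r * betaSeq r K j) ^ K ≤ 1 := pow_le_one₀ (by linarith) (by linarith)
      linarith
    · have : 0 ≤ (1 - r * betaSeq r K j) ^ K := pow_nonneg (by linarith) _
      linarith

lemma betaSeq_anti {r : ℝ} (h0 : 0 ≤ r) (h1 : r ≤ 1) (K j : ℕ) :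
    betaSeq r K (j + 1) ≤ betaSeq r K j := by
  induction j with
  | zero =>
    rw [betaSeq_succ, betaSeq_zero]
    have : 0 ≤ (1 - r * 1) ^ K := pow_nonneg (by linarith) _
    linarith
  | succ j ih =>
    show 1 - (1 - r * betaSeq r K (j + 1)) ^ K ≤ 1 - (1 - r * betaSeq r K j) ^ K
    have hm := betaSeq_mem h0 h1 K j
    have hm' := betaSeq_mem h0 h1 K (j + 1)
    have h2 : r * betaSeq r K (j + 1) ≤ r * betaSeq r K j :=
      mul_le_mul_of_nonneg_left ih h0
    have h3 : r * betaSeq r K j ≤ 1 := by nlinarith [hm.1, hm.2]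
    have : (1 - r * betaSeq r K j) ^ K ≤ (1 - r * betaSeq r K (j + 1)) ^ K :=
      pow_le_pow_left₀ (by linarith) (by linarith) _
    linarith

lemma betaSeq_anti' {r : ℝ} (h0 : 0 ≤ r) (h1 : r ≤ 1) (K : ℕ) {j j' : ℕ} (h : j ≤ j') :
    betaSeq r K j' ≤ betaSeq r K j := by
  induction h with
  | refl => exact le_refl _
  | step _ ih => exact le_trans (betaSeq_anti h0 h1 K _) ih

/-! ### Harris products -/

lemma Ep_prod_anti {p : ℝ} (h0 : 0 ≤ p) (h1 : p ≤ 1) {ι : Type} (s : Finset ι)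
    (f : ι → Finset V → ℝ) (hf : ∀ i ∈ s, Antitone (f i)) (hf0 : ∀ i ∈ s, ∀ T, 0 ≤ f i T) :
    ∏ i ∈ s, Ep p (f i) ≤ Ep p (fun T => ∏ i ∈ s, f i T) := by
  classical
  induction s using Finset.induction_on with
  | empty => simp [Ep_const]
  | insert a s ha ih =>
    simp only [Finset.prod_insert ha]
    have hanti : Antitone (fun T => ∏ i ∈ s, f i T) := by
      intro S T hST
      apply Finset.prod_le_prod
      · intro i hi; exact hf0 i (Finset.mem_insert_of_mem hi) _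
      · intro i hi; exact hf i (Finset.mem_insert_of_mem hi) hST
    have h2 := Ep_harris_anti h0 h1 (hf a (Finset.mem_insert_self a s)) hanti
    have h3 := ih (fun i hi => hf i (Finset.mem_insert_of_mem hi))
      (fun i hi => hf0 i (Finset.mem_insert_of_mem hi))
    have h4 : 0 ≤ Ep p (f a) := Ep_nonneg h0 h1 (hf0 a (Finset.mem_insert_self a s))
    calc Ep p (f a) * ∏ i ∈ s, Ep p (f i)
        ≤ Ep p (f a) * Ep p (fun T => ∏ i ∈ s, f i T) := mul_le_mul_of_nonneg_left h3 h4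
      _ ≤ _ := h2

/-- Indicator of `∀ y ∈ s, ¬ A y S` as a product. -/
lemma ind_forall_not {ι : Type} (s : Finset ι) (A : ι → Finset V → Prop) (S : Finset V) :
    ind (fun S => ∀ y ∈ s, ¬ A y S) S = ∏ y ∈ s, (1 - ind (A y) S) := by
  classical
  by_cases h : ∀ y ∈ s, ¬ A y S
  · rw [ind_apply_of h]
    symm
    apply Finset.prod_eq_one
    intro y hy
    rw [ind_apply_not (h y hy)]; ring
  · rw [ind_apply_not h]
    push Not at h
    obtain ⟨y, hy, hA⟩ := h
    symm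
    apply Finset.prod_eq_zero hy
    rw [ind_apply_of hA]; ring

/-- Harris lower bound for the probability that no event occurs. -/
lemma Pr_none_ge {p : ℝ} (h0 : 0 ≤ p) (h1 : p ≤ 1) {ι : Type} (s : Finset ι)
    (A : ι → Finset V → Prop) (hA : ∀ y ∈ s, ∀ S S', S ⊆ S' → A y S → A y S') :
    ∏ y ∈ s, (1 - Pr p (A y)) ≤ Pr p (fun S => ∀ y ∈ s, ¬ A y S) := by
  have e : Pr p (fun S => ∀ y ∈ s, ¬ A y S) = Ep p (fun T => ∏ y ∈ s, (1 - ind (A y) T)) := by
    unfold Pr; congr 1; funext T; exact ind_forall_not s A T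
  rw [e]
  have e2 : ∏ y ∈ s, (1 - Pr p (A y)) = ∏ y ∈ s, Ep p (fun T => 1 - ind (A y) T) := by
    apply Finset.prod_congr rfl
    intro y _
    rw [Ep_sub, Ep_const]; rfl
  rw [e2]
  apply Ep_prod_anti h0 h1
  · intro y hy S T hST
    have := ind_mono (hA y hy) hST
    show 1 - ind (A y) T ≤ 1 - ind (A y) S
    linarith
  · intro y _ T
    have := ind_le_one (A y) T
    show 0 ≤ 1 - ind (A y) T
    linarith

/-- `P[y ∈ S ∧ Q S] = p P[Q]` when `Q` ignores the label `y`. -/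
lemma Pr_mem_and (p : ℝ) (y : V) {Q : Finset V → Prop}
    (hQ : ∀ S S', (∀ v, v ≠ y → (v ∈ S ↔ v ∈ S')) → (Q S ↔ Q S')) :
    Pr p (fun S => y ∈ S ∧ Q S) = p * Pr p Q := by
  have e : ind (fun S => y ∈ S ∧ Q S) = fun T => (if y ∈ T then (1 : ℝ) else 0) * ind Q T := by
    funext T
    by_cases hy : y ∈ T
    · by_cases hq : Q T
      · rw [ind_apply_of (show y ∈ T ∧ Q T from ⟨hy, hq⟩), ind_apply_of hq]; simp [hy]
      · rw [ind_apply_not (show ¬ (y ∈ T ∧ Q T) from fun h => hq h.2), ind_apply_not hq]; simp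
    · rw [ind_apply_not (show ¬ (y ∈ T ∧ Q T) from fun h => hy h.1)]; simp [hy]
  unfold Pr
  rw [e]
  apply Ep_mem_mul
  intro T
  have : Q (insert y T) ↔ Q (T.erase y) := by
    apply hQ
    intro v hv
    simp [hv]
  by_cases h : Q (insert y T)
  · rw [ind_apply_of h, ind_apply_of (this.mp h)]
  · rw [ind_apply_not h, ind_apply_not (fun h' => h (this.mpr h'))]

/-- `bad` ignores a path label. -/
lemma TS.bad_ignore (T : TS V K) (j : ℕ) (y : V) (Φ : List V) :
    ∀ S S', (∀ v, v ≠ y → (v ∈ S ↔ v ∈ S')) → (T.bad S j (y :: Φ) ↔ T.bad S' j (y :: Φ)) := by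
  intro S S' h
  apply T.bad_congr
  intro v hv
  exact h v (fun e => hv (e ▸ List.mem_cons_self))

/-- Probability that a node has a bad path at density `p` is at most `betaSeq`. -/
lemma TS.Pr_bad_le (T : TS V K) {p : ℝ} (h0 : 0 ≤ p) (h1 : p ≤ 1) :
    ∀ (j : ℕ) (Φ : List V), Pr p (fun S => T.bad S j Φ) ≤ betaSeq p K j := by
  intro j
  induction j with
  | zero =>
    intro Φ
    exact Pr_le_one h0 h1 _
  | succ j ih =>
    intro Φ
    have hm := betaSeq_mem h0 h1 K j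
    have h2 := Pr_none_ge h0 h1 (T.ch Φ) (fun y S => y ∈ S ∧ T.bad S j (y :: Φ))
      (fun y _ S S' hS hA => ⟨hS hA.1, T.bad_mono hS _ _ hA.2⟩)
    have e : Pr p (fun S => ∀ y ∈ T.ch Φ, ¬ (y ∈ S ∧ T.bad S j (y :: Φ)))
        = 1 - Pr p (fun S => T.bad S (j + 1) Φ) := by
      have : (fun S => ∀ y ∈ T.ch Φ, ¬ (y ∈ S ∧ T.bad S j (y :: Φ)))
          = (fun S => ¬ T.bad S (j + 1) Φ) := by
        funext S
        apply propext
        rw [T.bad_succ]
        push Not
        rfl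
      rw [this]
      unfold Pr
      have e2 : ind (fun S => ¬ T.bad S (j + 1) Φ) = fun S => 1 - ind (fun S => T.bad S (j + 1) Φ) S := by
        funext S
        by_cases hb : T.bad S (j + 1) Φ
        · rw [ind_apply_not (not_not.mpr hb), ind_apply_of hb]; ring
        · rw [ind_apply_of hb, ind_apply_not hb]; ring
      rw [e2, Ep_sub, Ep_const]
    rw [e] at h2
    have h3 : ∀ y ∈ T.ch Φ, 1 - p * betaSeq p K j ≤ 1 - Pr p (fun S => y ∈ S ∧ T.bad S j (y :: Φ)) := by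
      intro y _
      rw [Pr_mem_and p y (T.bad_ignore j y Φ)]
      have := ih (y :: Φ)
      have h4 : p * Pr p (fun S => T.bad S j (y :: Φ)) ≤ p * betaSeq p K j :=
        mul_le_mul_of_nonneg_left this h0
      linarith
    have hq : 0 ≤ 1 - p * betaSeq p K j := by nlinarith [hm.1, hm.2]
    have hq1 : 1 - p * betaSeq p K j ≤ 1 := by nlinarith [hm.1, hm.2]
    have h5 : (1 - p * betaSeq p K j) ^ K ≤ ∏ y ∈ T.ch Φ, (1 - Pr p (fun S => y ∈ S ∧ T.bad S j (y :: Φ))) := by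
      calc (1 - p * betaSeq p K j) ^ K
          ≤ (1 - p * betaSeq p K j) ^ (T.ch Φ).card := pow_le_pow_of_le_one hq hq1 (T.card_le Φ)
        _ = ∏ _y ∈ T.ch Φ, (1 - p * betaSeq p K j) := by rw [Finset.prod_const]
        _ ≤ _ := Finset.prod_le_prod (fun _ _ => hq) h3
    rw [betaSeq_succ]
    linarith

end Vale.Agent.Lib.P336_h66
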