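/-
P336 (helper66): reachable label sets `gam` and their first moments.
-/
import Vale.Agent.Lib.P336_h66.Tree

namespace Vale.Agent.Lib.P336_h66

set_option linter.unusedSectionVars false

open Finset

variable {V : Type} [Fintype V] [DecidableEq V] {K : ℕ}

/-- Labels reached from the node `Φ` within `j` levels through labels in `X`. -/
def TS.gam (T : TS V K) (X : Finset V) : ℕ → List V → Finset V
  | 0, _ => ∅
  | j + 1, Φ => T.ch Φ ∪ (T.ch Φ ∩ X).biUnion (fun y => TS.gam T X j (y :: Φ))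

lemma TS.gam_zero (T : TS V K) (X : Finset V) (Φ : List V) : T.gam X 0 Φ = ∅ := rfl

lemma TS.gam_succ (T : TS V K) (X : Finset V) (j : ℕ) (Φ : List V) :
    T.gam X (j + 1) Φ = T.ch Φ ∪ (T.ch Φ ∩ X).biUnion (fun y => T.gam X j (y :: Φ)) := rfl

lemma TS.mem_gam_succ (T : TS V K) {X : Finset V} {j : ℕ} {Φ : List V} {z : V} :
    z ∈ T.gam X (j + 1) Φ ↔ z ∈ T.ch Φ ∨ ∃ y ∈ T.ch Φ, y ∈ X ∧ z ∈ T.gam X j (y :: Φ) := by
  rw [T.gam_succ, Finset.mem_union, Finset.mem_biUnion]
  constructor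
  · rintro (h | ⟨y, hy, hz⟩)
    · exact Or.inl h
    · have := Finset.mem_inter.mp hy
      exact Or.inr ⟨y, this.1, this.2, hz⟩
  · rintro (h | ⟨y, hy, hyX, hz⟩)
    · exact Or.inl h
    · exact Or.inr ⟨y, Finset.mem_inter.mpr ⟨hy, hyX⟩, hz⟩

lemma TS.gam_mono (T : TS V K) {X X' : Finset V} (h : X ⊆ X') :
    ∀ (j : ℕ) (Φ : List V), T.gam X j Φ ⊆ T.gam X' j Φ := by
  intro j
  induction j with
  | zero => intro Φ; simp [T.gam_zero]
  | succ j ih =>
    intro Φ z hz
    rw [T.mem_gam_succ] at hz ⊢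
    rcases hz with hz | ⟨y, hy, hyX, hz⟩
    · exact Or.inl hz
    · exact Or.inr ⟨y, hy, h hyX, ih _ hz⟩

lemma TS.gam_congr (T : TS V K) :
    ∀ (j : ℕ) (Φ : List V) {X X' : Finset V}, (∀ v, v ∉ Φ → (v ∈ X ↔ v ∈ X')) →
      T.gam X j Φ = T.gam X' j Φ := by
  intro j
  induction j with
  | zero => intro Φ X X' _; simp [T.gam_zero]
  | succ j ih =>
    intro Φ X X' h
    ext z
    rw [T.mem_gam_succ, T.mem_gam_succ]
    constructor
    · rintro (hz | ⟨y, hy, hyX, hz⟩)
      · exact Or.inl hz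
      · refine Or.inr ⟨y, hy, (h y (T.disj Φ y hy)).mp hyX, ?_⟩
        rw [← ih (y :: Φ) (X := X) (X' := X')]
        · exact hz
        · intro v hv
          exact h v (fun hh => hv (List.mem_cons_of_mem _ hh))
    · rintro (hz | ⟨y, hy, hyX, hz⟩)
      · exact Or.inl hz
      · refine Or.inr ⟨y, hy, (h y (T.disj Φ y hy)).mpr hyX, ?_⟩
        rw [ih (y :: Φ) (X := X) (X' := X')]
        · exact hz
        · intro v hv
          exact h v (fun hh => hv (List.mem_cons_of_mem _ hh))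

lemma TS.ch_subset_gam (T : TS V K) (X : Finset V) (j : ℕ) (Φ : List V) :
    T.ch Φ ⊆ T.gam X (j + 1) Φ := by
  intro z hz
  rw [T.mem_gam_succ]; exact Or.inl hz

/-- A new bad path after adding `c` passes through `c`, so `c` is reachable. -/
lemma TS.pivot_mem_gam (T : TS V K) {Y : Finset V} {c : V} :
    ∀ (j : ℕ) (Φ : List V), T.bad (insert c Y) j Φ → ¬ T.bad Y j Φ → c ∈ T.gam Y j Φ := by
  intro j
  induction j with
  | zero => intro Φ _ h; exact absurd (T.bad_zero _ _) h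
  | succ j ih =>
    intro Φ h1 h2
    rw [T.bad_succ] at h1
    rw [T.bad_succ] at h2
    obtain ⟨y, hy, hyS, hb⟩ := h1
    rw [T.mem_gam_succ]
    rcases Finset.mem_insert.mp hyS with rfl | hyY
    · exact Or.inl hy
    · refine Or.inr ⟨y, hy, hyY, ih _ hb ?_⟩
      intro hb'
      exact h2 ⟨y, hy, hyY, hb'⟩

/-- First contact: if `W` avoids `gam X j Φ`, a bad path inside `X ∪ W` stays in `X`. -/
lemma TS.first_contact (T : TS V K) {X W : Finset V} :
    ∀ (j : ℕ) (Φ : List V) {Q : Finset V}, Disjoint W (T.gam X j Φ) → Q ⊆ X ∪ W →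
      T.bad Q j Φ → T.bad (Q ∩ X) j Φ := by
  intro j
  induction j with
  | zero => intro Φ Q _ _ _; exact T.bad_zero _ _
  | succ j ih =>
    intro Φ Q hW hQ hb
    rw [T.bad_succ] at hb ⊢
    obtain ⟨y, hy, hyQ, hb'⟩ := hb
    have hyG : y ∈ T.gam X (j + 1) Φ := T.ch_subset_gam X j Φ hy
    have hyW : y ∉ W := fun h => (Finset.disjoint_left.mp hW h) hyG
    have hyX : y ∈ X := by
      rcases Finset.mem_union.mp (hQ hyQ) with h | h
      · exact h
      · exact absurd h hyW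
    refine ⟨y, hy, Finset.mem_inter.mpr ⟨hyQ, hyX⟩, ?_⟩
    apply ih (y :: Φ) _ hQ hb'
    apply Finset.disjoint_of_subset_right _ hW
    intro z hz
    rw [T.mem_gam_succ]
    exact Or.inr ⟨y, hy, hyX, hz⟩

/-! ### First moments -/

/-- Growth of the first moment of `gam` (in units of `K`). -/
noncomputable def Rseq (a : ℝ) : ℕ → ℝ
  | 0 => 0
  | j + 1 => 1 + a * Rseq a j

/-- Growth of the sum over `w` of the extra labels when adding `w` (in units of `K^2`). -/
noncomputable def R2seq (a : ℝ) : ℕ → ℝ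
  | 0 => 0
  | j + 1 => a * R2seq a j + Rseq a j

lemma Rseq_nonneg {a : ℝ} (ha : 0 ≤ a) (j : ℕ) : 0 ≤ Rseq a j := by
  induction j with
  | zero => simp [Rseq]
  | succ j ih => simp only [Rseq]; positivity

lemma R2seq_nonneg {a : ℝ} (ha : 0 ≤ a) (j : ℕ) : 0 ≤ R2seq a j := by
  induction j with
  | zero => simp [R2seq]
  | succ j ih =>
    simp only [R2seq]
    have := Rseq_nonneg ha j
    positivity

lemma TS.gam_card_succ_le (T : TS V K) (X : Finset V) (j : ℕ) (Φ : List V) :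
    ((T.gam X (j + 1) Φ).card : ℝ) ≤ (T.ch Φ).card +
      ∑ y ∈ T.ch Φ, (if y ∈ X then (1 : ℝ) else 0) * ((T.gam X j (y :: Φ)).card : ℝ) := by
  rw [T.gam_succ]
  have h1 := Finset.card_union_le (T.ch Φ) ((T.ch Φ ∩ X).biUnion (fun y => T.gam X j (y :: Φ)))
  have h2 : ((T.ch Φ ∩ X).biUnion (fun y => T.gam X j (y :: Φ))).card
      ≤ ∑ y ∈ T.ch Φ ∩ X, (T.gam X j (y :: Φ)).card := Finset.card_biUnion_le
  have h3 : ∑ y ∈ T.ch Φ, (if y ∈ X then (1 : ℝ) else 0) * ((T.gam X j (y :: Φ)).card : ℝ)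
      = ((∑ y ∈ T.ch Φ ∩ X, (T.gam X j (y :: Φ)).card : ℕ) : ℝ) := by
    rw [Nat.cast_sum, ← Finset.filter_mem_eq_inter, Finset.sum_filter]
    apply Finset.sum_congr rfl
    intro y _
    by_cases hy : y ∈ X <;> simp [hy]
  rw [h3]
  have : (T.ch Φ ∪ (T.ch Φ ∩ X).biUnion (fun y => T.gam X j (y :: Φ))).card
      ≤ (T.ch Φ).card + ∑ y ∈ T.ch Φ ∩ X, (T.gam X j (y :: Φ)).card := by omega
  exact_mod_cast this

/-- `E |gam S j Φ| ≤ K R_j`. -/
lemma TS.gam_moment (T : TS V K) {p a : ℝ} (h0 : 0 ≤ p) (h1 : p ≤ 1) (ha : p * K ≤ a) :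
    ∀ (j : ℕ) (Φ : List V),
      Ep p (fun S => ((T.gam S j Φ).card : ℝ)) ≤ K * Rseq a j := by
  have ha0 : 0 ≤ a := le_trans (by positivity) ha
  intro j
  induction j with
  | zero =>
    intro Φ
    simp [T.gam_zero, Rseq, Ep_const]
  | succ j ih =>
    intro Φ
    have h2 : Ep p (fun S => ((T.gam S (j + 1) Φ).card : ℝ)) ≤
        Ep p (fun S => (T.ch Φ).card + ∑ y ∈ T.ch Φ,
          (if y ∈ S then (1 : ℝ) else 0) * ((T.gam S j (y :: Φ)).card : ℝ)) :=
      Ep_mono h0 h1 (fun S => T.gam_card_succ_le S j Φ)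
    refine le_trans h2 ?_
    rw [Ep_add, Ep_const, Ep_sum]
    have h3 : ∀ y ∈ T.ch Φ, Ep p (fun S => (if y ∈ S then (1 : ℝ) else 0) * ((T.gam S j (y :: Φ)).card : ℝ))
        ≤ p * (K * Rseq a j) := by
      intro y _
      rw [Ep_mem_mul]
      · exact mul_le_mul_of_nonneg_left (ih _) h0
      · intro S
        have : T.gam (insert y S) j (y :: Φ) = T.gam (S.erase y) j (y :: Φ) := by
          apply T.gam_congr
          intro v hv
          have hvy : v ≠ y := fun e => hv (e ▸ List.mem_cons_self)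
          simp [hvy]
        rw [this]
    have h4 : ∑ y ∈ T.ch Φ, Ep p (fun S => (if y ∈ S then (1 : ℝ) else 0) * ((T.gam S j (y :: Φ)).card : ℝ))
        ≤ (T.ch Φ).card * (p * (K * Rseq a j)) := by
      have := Finset.sum_le_sum h3
      simpa using this
    have hc : ((T.ch Φ).card : ℝ) ≤ K := by exact_mod_cast T.card_le Φ
    have hR := Rseq_nonneg ha0 j
    have hK : (0 : ℝ) ≤ K := by positivity
    simp only [Rseq]
    have h5 : ((T.ch Φ).card : ℝ) * (p * (K * Rseq a j)) ≤ K * (p * K * Rseq a j) := by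
      have : 0 ≤ p * (K * Rseq a j) := by positivity
      calc ((T.ch Φ).card : ℝ) * (p * (K * Rseq a j)) ≤ K * (p * (K * Rseq a j)) :=
            mul_le_mul_of_nonneg_right hc this
        _ = K * (p * K * Rseq a j) := by ring
    have h6 : K * (p * K * Rseq a j) ≤ K * (a * Rseq a j) :=
      mul_le_mul_of_nonneg_left (mul_le_mul_of_nonneg_right ha hR) hK
    nlinarith

/-- Extra labels when `w` is added. -/
def TS.gamX (T : TS V K) (S : Finset V) (w : V) (j : ℕ) (Φ : List V) : Finset V :=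
  T.gam (insert w S) j Φ \ T.gam S j Φ

lemma TS.gamX_card_succ_le (T : TS V K) (S : Finset V) (w : V) (j : ℕ) (Φ : List V) :
    ((T.gamX S w (j + 1) Φ).card : ℝ) ≤
      (∑ y ∈ T.ch Φ, (if y ∈ S then (1 : ℝ) else 0) * ((T.gamX S w j (y :: Φ)).card : ℝ))
      + (if w ∈ T.ch Φ then ((T.gam S j (w :: Φ)).card : ℝ) else 0) := by
  have hsub : T.gamX S w (j + 1) Φ ⊆
      ((T.ch Φ ∩ S).biUnion (fun y => T.gamX S w j (y :: Φ))) ∪
        (if w ∈ T.ch Φ then T.gam S j (w :: Φ) else ∅) := by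
    intro z hz
    unfold TS.gamX at hz
    obtain ⟨hz1, hz2⟩ := Finset.mem_sdiff.mp hz
    rw [T.mem_gam_succ] at hz1 hz2
    push Not at hz2
    obtain ⟨hzc, hz3⟩ := hz2
    rcases hz1 with hz1 | ⟨y, hy, hyX, hz1⟩
    · exact absurd hz1 hzc
    · rw [Finset.mem_union]
      by_cases hyS : y ∈ S
      · left
        rw [Finset.mem_biUnion]
        refine ⟨y, Finset.mem_inter.mpr ⟨hy, hyS⟩, ?_⟩
        unfold TS.gamX
        exact Finset.mem_sdiff.mpr ⟨hz1, hz3 y hy hyS⟩
      · right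
        have hyw : y = w := by
          rcases Finset.mem_insert.mp hyX with h | h
          · exact h
          · exact absurd h hyS
        subst hyw
        rw [if_pos hy]
        have e : T.gam (insert y S) j (y :: Φ) = T.gam S j (y :: Φ) := by
          apply T.gam_congr
          intro v hv
          have hvy : v ≠ y := fun e => hv (e ▸ List.mem_cons_self)
          simp [hvy]
        rwa [e] at hz1
  have h1 := Finset.card_le_card hsub
  have h2 := Finset.card_union_le ((T.ch Φ ∩ S).biUnion (fun y => T.gamX S w j (y :: Φ)))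
    (if w ∈ T.ch Φ then T.gam S j (w :: Φ) else ∅)
  have h3 : ((T.ch Φ ∩ S).biUnion (fun y => T.gamX S w j (y :: Φ))).card
      ≤ ∑ y ∈ T.ch Φ ∩ S, (T.gamX S w j (y :: Φ)).card := Finset.card_biUnion_le
  have h4 : ∑ y ∈ T.ch Φ, (if y ∈ S then (1 : ℝ) else 0) * ((T.gamX S w j (y :: Φ)).card : ℝ)
      = ((∑ y ∈ T.ch Φ ∩ S, (T.gamX S w j (y :: Φ)).card : ℕ) : ℝ) := by
    rw [Nat.cast_sum, ← Finset.filter_mem_eq_inter, Finset.sum_filter]
    apply Finset.sum_congr rfl
    intro y _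
    by_cases hy : y ∈ S <;> simp [hy]
  rw [h4]
  by_cases hw : w ∈ T.ch Φ
  · rw [if_pos hw] at h1 h2 ⊢
    have : (T.gamX S w (j + 1) Φ).card ≤
        (∑ y ∈ T.ch Φ ∩ S, (T.gamX S w j (y :: Φ)).card) + (T.gam S j (w :: Φ)).card := by omega
    exact_mod_cast this
  · rw [if_neg hw] at h1 h2 ⊢
    simp only [Finset.card_empty, add_zero] at h2 ⊢
    have : (T.gamX S w (j + 1) Φ).card ≤ (∑ y ∈ T.ch Φ ∩ S, (T.gamX S w j (y :: Φ)).card) := by omega
    exact_mod_cast this

/-- `∑_w E |gam(S ∪ w) \ gam S| ≤ K² R2_j`. -/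
lemma TS.gamX_moment (T : TS V K) {p a : ℝ} (h0 : 0 ≤ p) (h1 : p ≤ 1) (ha : p * K ≤ a) :
    ∀ (j : ℕ) (Φ : List V),
      ∑ w : V, Ep p (fun S => ((T.gamX S w j Φ).card : ℝ)) ≤ K ^ 2 * R2seq a j := by
  have ha0 : 0 ≤ a := le_trans (by positivity) ha
  intro j
  induction j with
  | zero =>
    intro Φ
    simp [TS.gamX, T.gam_zero, R2seq, Ep_const]
  | succ j ih =>
    intro Φ
    have hK : (0 : ℝ) ≤ K := by positivity
    have hR := Rseq_nonneg ha0 j
    have hR2 := R2seq_nonneg ha0 j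
    have hc : ((T.ch Φ).card : ℝ) ≤ K := by exact_mod_cast T.card_le Φ
    have h2 : ∀ w : V, Ep p (fun S => ((T.gamX S w (j + 1) Φ).card : ℝ)) ≤
        (∑ y ∈ T.ch Φ, p * Ep p (fun S => ((T.gamX S w j (y :: Φ)).card : ℝ)))
        + (if w ∈ T.ch Φ then (K * Rseq a j) else 0) := by
      intro w
      refine le_trans (Ep_mono h0 h1 (fun S => T.gamX_card_succ_le S w j Φ)) ?_
      rw [Ep_add, Ep_sum]
      apply add_le_add
      · apply Finset.sum_le_sum
        intro y _
        rw [Ep_mem_mul]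
        intro S
        have e1 : T.gam (insert w (insert y S)) j (y :: Φ) = T.gam (insert w (S.erase y)) j (y :: Φ) := by
          apply T.gam_congr
          intro v hv
          have hvy : v ≠ y := fun e => hv (e ▸ List.mem_cons_self)
          simp [hvy]
        have e2 : T.gam (insert y S) j (y :: Φ) = T.gam (S.erase y) j (y :: Φ) := by
          apply T.gam_congr
          intro v hv
          have hvy : v ≠ y := fun e => hv (e ▸ List.mem_cons_self)
          simp [hvy]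
        unfold TS.gamX
        rw [e1, e2]
      · by_cases hw : w ∈ T.ch Φ
        · simp only [if_pos hw]
          exact T.gam_moment h0 h1 ha j _
        · simp only [if_neg hw]
          rw [Ep_const]
    have h3 := Finset.sum_le_sum (fun w (_ : w ∈ (Finset.univ : Finset V)) => h2 w)
    refine le_trans h3 ?_
    rw [Finset.sum_add_distrib]
    have h4 : ∑ w : V, ∑ y ∈ T.ch Φ, p * Ep p (fun S => ((T.gamX S w j (y :: Φ)).card : ℝ))
        ≤ (T.ch Φ).card * (p * (K ^ 2 * R2seq a j)) := by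
      rw [Finset.sum_comm]
      have : ∀ y ∈ T.ch Φ, ∑ w : V, p * Ep p (fun S => ((T.gamX S w j (y :: Φ)).card : ℝ))
          ≤ p * (K ^ 2 * R2seq a j) := by
        intro y _
        rw [← Finset.mul_sum]
        exact mul_le_mul_of_nonneg_left (ih _) h0
      have := Finset.sum_le_sum this
      simpa using this
    have h5 : ∑ w : V, (if w ∈ T.ch Φ then (K * Rseq a j) else 0) = (T.ch Φ).card * (K * Rseq a j) := by
      rw [Finset.sum_ite_mem]
      simp
    rw [h5]
    have h6 : ((T.ch Φ).card : ℝ) * (p * (K ^ 2 * R2seq a j)) ≤ K ^ 2 * (a * R2seq a j) := by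
      have h7 : 0 ≤ p * (K ^ 2 * R2seq a j) := by positivity
      calc ((T.ch Φ).card : ℝ) * (p * (K ^ 2 * R2seq a j)) ≤ K * (p * (K ^ 2 * R2seq a j)) :=
            mul_le_mul_of_nonneg_right hc h7
        _ = K ^ 2 * ((p * K) * R2seq a j) := by ring
        _ ≤ K ^ 2 * (a * R2seq a j) := by
            apply mul_le_mul_of_nonneg_left _ (by positivity)
            exact mul_le_mul_of_nonneg_right ha hR2
    have h8 : ((T.ch Φ).card : ℝ) * (K * Rseq a j) ≤ K ^ 2 * Rseq a j := by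
      have h7 : 0 ≤ (K : ℝ) * Rseq a j := by positivity
      calc ((T.ch Φ).card : ℝ) * (K * Rseq a j) ≤ K * (K * Rseq a j) :=
            mul_le_mul_of_nonneg_right hc h7
        _ = K ^ 2 * Rseq a j := by ring
    simp only [R2seq]
    nlinarith

end Vale.Agent.Lib.P336_h66
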