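/-
P336 (helper66): generic lemmas on worlds, covariances, Bonferroni.
-/
import Vale.Agent.Lib.P336_h66.Gam

namespace Vale.Agent.Lib.P336_h66

set_option linter.unusedSectionVars false

open Finset

variable {V : Type} [Fintype V] [DecidableEq V]

lemma monotone_comp_sdiff {f : Finset V → ℝ} (hf : Monotone f) (D : Finset V) :
    Monotone (fun T => f (T \ D)) :=
  fun _ _ h => hf (Finset.sdiff_subset_sdiff h (le_refl D))

/-- Covariance in a world is dominated by the full covariance for monotone functions. -/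
lemma Cov_world {p : ℝ} (h0 : 0 ≤ p) (h1 : p ≤ 1) (D : Finset V) :
    ∀ {f g : Finset V → ℝ}, Monotone f → Monotone g →
      (1 - p) ^ D.card * Cov p (fun T => f (T \ D)) (fun T => g (T \ D)) ≤ Cov p f g := by
  classical
  have hq : 0 ≤ 1 - p := by linarith
  induction D using Finset.induction_on with
  | empty =>
    intro f g _ _
    simp
  | insert v D hv ih =>
    intro f g hf hg
    -- condition on v
    have hf0 : Monotone (fun T : Finset V => f (T.erase v)) := fun S T h => hf (Finset.erase_subset_erase v h)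
    have hg0 : Monotone (fun T : Finset V => g (T.erase v)) := fun S T h => hg (Finset.erase_subset_erase v h)
    have hf1 : Monotone (fun T : Finset V => f (insert v T)) := fun S T h => hf (Finset.insert_subset_insert v h)
    have hg1 : Monotone (fun T : Finset V => g (insert v T)) := fun S T h => hg (Finset.insert_subset_insert v h)
    have h2 := Cov_cond p v f g
    have h3 : 0 ≤ Cov p (fun T => f (insert v T)) (fun T => g (insert v T)) := Cov_nonneg h0 h1 hf1 hg1
    have h4 : Ep p (fun T => f (T.erase v)) ≤ Ep p (fun T => f (insert v T)) :=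
      Ep_mono h0 h1 (fun T => hf ((Finset.erase_subset v T).trans (Finset.subset_insert v T)))
    have h5 : Ep p (fun T => g (T.erase v)) ≤ Ep p (fun T => g (insert v T)) :=
      Ep_mono h0 h1 (fun T => hg ((Finset.erase_subset v T).trans (Finset.subset_insert v T)))
    have h6 := ih hf0 hg0
    have e1 : (fun T : Finset V => f ((T \ D).erase v)) = (fun T => f (T \ insert v D)) := by
      funext T
      have e : (T \ D).erase v = T \ insert v D := by
        ext a
        simp only [Finset.mem_erase, Finset.mem_sdiff, Finset.mem_insert, not_or]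
        tauto
      rw [e]
    have e2 : (fun T : Finset V => g ((T \ D).erase v)) = (fun T => g (T \ insert v D)) := by
      funext T
      have e : (T \ D).erase v = T \ insert v D := by
        ext a
        simp only [Finset.mem_erase, Finset.mem_sdiff, Finset.mem_insert, not_or]
        tauto
      rw [e]
    rw [e1, e2] at h6
    rw [Finset.card_insert_of_notMem hv, pow_succ]
    have h7 : 0 ≤ p * (1 - p) * ((Ep p (fun T => f (insert v T)) - Ep p (fun T => f (T.erase v)))
          * (Ep p (fun T => g (insert v T)) - Ep p (fun T => g (T.erase v)))) :=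
      mul_nonneg (mul_nonneg h0 hq) (mul_nonneg (by linarith) (by linarith))
    have h8 : 0 ≤ p * Cov p (fun T => f (insert v T)) (fun T => g (insert v T)) := mul_nonneg h0 h3
    have h9 : (1 - p) * ((1 - p) ^ D.card * Cov p (fun T => f (T \ insert v D)) (fun T => g (T \ insert v D)))
        ≤ (1 - p) * Cov p (fun T => f (T.erase v)) (fun T => g (T.erase v)) :=
      mul_le_mul_of_nonneg_left h6 hq
    rw [h2]
    nlinarith

/-- Mean in a world: for every `θ>0`, `E f - E^D f ≤ θ Var f /(2π) + 1/(2θ)`. -/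
lemma mean_world_le {p : ℝ} (h0 : 0 ≤ p) (h1 : p < 1) (D : Finset V) (f : Finset V → ℝ)
    {θ : ℝ} (hθ : 0 < θ) :
    Ep p f - EW p D f ≤ θ * (Ep p (fun T => f T * f T) - Ep p f * Ep p f) / (2 * (1 - p) ^ D.card)
      + 1 / (2 * θ) := by
  set π := (1 - p) ^ D.card with hπ
  have hπ0 : 0 < π := pow_pos (by linarith) _
  set m := Ep p f with hm
  -- pointwise inequality
  have hpt : ∀ T, (if Disjoint T D then (1 : ℝ) else 0) * (m - f T) ≤
      θ / 2 * (f T - m) ^ 2 + 1 / (2 * θ) * (if Disjoint T D then (1 : ℝ) else 0) := by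
    intro T
    by_cases hT : Disjoint T D
    · simp only [hT, if_true, one_mul, mul_one]
      have h2 : 0 ≤ (θ * (f T - m) + 1) ^ 2 := sq_nonneg _
      have h3 : m - f T ≤ θ / 2 * (f T - m) ^ 2 + 1 / (2 * θ) := by
        have : θ / 2 * (f T - m) ^ 2 + 1 / (2 * θ) - (m - f T) = (θ * (f T - m) + 1) ^ 2 / (2 * θ) := by
          field_simp
          ring
        have h4 : 0 ≤ (θ * (f T - m) + 1) ^ 2 / (2 * θ) := by positivity
        linarith
      exact h3
    · simp only [hT, if_false, zero_mul, mul_zero, add_zero]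
      positivity
  have h1' : p ≤ 1 := le_of_lt h1
  have h2 := Ep_mono h0 h1' hpt
  -- evaluate the left side
  have hL : Ep p (fun T => (if Disjoint T D then (1 : ℝ) else 0) * (m - f T)) = π * (m - EW p D f) := by
    rw [Ep_disj_mul]
    congr 1
    unfold EW
    rw [Ep_sub, Ep_const]
  have hR : Ep p (fun T => θ / 2 * (f T - m) ^ 2 + 1 / (2 * θ) * (if Disjoint T D then (1 : ℝ) else 0))
      = θ / 2 * (Ep p (fun T => f T * f T) - m * m) + 1 / (2 * θ) * π := by
    rw [Ep_add, Ep_smul, Ep_smul, Ep_disj]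
    congr 2
    have : (fun T => (f T - m) ^ 2) = fun T => f T * f T - (2 * m) * f T + m * m := by
      funext T; ring
    rw [this, Ep_add, Ep_sub, Ep_smul, Ep_const, ← hm]
    ring
  rw [hL, hR] at h2
  have h3 : m - EW p D f ≤ (θ / 2 * (Ep p (fun T => f T * f T) - m * m) + 1 / (2 * θ) * π) / π := by
    rw [le_div_iff₀ hπ0]; linarith
  have h4 : (θ / 2 * (Ep p (fun T => f T * f T) - m * m) + 1 / (2 * θ) * π) / π
      = θ * (Ep p (fun T => f T * f T) - m * m) / (2 * π) + 1 / (2 * θ) := by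
    field_simp
  rw [h4] at h3
  exact h3

/-- Removing the labels of one more set `D'` changes the probability of a monotone event by at most
`p |D'|` (in fact this holds for any event). -/
lemma PrW_union_ge {p : ℝ} (h0 : 0 ≤ p) (h1 : p ≤ 1) (D D' : Finset V) (Q : Finset V → Prop) :
    PrW p D Q - p * (D' \ D).card ≤ PrW p (D ∪ D') Q := by
  classical
  -- pointwise: ind Q (T\D) ≤ ind Q (T\(D∪D')) + ∑_{z∈D'\D} 1[z∈T]
  have hpt : ∀ T, ind Q (T \ D) ≤ ind Q (T \ (D ∪ D')) + ∑ z ∈ D' \ D, (if z ∈ T then (1 : ℝ) else 0) := by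
    intro T
    by_cases hT : ∃ z ∈ D' \ D, z ∈ T
    · obtain ⟨z, hz, hzT⟩ := hT
      have h2 : (1 : ℝ) ≤ ∑ z ∈ D' \ D, (if z ∈ T then (1 : ℝ) else 0) := by
        calc (1 : ℝ) = (if z ∈ T then (1 : ℝ) else 0) := by simp [hzT]
          _ ≤ _ := Finset.single_le_sum (f := fun z => if z ∈ T then (1 : ℝ) else 0)
              (fun i _ => by positivity) hz
      have h3 := ind_le_one Q (T \ D)
      have h4 := ind_nonneg Q (T \ (D ∪ D'))
      linarith
    · push Not at hT
      have e : T \ D = T \ (D ∪ D') := by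
        ext a
        simp only [Finset.mem_sdiff, Finset.mem_union, not_or]
        constructor
        · rintro ⟨ha, hb⟩
          refine ⟨ha, hb, ?_⟩
          intro hc
          exact hT a (Finset.mem_sdiff.mpr ⟨hc, hb⟩) ha
        · rintro ⟨ha, hb, _⟩
          exact ⟨ha, hb⟩
      rw [← e]
      have : 0 ≤ ∑ z ∈ D' \ D, (if z ∈ T then (1 : ℝ) else 0) :=
        Finset.sum_nonneg (fun i _ => by positivity)
      linarith
  have h2 := Ep_mono h0 h1 hpt
  rw [Ep_add, Ep_sum] at h2
  have h3 : ∑ z ∈ D' \ D, Ep p (fun T => if z ∈ T then (1 : ℝ) else 0) = p * (D' \ D).card := by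
    have : ∀ z ∈ D' \ D, Ep p (fun T : Finset V => if z ∈ T then (1 : ℝ) else 0) = p := by
      intro z _
      have := Ep_mem_mul p z (g := fun _ => (1 : ℝ)) (fun _ => rfl)
      simp only [mul_one, Ep_const] at this
      exact this
    rw [Finset.sum_congr rfl this]
    simp; ring
  rw [h3] at h2
  unfold PrW EW
  linarith

/-- `P(S ∖ D ∈ Q)` is at most `P(Q)` for monotone `Q`. -/
lemma PrW_le_Pr {p : ℝ} (h0 : 0 ≤ p) (h1 : p ≤ 1) (D : Finset V) {Q : Finset V → Prop}
    (hQ : ∀ S S', S ⊆ S' → Q S → Q S') : PrW p D Q ≤ Pr p Q := by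
  unfold PrW EW Pr
  apply Ep_mono h0 h1
  intro T
  exact ind_mono hQ (Finset.sdiff_subset)

/-- Expectation of `C(|S ∩ C|, k)`. -/
lemma Ep_choose (p : ℝ) (C : Finset V) :
    ∀ k : ℕ, Ep p (fun S => (((S ∩ C).card.choose k : ℕ) : ℝ)) = (C.card.choose k : ℝ) * p ^ k := by
  classical
  induction C using Finset.induction_on with
  | empty =>
    intro k
    cases k with
    | zero => simp [Ep_const]
    | succ k => simp [Ep_const]
  | insert a C ha ih =>
    intro k
    cases k with
    | zero => simp [Ep_const]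
    | succ k =>
      rw [Ep_cond p a]
      have e1 : ∀ T : Finset V, (T.erase a ∩ insert a C).card = (T ∩ C).card := by
        intro T
        congr 1
        ext z
        simp only [Finset.mem_inter, Finset.mem_erase, Finset.mem_insert]
        constructor
        · rintro ⟨⟨h1, h2⟩, h3 | h3⟩
          · exact absurd h3 h1
          · exact ⟨h2, h3⟩
        · rintro ⟨h2, h3⟩
          exact ⟨⟨fun e => ha (e ▸ h3), h2⟩, Or.inr h3⟩
      have e2 : ∀ T : Finset V, (insert a T ∩ insert a C).card = (T ∩ C).card + 1 := by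
        intro T
        have : insert a T ∩ insert a C = insert a (T ∩ C) := by
          ext z
          simp only [Finset.mem_inter, Finset.mem_insert]
          tauto
        rw [this, Finset.card_insert_of_notMem]
        intro h
        exact ha (Finset.mem_inter.mp h).2
      simp only [e1, e2, Nat.choose_succ_succ, Nat.cast_add]
      rw [Ep_add, ih, ih]
      rw [Finset.card_insert_of_notMem ha, Nat.choose_succ_succ, Nat.cast_add]
      ring

/-- Two labels: `E[1_y 1_z] = p²`. -/
lemma Ep_two_labels (p : ℝ) {y z : V} (hyz : y ≠ z) :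
    Ep p (fun T : Finset V => (if y ∈ T then (1 : ℝ) else 0) * (if z ∈ T then (1 : ℝ) else 0)) = p ^ 2 := by
  rw [Ep_mem_mul p y (g := fun T : Finset V => if z ∈ T then (1 : ℝ) else 0)]
  · have := Ep_mem_mul p z (g := fun _ => (1 : ℝ)) (fun _ => rfl)
    simp only [mul_one, Ep_const] at this
    rw [this]; ring
  · intro T
    have : z ∈ insert y T ↔ z ∈ T.erase y := by
      simp [hyz.symm]
    simp [this]

/-- Averaging a double sum over a random subset. -/
lemma Ep_pair_sum (ξ : ℝ) (C : Finset V) (c : V → V → ℝ) :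
    Ep ξ (fun S => ∑ y ∈ S ∩ C, ∑ z ∈ (S ∩ C).erase y, c y z)
      = ξ ^ 2 * ∑ y ∈ C, ∑ z ∈ C.erase y, c y z := by
  classical
  have hpt : ∀ S : Finset V, ∑ y ∈ S ∩ C, ∑ z ∈ (S ∩ C).erase y, c y z
      = ∑ y ∈ C, ∑ z ∈ C.erase y,
        (if y ∈ S then (1 : ℝ) else 0) * (if z ∈ S then (1 : ℝ) else 0) * c y z := by
    intro S
    have e0 : ∑ y ∈ S ∩ C, ∑ z ∈ (S ∩ C).erase y, c y z
        = ∑ y ∈ C, (if y ∈ S then ∑ z ∈ (S ∩ C).erase y, c y z else 0) := by
      have : S ∩ C = C.filter (fun y => y ∈ S) := by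
        ext a; simp [and_comm]
      rw [this, Finset.sum_filter]
    rw [e0]
    apply Finset.sum_congr rfl
    intro y hy
    by_cases hyS : y ∈ S
    · simp only [hyS, if_true, one_mul]
      have : (S ∩ C).erase y = (C.erase y).filter (fun z => z ∈ S) := by
        ext a
        simp only [Finset.mem_erase, Finset.mem_inter, Finset.mem_filter]
        tauto
      rw [this, Finset.sum_filter]
      apply Finset.sum_congr rfl
      intro z _
      by_cases hz : z ∈ S <;> simp [hz]
    · simp [hyS]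
  have e : (fun S => ∑ y ∈ S ∩ C, ∑ z ∈ (S ∩ C).erase y, c y z)
      = fun S => ∑ y ∈ C, ∑ z ∈ C.erase y,
        (if y ∈ S then (1 : ℝ) else 0) * (if z ∈ S then (1 : ℝ) else 0) * c y z := by
    funext S; exact hpt S
  rw [e, Ep_sum, Finset.mul_sum]
  apply Finset.sum_congr rfl
  intro y _
  rw [Ep_sum, Finset.mul_sum]
  apply Finset.sum_congr rfl
  intro z hz
  have hyz : y ≠ z := (Finset.ne_of_mem_erase hz).symm
  have := Ep_two_labels ξ hyz
  have h2 := Ep_smul ξ (c y z) (fun T : Finset V => (if y ∈ T then (1 : ℝ) else 0) * (if z ∈ T then (1 : ℝ) else 0))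
  rw [this] at h2
  have e3 : (fun T : Finset V => (if y ∈ T then (1 : ℝ) else 0) * (if z ∈ T then (1 : ℝ) else 0) * c y z)
      = fun T => c y z * ((if y ∈ T then (1 : ℝ) else 0) * (if z ∈ T then (1 : ℝ) else 0)) := by
    funext T; ring
  rw [e3, h2]; ring

/-- Second-order lower bound for a union: `1[Z>0] ≥ Z - C(Z,2)`. -/
lemma nat_union_bound (Z : ℕ) : (Z : ℝ) - (Z.choose 2 : ℝ) ≤ (if Z = 0 then (0 : ℝ) else 1) := by
  induction Z with
  | zero => simp
  | succ n ih =>
    simp only [Nat.succ_ne_zero, if_false]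
    have : ((n + 1).choose 2 : ℝ) = (n.choose 1 : ℝ) + (n.choose 2 : ℝ) := by
      rw [Nat.choose_succ_succ]; push_cast; ring
    rw [this, Nat.choose_one_right]
    push_cast
    have h := (Nat.cast_nonneg (n.choose 2) : (0 : ℝ) ≤ (n.choose 2 : ℝ))
    linarith

/-- Third-order Bonferroni: `1[Z=0] ≥ 1 - Z + C(Z,2) - C(Z,3)`. -/
lemma nat_bonf3 (Z : ℕ) :
    1 - (Z : ℝ) + (Z.choose 2 : ℝ) - (Z.choose 3 : ℝ) ≤ (if Z = 0 then (1 : ℝ) else 0) := by
  cases Z with
  | zero => simp
  | succ n =>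
    simp only [Nat.succ_ne_zero, if_false]
    have h2 : ((n + 1).choose 2 : ℝ) = (n.choose 1 : ℝ) + (n.choose 2 : ℝ) := by
      rw [Nat.choose_succ_succ]; push_cast; ring
    have h3 : ((n + 1).choose 3 : ℝ) = (n.choose 2 : ℝ) + (n.choose 3 : ℝ) := by
      rw [Nat.choose_succ_succ]; push_cast; ring
    rw [h2, h3, Nat.choose_one_right]
    push_cast
    have h := (Nat.cast_nonneg (n.choose 3) : (0 : ℝ) ≤ (n.choose 3 : ℝ))
    linarith

/-- `C(Z,2)` as a double sum of indicators. -/
lemma choose_two_eq_sum (g : Finset V) (x : V → ℝ) (hx : ∀ y ∈ g, x y = 0 ∨ x y = 1) :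
    ((g.filter (fun y => x y = 1)).card.choose 2 : ℝ)
      = (1 / 2) * ∑ y ∈ g, ∑ z ∈ g.erase y, x y * x z := by
  classical
  induction g using Finset.induction_on with
  | empty => simp
  | insert a g ha ih =>
    have hx' : ∀ y ∈ g, x y = 0 ∨ x y = 1 := fun y hy => hx y (Finset.mem_insert_of_mem hy)
    have ih' := ih hx'
    -- rewrite the double sum over insert a g
    have e1 : ∑ y ∈ insert a g, ∑ z ∈ (insert a g).erase y, x y * x z
        = ∑ y ∈ g, ∑ z ∈ g.erase y, x y * x z + 2 * (x a * ∑ z ∈ g, x z) := by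
      rw [Finset.sum_insert ha, Finset.erase_insert ha]
      have e2 : ∀ y ∈ g, ∑ z ∈ (insert a g).erase y, x y * x z
          = x y * x a + ∑ z ∈ g.erase y, x y * x z := by
        intro y hy
        have hne : a ≠ y := fun e => ha (e ▸ hy)
        rw [Finset.erase_insert_of_ne hne, Finset.sum_insert]
        intro h
        exact ha (Finset.mem_of_mem_erase h)
      rw [Finset.sum_congr rfl e2, Finset.sum_add_distrib]
      have e3 : ∑ y ∈ g, x y * x a = x a * ∑ z ∈ g, x z := by
        rw [Finset.mul_sum]; apply Finset.sum_congr rfl; intros; ring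
      have e5 : ∑ z ∈ g, x a * x z = x a * ∑ z ∈ g, x z := by rw [Finset.mul_sum]
      rw [e3, e5]; ring
    rw [e1]
    have hcnt : ∑ z ∈ g, x z = ((g.filter (fun y => x y = 1)).card : ℝ) := by
      rw [Finset.card_filter]
      push_cast
      apply Finset.sum_congr rfl
      intro z hz
      rcases hx' z hz with h | h <;> simp [h]
    rcases hx a (Finset.mem_insert_self a g) with h | h
    · have e4 : (insert a g).filter (fun y => x y = 1) = g.filter (fun y => x y = 1) := by
        rw [Finset.filter_insert]; simp [h]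
      rw [e4, h, ih']
      ring
    · have e4 : (insert a g).filter (fun y => x y = 1) = insert a (g.filter (fun y => x y = 1)) := by
        rw [Finset.filter_insert]; simp [h]
      rw [e4, Finset.card_insert_of_notMem (fun h' => ha (Finset.mem_of_mem_filter _ h')),
        Nat.choose_succ_succ, Nat.choose_one_right, h, hcnt]
      push_cast
      rw [ih']
      ring

/-- Upper Bonferroni for a product. -/
lemma prod_one_sub_le (g : Finset V) (q : V → ℝ) (h0 : ∀ y ∈ g, 0 ≤ q y) (h1 : ∀ y ∈ g, q y ≤ 1) :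
    (1 - ∑ y ∈ g, q y ≤ ∏ y ∈ g, (1 - q y)) ∧ (∏ y ∈ g, (1 - q y) ≤ 1) ∧
    (∏ y ∈ g, (1 - q y) ≤ 1 - ∑ y ∈ g, q y + (1 / 2) * ∑ y ∈ g, ∑ z ∈ g.erase y, q y * q z) := by
  classical
  induction g using Finset.induction_on with
  | empty => simp
  | insert a g ha ih =>
    have h0' : ∀ y ∈ g, 0 ≤ q y := fun y hy => h0 y (Finset.mem_insert_of_mem hy)
    have h1' : ∀ y ∈ g, q y ≤ 1 := fun y hy => h1 y (Finset.mem_insert_of_mem hy)
    obtain ⟨i1, i2, i3⟩ := ih h0' h1'
    have ha0 := h0 a (Finset.mem_insert_self a g)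
    have ha1 := h1 a (Finset.mem_insert_self a g)
    have e1 : ∑ y ∈ insert a g, ∑ z ∈ (insert a g).erase y, q y * q z
        = ∑ y ∈ g, ∑ z ∈ g.erase y, q y * q z + 2 * (q a * ∑ z ∈ g, q z) := by
      rw [Finset.sum_insert ha, Finset.erase_insert ha]
      have e2 : ∀ y ∈ g, ∑ z ∈ (insert a g).erase y, q y * q z
          = q y * q a + ∑ z ∈ g.erase y, q y * q z := by
        intro y hy
        have hne : a ≠ y := fun e => ha (e ▸ hy)
        rw [Finset.erase_insert_of_ne hne, Finset.sum_insert]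
        intro h
        exact ha (Finset.mem_of_mem_erase h)
      rw [Finset.sum_congr rfl e2, Finset.sum_add_distrib]
      have e3 : ∑ y ∈ g, q y * q a = q a * ∑ z ∈ g, q z := by
        rw [Finset.mul_sum]; apply Finset.sum_congr rfl; intros; ring
      have e4 : ∑ z ∈ g, q a * q z = q a * ∑ z ∈ g, q z := by rw [Finset.mul_sum]
      rw [e3, e4]; ring
    rw [Finset.prod_insert ha, Finset.sum_insert ha, e1]
    have hsum : 0 ≤ ∑ y ∈ g, q y := Finset.sum_nonneg h0'
    have hP0 : 0 ≤ ∏ y ∈ g, (1 - q y) := Finset.prod_nonneg (fun y hy => by linarith [h1' y hy])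
    set P := ∏ y ∈ g, (1 - q y)
    set E := ∑ y ∈ g, q y
    set F := ∑ y ∈ g, ∑ z ∈ g.erase y, q y * q z
    refine ⟨?_, ?_, ?_⟩
    · nlinarith
    · nlinarith
    · nlinarith

/-- Lower Bonferroni for a family of products is not needed; the pointwise form uses `nat_bonf3`. -/
lemma Ep_mem_prob (p : ℝ) (z : V) : Ep p (fun T : Finset V => if z ∈ T then (1 : ℝ) else 0) = p := by
  have := Ep_mem_mul p z (g := fun _ => (1 : ℝ)) (fun _ => rfl)
  simpa [Ep_const] using this

/-- General triple inequality: `Cov(fh,g) ≤ Cov(f,g)+Cov(h,g)` consequence. -/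
lemma triple_ineq {p : ℝ} (h0 : 0 ≤ p) (h1 : p ≤ 1) {f h g : Finset V → ℝ}
    (hf : Monotone f) (hh : Monotone h) (hg : Monotone g)
    (hf0 : ∀ T, 0 ≤ f T) (hf1 : ∀ T, f T ≤ 1) (hh0 : ∀ T, 0 ≤ h T) (hh1 : ∀ T, h T ≤ 1)
    (_hg0 : ∀ T, 0 ≤ g T) (hg1 : ∀ T, g T ≤ 1) :
    Ep p f * Ep p h * (1 - Ep p g) - Cov p f g - Cov p h g
      ≤ Ep p (fun T => f T * h T * (1 - g T)) := by
  have hmon : Monotone (fun T => f T + h T - f T * h T) := by
    intro S T hST
    have h2 := hf hST
    have h3 := hh hST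
    have a1 := hf0 S; have a2 := hf1 T; have a3 := hh0 S; have a4 := hh1 T
    show f S + h S - f S * h S ≤ f T + h T - f T * h T
    nlinarith [mul_nonneg (sub_nonneg.mpr h2) (sub_nonneg.mpr a4), mul_nonneg (sub_nonneg.mpr h3) (sub_nonneg.mpr (hf1 S))]
  have hc := Cov_nonneg h0 h1 hmon hg
  have hfh : Monotone (fun T => f T * h T) := by
    intro S T hST
    exact mul_le_mul (hf hST) (hh hST) (hh0 S) (hf0 T)
  have h2 := Ep_harris h0 h1 hf hh
  have hEg : Ep p g ≤ 1 := by
    have := Ep_mono h0 h1 (f := g) (g := fun _ => (1 : ℝ)) hg1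
    rwa [Ep_const] at this
  unfold Cov at hc ⊢
  have e1 : Ep p (fun T => (f T + h T - f T * h T) * g T)
      = Ep p (fun T => f T * g T) + Ep p (fun T => h T * g T) - Ep p (fun T => f T * h T * g T) := by
    rw [← Ep_add, ← Ep_sub]; congr 1; funext T; ring
  have e2 : Ep p (fun T => f T + h T - f T * h T) = Ep p f + Ep p h - Ep p (fun T => f T * h T) := by
    rw [Ep_sub, Ep_add]
  have e3 : Ep p (fun T => f T * h T * (1 - g T)) = Ep p (fun T => f T * h T) - Ep p (fun T => f T * h T * g T) := by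
    rw [← Ep_sub]; congr 1; funext T; ring
  rw [e1, e2] at hc
  rw [e3]
  have h4 : Ep p f * Ep p h * (1 - Ep p g) ≤ Ep p (fun T => f T * h T) * (1 - Ep p g) :=
    mul_le_mul_of_nonneg_right h2 (by linarith)
  nlinarith

/-- Perturbation of a covariance. -/
lemma Cov_perturb {p : ℝ} (h0 : 0 ≤ p) (h1 : p ≤ 1) {f g f' g' δf δg : Finset V → ℝ}
    (hf : ∀ T, 0 ≤ f T ∧ f T ≤ 1) (hg : ∀ T, 0 ≤ g T ∧ g T ≤ 1)
    (hf' : ∀ T, 0 ≤ f' T ∧ f' T ≤ 1) (hg' : ∀ T, 0 ≤ g' T ∧ g' T ≤ 1)
    (hdf : ∀ T, |f T - f' T| ≤ δf T) (hdg : ∀ T, |g T - g' T| ≤ δg T) :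
    Cov p f g ≤ Cov p f' g' + 2 * (Ep p δf + Ep p δg) := by
  have hEf : 0 ≤ Ep p g ∧ Ep p g ≤ 1 := by
    constructor
    · exact Ep_nonneg h0 h1 (fun T => (hg T).1)
    · have := Ep_mono h0 h1 (f := g) (g := fun _ => (1 : ℝ)) (fun T => (hg T).2)
      rwa [Ep_const] at this
  have hEf' : 0 ≤ Ep p f' ∧ Ep p f' ≤ 1 := by
    constructor
    · exact Ep_nonneg h0 h1 (fun T => (hf' T).1)
    · have := Ep_mono h0 h1 (f := f') (g := fun _ => (1 : ℝ)) (fun T => (hf' T).2)
      rwa [Ep_const] at this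
  -- E[fg] - E[f'g'] ≤ Eδf + Eδg
  have h2 : Ep p (fun T => f T * g T) ≤ Ep p (fun T => f' T * g' T) + Ep p δf + Ep p δg := by
    rw [← Ep_add, ← Ep_add]
    apply Ep_mono h0 h1
    intro T
    have a1 := abs_le.mp (hdf T)
    have a2 := abs_le.mp (hdg T)
    have b1 := hf T; have b2 := hg T; have b3 := hf' T; have b4 := hg' T
    have e : f T * g T - f' T * g' T = (f T - f' T) * g T + f' T * (g T - g' T) := by ring
    have c1 : (f T - f' T) * g T ≤ δf T := by
      have hδ : 0 ≤ δf T := le_trans (abs_nonneg _) (hdf T)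
      nlinarith [a1.1, a1.2, b2.1, b2.2]
    have c2 : f' T * (g T - g' T) ≤ δg T := by
      have hδ : 0 ≤ δg T := le_trans (abs_nonneg _) (hdg T)
      nlinarith [a2.1, a2.2, b3.1, b3.2]
    linarith
  have h3 : Ep p f' - Ep p f ≤ Ep p δf := by
    rw [← Ep_sub]
    apply Ep_mono h0 h1
    intro T
    have := abs_le.mp (hdf T)
    linarith [this.1]
  have h4 : Ep p g' - Ep p g ≤ Ep p δg := by
    rw [← Ep_sub]
    apply Ep_mono h0 h1
    intro T
    have := abs_le.mp (hdg T)
    linarith [this.1]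
  have hδf0 : 0 ≤ Ep p δf := Ep_nonneg h0 h1 (fun T => le_trans (abs_nonneg _) (hdf T))
  have hδg0 : 0 ≤ Ep p δg := Ep_nonneg h0 h1 (fun T => le_trans (abs_nonneg _) (hdg T))
  unfold Cov
  have e : Ep p f' * Ep p g' - Ep p f * Ep p g = Ep p f' * (Ep p g' - Ep p g) + (Ep p f' - Ep p f) * Ep p g := by ring
  have c1 : Ep p f' * (Ep p g' - Ep p g) ≤ Ep p δg := by nlinarith [hEf'.1, hEf'.2]
  have c2 : (Ep p f' - Ep p f) * Ep p g ≤ Ep p δf := by nlinarith [hEf.1, hEf.2]
  linarith

end Vale.Agent.Lib.P336_h66
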