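/-
P336 (helper66): probabilistic facts behind inequality (B).
For a critical-tree system `T` with root depth `j+1`: asymmetric pivots `Asym`, and lower bounds
for their probability `aa` in terms of worlds with removed labels.
-/
import Vale.Agent.Lib.P336_h66.World

namespace Vale.Agent.Lib.P336_h66

set_option linter.unusedSectionVars false

open Finset

variable {V : Type} [Fintype V] [DecidableEq V] {K : ℕ}

/-- children of the root `x` -/
def CC (T : TS V K) (x : V) : Finset V := T.ch [x]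

/-- closed neighbourhood of the root `x` -/
def NN (T : TS V K) (x : V) : Finset V := insert x (CC T x)

/-- the child `y` of the root `x` has a bad path of length `j` below it -/
def BB (T : TS V K) (j : ℕ) (x y : V) (S : Finset V) : Prop := T.bad S j [y, x]

/-- the root `x` has a bad path of length `j+1` -/
def RB (T : TS V K) (j : ℕ) (x : V) (S : Finset V) : Prop := T.bad S (j + 1) [x]

/-- pivot: `x` is forced at `S`, not forced at `S ∪ {w}` -/
def Piv (T : TS V K) (j : ℕ) (x w : V) (S : Finset V) : Prop :=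
  ¬ RB T j x S ∧ RB T j x (insert w S)

/-- asymmetric pivot pair -/
def Asym (T : TS V K) (j : ℕ) (c u : V) (S : Finset V) : Prop :=
  Piv T j c u S ∧ ¬ Piv T j u c S

/-- probability of an asymmetric pivot at density `p` -/
noncomputable def aa (T : TS V K) (j : ℕ) (p : ℝ) (c u : V) : ℝ :=
  Pr p (fun S => Asym T j c u (S \ {c, u}))

variable (T : TS V K) (j : ℕ)

lemma RB_iff (x : V) (S : Finset V) :
    RB T j x S ↔ ∃ y ∈ CC T x, y ∈ S ∧ BB T j x y S := by
  unfold RB CC BB
  rw [T.bad_succ]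

lemma not_mem_CC (x : V) : x ∉ CC T x := by
  intro h
  exact T.disj [x] x h (List.mem_singleton.mpr rfl)

lemma RB_mono (x : V) {S S' : Finset V} (h : S ⊆ S') : RB T j x S → RB T j x S' :=
  T.bad_mono h _ _

lemma BB_mono (x y : V) {S S' : Finset V} (h : S ⊆ S') : BB T j x y S → BB T j x y S' :=
  T.bad_mono h _ _

lemma BB_ignore_y (x y : V) (S S' : Finset V) (h : ∀ v, v ≠ y → (v ∈ S ↔ v ∈ S')) :
    BB T j x y S ↔ BB T j x y S' :=
  T.bad_ignore j y [x] S S' h

lemma BB_insert_y (x y : V) (S : Finset V) : BB T j x y (insert y S) ↔ BB T j x y S := by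
  apply BB_ignore_y
  intro v hv
  simp [hv]

lemma BB_ignore_x (x y : V) (S S' : Finset V) (h : ∀ v, v ≠ x → (v ∈ S ↔ v ∈ S')) :
    BB T j x y S ↔ BB T j x y S' := by
  apply T.bad_congr
  intro v hv
  apply h
  intro e
  apply hv
  simp [e]

lemma not_RB_of_disj (x : V) {S : Finset V} (h : Disjoint S (CC T x)) : ¬ RB T j x S := by
  rw [RB_iff]
  rintro ⟨y, hy, hyS, _⟩
  exact Finset.disjoint_left.mp h hyS hy

lemma ind_sdiff_mono {Q : Finset V → Prop} (hQ : ∀ S S', S ⊆ S' → Q S → Q S') (D : Finset V) :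
    Monotone (fun S => ind Q (S \ D)) :=
  monotone_comp_sdiff (ind_mono hQ) D

/-- Generic: if on `S` disjoint from `D` the event `Q(S)` implies the target `R(S)`,
then `π_D P^D(Q) ≤ P(R)`. -/
lemma Pr_ge_world {p : ℝ} (h0 : 0 ≤ p) (h1 : p ≤ 1) (D : Finset V) {Q R : Finset V → Prop}
    (h : ∀ S, Disjoint S D → Q S → R S) : (1 - p) ^ D.card * PrW p D Q ≤ Pr p R := by
  have e := Ep_disj_mul p D (ind Q)
  unfold PrW
  rw [← e]
  unfold Pr
  apply Ep_mono h0 h1
  intro S
  by_cases hS : Disjoint S D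
  · simp only [hS, if_true, one_mul]
    by_cases hQ : Q S
    · rw [ind_apply_of hQ, ind_apply_of (h S hS hQ)]
    · rw [ind_apply_not hQ]; exact ind_nonneg _ _
  · simp only [hS, if_false, zero_mul]; exact ind_nonneg _ _

/-- The world probability of a conjunction of monotone events dominates the product. -/
lemma PrW_and_ge {p : ℝ} (h0 : 0 ≤ p) (h1 : p ≤ 1) (D : Finset V) {Q Q' : Finset V → Prop}
    (hQ : ∀ S S', S ⊆ S' → Q S → Q S') (hQ' : ∀ S S', S ⊆ S' → Q' S → Q' S') :
    PrW p D Q * PrW p D Q' ≤ PrW p D (fun S => Q S ∧ Q' S) := by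
  have := Ep_harris h0 h1 (ind_sdiff_mono hQ D) (ind_sdiff_mono hQ' D)
  have e : (fun S => ind Q (S \ D) * ind Q' (S \ D)) = fun S => ind (fun S => Q S ∧ Q' S) (S \ D) := by
    funext S
    by_cases a : Q (S \ D) <;> by_cases b : Q' (S \ D) <;>
      simp [ind, a, b]
  rw [e] at this
  exact this

/-- `c, u ∉ S` when `S` is disjoint from a set containing `c` and `u`. -/
lemma sdiff_pair_of_disj {S D : Finset V} {c u : V} (hS : Disjoint S D) (hc : c ∈ D) (hu : u ∈ D) :
    S \ {c, u} = S := by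
  apply Finset.sdiff_eq_self_of_disjoint
  rw [Finset.disjoint_left]
  intro a ha hb
  simp only [Finset.mem_insert, Finset.mem_singleton] at hb
  rcases hb with rfl | rfl
  · exact Finset.disjoint_left.mp hS ha hc
  · exact Finset.disjoint_left.mp hS ha hu

lemma mem_NN_self (x : V) : x ∈ NN T x := Finset.mem_insert_self _ _

lemma mem_NN_of_mem {x y : V} (h : y ∈ CC T x) : y ∈ NN T x := Finset.mem_insert_of_mem h

lemma CC_subset_NN (x : V) : CC T x ⊆ NN T x := Finset.subset_insert _ _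

lemma disj_CC_of_disj_NN {S : Finset V} {x : V} (h : Disjoint S (NN T x)) : Disjoint S (CC T x) :=
  Finset.disjoint_of_subset_right (CC_subset_NN T x) h

/-- A pivot at `S` when `S` misses the children of `c` and `BB c u` holds. -/
lemma Piv_of_disj {c u : V} {S : Finset V} (hu : u ∈ CC T c) (hS : Disjoint S (CC T c))
    (hb : BB T j c u S) : Piv T j c u S := by
  refine ⟨not_RB_of_disj T j c hS, ?_⟩
  rw [RB_iff]
  exact ⟨u, hu, Finset.mem_insert_self _ _, BB_mono T j c u (Finset.subset_insert _ _) hb⟩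

/-- (P1) `a_{cu} ≥ π_{N_c} P^{N_c}(B^c_u) P^{N_c}(root u bad)`. -/
lemma aa_ge_P1 {p : ℝ} (h0 : 0 ≤ p) (h1 : p ≤ 1) {c u : V} (hu : u ∈ CC T c) :
    (1 - p) ^ (NN T c).card * (PrW p (NN T c) (BB T j c u) * PrW p (NN T c) (RB T j u))
      ≤ aa T j p c u := by
  have hπ : 0 ≤ (1 - p) ^ (NN T c).card := pow_nonneg (by linarith) _
  have h2 := PrW_and_ge h0 h1 (NN T c) (Q := BB T j c u) (Q' := RB T j u)
    (fun S S' h => BB_mono T j c u h) (fun S S' h => RB_mono T j u h)
  refine le_trans (mul_le_mul_of_nonneg_left h2 hπ) ?_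
  unfold aa
  apply Pr_ge_world h0 h1
  intro S hS hQ
  rw [sdiff_pair_of_disj hS (mem_NN_self T c) (mem_NN_of_mem T hu)]
  refine ⟨Piv_of_disj T j hu (disj_CC_of_disj_NN T hS) hQ.1, ?_⟩
  intro hP
  exact hP.1 hQ.2

/-- (P2) if `c ∉ C_u`, then `a_{cu} ≥ π P^{N_c ∪ C_u}(B^c_u)`. -/
lemma aa_ge_P2 {p : ℝ} (h0 : 0 ≤ p) (h1 : p ≤ 1) {c u : V} (hu : u ∈ CC T c) (hc : c ∉ CC T u) :
    (1 - p) ^ (NN T c ∪ CC T u).card * PrW p (NN T c ∪ CC T u) (BB T j c u) ≤ aa T j p c u := by
  unfold aa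
  apply Pr_ge_world h0 h1
  intro S hS hQ
  have hS1 : Disjoint S (NN T c) := Finset.disjoint_of_subset_right Finset.subset_union_left hS
  have hS2 : Disjoint S (CC T u) := Finset.disjoint_of_subset_right Finset.subset_union_right hS
  rw [sdiff_pair_of_disj hS (Finset.mem_union_left _ (mem_NN_self T c))
    (Finset.mem_union_left _ (mem_NN_of_mem T hu))]
  refine ⟨Piv_of_disj T j hu (disj_CC_of_disj_NN T hS1) hQ, ?_⟩
  intro hP
  have := hP.2
  rw [RB_iff] at this
  obtain ⟨y, hy, hyS, _⟩ := this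
  rcases Finset.mem_insert.mp hyS with rfl | hyS'
  · exact hc hy
  · exact Finset.disjoint_left.mp hS2 hyS' hy

/-- Symmetry defect: on a world containing `N_u ∪ N_y`, `B^u_y ∖ B^y_u` forces an asymmetric pivot. -/
lemma aa_ge_sym {p : ℝ} (h0 : 0 ≤ p) (h1 : p ≤ 1) {u y : V} (hy : y ∈ CC T u) (D : Finset V)
    (hD1 : NN T u ⊆ D) (hD2 : CC T y ⊆ D) :
    (1 - p) ^ D.card * PrW p D (fun S => BB T j u y S ∧ ¬ BB T j y u S) ≤ aa T j p u y := by
  unfold aa
  apply Pr_ge_world h0 h1
  intro S hS hQ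
  have hS1 : Disjoint S (NN T u) := Finset.disjoint_of_subset_right hD1 hS
  have hS2 : Disjoint S (CC T y) := Finset.disjoint_of_subset_right hD2 hS
  rw [sdiff_pair_of_disj hS (hD1 (mem_NN_self T u)) (hD1 (mem_NN_of_mem T hy))]
  refine ⟨Piv_of_disj T j hy (disj_CC_of_disj_NN T hS1) hQ.1, ?_⟩
  intro hP
  have := hP.2
  rw [RB_iff] at this
  obtain ⟨z, hz, hzS, hb⟩ := this
  rcases Finset.mem_insert.mp hzS with rfl | hzS'
  · exact hQ.2 ((BB_insert_y T j y z S).mp hb)
  · exact Finset.disjoint_left.mp hS2 hzS' hz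

/-- Pivot probability lower bound. -/
lemma Pr_Piv_ge {p : ℝ} (h0 : 0 ≤ p) (h1 : p ≤ 1) {c u : V} (hu : u ∈ CC T c) :
    (1 - p) ^ (NN T c).card * PrW p (NN T c) (BB T j c u)
      ≤ Pr p (fun S => Piv T j c u (S \ {c, u})) := by
  apply Pr_ge_world h0 h1
  intro S hS hQ
  rw [sdiff_pair_of_disj hS (mem_NN_self T c) (mem_NN_of_mem T hu)]
  exact Piv_of_disj T j hu (disj_CC_of_disj_NN T hS) hQ

/-- Union-type bound for `ind`: `ind (P ∧ ¬ Q) ≥ ind P - ind Q`. -/
lemma aa_ge_piv_sub {p : ℝ} (h0 : 0 ≤ p) (h1 : p ≤ 1) (c u : V) :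
    Pr p (fun S => Piv T j c u (S \ {c, u})) - Pr p (fun S => Piv T j u c (S \ {c, u}))
      ≤ aa T j p c u := by
  unfold Pr aa
  unfold Pr
  rw [← Ep_sub]
  apply Ep_mono h0 h1
  intro S
  have hP := ind_nonneg (fun S => Asym T j c u (S \ {c, u})) S
  have hA1 := ind_le_one (fun S => Piv T j c u (S \ {c, u})) S
  have hA0 := ind_nonneg (fun S => Piv T j u c (S \ {c, u})) S
  by_cases a : Piv T j c u (S \ {c, u})
  · by_cases b : Piv T j u c (S \ {c, u})
    · have e1 : ind (fun S => Piv T j u c (S \ {c, u})) S = 1 :=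
        ind_apply_of (P := fun S => Piv T j u c (S \ {c, u})) b
      linarith
    · have e1 : ind (fun S => Asym T j c u (S \ {c, u})) S = 1 :=
        ind_apply_of (P := fun S => Asym T j c u (S \ {c, u})) (show Asym T j c u (S \ {c, u}) from ⟨a, b⟩)
      linarith
  · have e1 : ind (fun S => Piv T j c u (S \ {c, u})) S = 0 :=
      ind_apply_not (P := fun S => Piv T j c u (S \ {c, u})) a
    linarith

/-- A pivot `c` of the root `u` is reachable. -/
lemma Piv_mem_gam {u c : V} {S : Finset V} (h : Piv T j u c S) : c ∈ T.gam S (j + 1) [u] :=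
  T.pivot_mem_gam _ _ h.2 h.1

/-- The sum over `c` of `P(Piv u c)` is at most the first moment of `gam`. -/
lemma sum_Pr_Piv_le {p : ℝ} (h0 : 0 ≤ p) (h1 : p ≤ 1) (u : V) (I : Finset V) :
    ∑ c ∈ I, Pr p (fun S => Piv T j u c (S \ {c, u}))
      ≤ Ep p (fun S => ((T.gam S (j + 1) [u]).card : ℝ)) := by
  have h2 : ∀ S : Finset V, ∑ c ∈ I, ind (fun S => Piv T j u c (S \ {c, u})) S
      ≤ ((T.gam S (j + 1) [u]).card : ℝ) := by
    intro S
    have h3 : ∀ c ∈ I, ind (fun S => Piv T j u c (S \ {c, u})) S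
        ≤ (if c ∈ T.gam S (j + 1) [u] then (1 : ℝ) else 0) := by
      intro c _
      by_cases hp : Piv T j u c (S \ {c, u})
      · have h4 : c ∈ T.gam (S \ {c, u}) (j + 1) [u] := Piv_mem_gam T j hp
        have h5 : c ∈ T.gam S (j + 1) [u] :=
          T.gam_mono (Finset.sdiff_subset) _ _ h4
        rw [ind_apply_of (P := fun S => Piv T j u c (S \ {c, u})) hp]
        simp [h5]
      · rw [ind_apply_not (P := fun S => Piv T j u c (S \ {c, u})) hp]
        split_ifs <;> norm_num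
    have h6 := Finset.sum_le_sum h3
    refine le_trans h6 ?_
    rw [Finset.sum_boole]
    have : (I.filter (fun c => c ∈ T.gam S (j + 1) [u])) ⊆ T.gam S (j + 1) [u] :=
      fun a ha => (Finset.mem_filter.mp ha).2
    exact_mod_cast Finset.card_le_card this
  have h7 := Ep_mono h0 h1 h2
  rw [Ep_sum] at h7
  exact h7

end Vale.Agent.Lib.P336_h66
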