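/-
P336 (helper66): probabilistic facts behind inequality (B), part 2:
transitivity lower bound, union bound in worlds.
-/
import Vale.Agent.Lib.P336_h66.BFacts

namespace Vale.Agent.Lib.P336_h66

set_option linter.unusedSectionVars false

open Finset

variable {V : Type} [Fintype V] [DecidableEq V] {K : ℕ}

/-- Exactly the label `y` of `D` is present, and `Q` holds in the world. -/
lemma Pr_singleton_world (p : ℝ) {D : Finset V} {y : V} (hy : y ∈ D) (Q : Finset V → Prop) :
    Pr p (fun S => y ∈ S ∧ Disjoint S (D.erase y) ∧ Q (S \ D))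
      = p * (1 - p) ^ (D.card - 1) * PrW p D Q := by
  classical
  set g : Finset V → ℝ := fun S => (if Disjoint S (D.erase y) then (1 : ℝ) else 0) * ind Q (S \ D) with hg
  have e1 : ind (fun S => y ∈ S ∧ Disjoint S (D.erase y) ∧ Q (S \ D))
      = fun S => (if y ∈ S then (1 : ℝ) else 0) * g S := by
    funext S
    by_cases a : y ∈ S
    · by_cases b : Disjoint S (D.erase y)
      · by_cases c : Q (S \ D)
        · rw [ind_apply_of (P := fun S => y ∈ S ∧ Disjoint S (D.erase y) ∧ Q (S \ D)) ⟨a, b, c⟩]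
          simp only [hg, a, b, if_true, one_mul]
          rw [ind_apply_of c]
        · rw [ind_apply_not (P := fun S => y ∈ S ∧ Disjoint S (D.erase y) ∧ Q (S \ D)) (fun h => c h.2.2)]
          simp only [hg, a, b, if_true, one_mul]
          rw [ind_apply_not c]
      · rw [ind_apply_not (P := fun S => y ∈ S ∧ Disjoint S (D.erase y) ∧ Q (S \ D)) (fun h => b h.2.1)]
        simp [hg, b]
    · rw [ind_apply_not (P := fun S => y ∈ S ∧ Disjoint S (D.erase y) ∧ Q (S \ D)) (fun h => a h.1)]
      simp [a]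
  have hyD' : y ∉ D.erase y := by simp
  have hg_ign : ∀ T, g (insert y T) = g (T.erase y) := by
    intro T
    have e2 : Disjoint (insert y T) (D.erase y) ↔ Disjoint (T.erase y) (D.erase y) := by
      rw [Finset.disjoint_insert_left]
      constructor
      · rintro ⟨_, h⟩
        exact Finset.disjoint_of_subset_left (Finset.erase_subset _ _) h
      · intro h
        refine ⟨hyD', ?_⟩
        rw [Finset.disjoint_left] at h ⊢
        intro a ha hb
        have hay : a ≠ y := Finset.ne_of_mem_erase hb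
        exact h (Finset.mem_erase.mpr ⟨hay, ha⟩) hb
    have e3 : (insert y T) \ D = (T.erase y) \ D := by
      ext a
      simp only [Finset.mem_sdiff, Finset.mem_insert, Finset.mem_erase]
      constructor
      · rintro ⟨h | h, h2⟩
        · exact absurd (h ▸ hy) h2
        · exact ⟨⟨fun e => h2 (e ▸ hy), h⟩, h2⟩
      · rintro ⟨⟨_, h⟩, h2⟩
        exact ⟨Or.inr h, h2⟩
    simp only [hg, e2, e3]
  unfold Pr
  rw [e1, Ep_mem_mul p y hg_ign]
  have e4 : Ep p g = (1 - p) ^ (D.erase y).card * EW p (D.erase y) (fun S => ind Q (S \ D)) :=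
    Ep_disj_mul p (D.erase y) (fun S => ind Q (S \ D))
  have e5 : EW p (D.erase y) (fun S => ind Q (S \ D)) = PrW p D Q := by
    show Ep p (fun S => ind Q ((S \ D.erase y) \ D)) = Ep p (fun S => ind Q (S \ D))
    have h : ∀ S : Finset V, (S \ D.erase y) \ D = S \ D := by
      intro S
      ext a
      simp only [Finset.mem_sdiff, Finset.mem_erase, not_and]
      constructor
      · rintro ⟨⟨h1, _⟩, h3⟩; exact ⟨h1, h3⟩
      · rintro ⟨h1, h3⟩; exact ⟨⟨h1, fun _ h => absurd h h3⟩, h3⟩
    simp only [h]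
  rw [e4, e5, Finset.card_erase_of_mem hy]
  ring

variable (T : TS V K) (j : ℕ)

/-- Event used in the transitivity lower bound. -/
def TriQ (c u y : V) (S : Finset V) : Prop :=
  BB T j c u S ∧ BB T j u y S ∧ ¬ BB T j c y S

/-- (T-a) Transitivity lower bound for `a_{cu}`. -/
lemma aa_ge_triples {p : ℝ} (h0 : 0 ≤ p) (h1 : p ≤ 1) {c u : V} (hu : u ∈ CC T c)
    (Y : Finset V) (hY : ∀ y ∈ Y, y ∈ CC T c ∧ y ≠ u ∧ y ∈ CC T u)
    (D : V → Finset V) (hD : ∀ y ∈ Y, NN T c ⊆ D y) :
    ∑ y ∈ Y, p * (1 - p) ^ ((D y).card - 1) * PrW p (D y) (TriQ T j c u y) ≤ aa T j p c u := by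
  classical
  -- event for each y
  set E : V → Finset V → Prop := fun y S => y ∈ S ∧ Disjoint S ((D y).erase y) ∧ TriQ T j c u y (S \ D y)
    with hE
  have e1 : ∀ y ∈ Y, p * (1 - p) ^ ((D y).card - 1) * PrW p (D y) (TriQ T j c u y) = Pr p (E y) := by
    intro y hy
    have hyc := (hY y hy).1
    have hyD : y ∈ D y := hD y hy (mem_NN_of_mem T hyc)
    rw [Pr_singleton_world p hyD]
  rw [Finset.sum_congr rfl e1]
  unfold Pr aa Pr
  rw [← Ep_sum]
  apply Ep_mono h0 h1
  intro S
  by_cases hex : ∃ y ∈ Y, E y S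
  · obtain ⟨y, hy, hyS, hdis, hQ⟩ := hex
    obtain ⟨hyc, hyu, hyCu⟩ := hY y hy
    have hN := hD y hy
    have hcD : c ∈ D y := hN (mem_NN_self T c)
    have huD : u ∈ D y := hN (mem_NN_of_mem T hu)
    have hyne_c : y ≠ c := fun e => not_mem_CC T c (e ▸ hyc)
    have hmemD : ∀ z ∈ S, z ∈ D y → z = y := by
      intro z hzS hzD
      by_contra hne
      exact Finset.disjoint_left.mp hdis hzS (Finset.mem_erase.mpr ⟨hne, hzD⟩)
    have hcS : c ∉ S := fun h => hyne_c (hmemD c h hcD).symm
    have huS : u ∉ S := fun h => hyu (hmemD u h huD).symm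
    have hS' : S \ {c, u} = S := by
      apply Finset.sdiff_eq_self_of_disjoint
      rw [Finset.disjoint_left]
      intro a ha hb
      simp only [Finset.mem_insert, Finset.mem_singleton] at hb
      rcases hb with rfl | rfl
      · exact hcS ha
      · exact huS ha
    have hagree : ∀ v, v ≠ y → (v ∈ S ↔ v ∈ S \ D y) := by
      intro v hv
      constructor
      · intro hvS
        refine Finset.mem_sdiff.mpr ⟨hvS, fun hvD => hv (hmemD v hvS hvD)⟩
      · intro hvS; exact (Finset.mem_sdiff.mp hvS).1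
    have hsub : S \ D y ⊆ S := Finset.sdiff_subset
    obtain ⟨hQ1, hQ2, hQ3⟩ := hQ
    -- the asymmetric pivot
    have hA : Asym T j c u (S \ {c, u}) := by
      rw [hS']
      refine ⟨⟨?_, ?_⟩, ?_⟩
      · rw [RB_iff]
        rintro ⟨y', hy', hy'S, hb⟩
        have : y' = y := hmemD y' hy'S (hN (mem_NN_of_mem T hy'))
        subst this
        exact hQ3 ((BB_ignore_y T j c y' S (S \ D y') hagree).mp hb)
      · rw [RB_iff]
        exact ⟨u, hu, Finset.mem_insert_self _ _,
          BB_mono T j c u (hsub.trans (Finset.subset_insert _ _)) hQ1⟩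
      · rintro ⟨h3, _⟩
        apply h3
        rw [RB_iff]
        exact ⟨y, hyCu, hyS, BB_mono T j u y hsub hQ2⟩
    rw [ind_apply_of (P := fun S => Asym T j c u (S \ {c, u})) hA]
    -- the sum is at most one
    have hsum : ∑ y' ∈ Y, ind (E y') S ≤ 1 := by
      have hz : ∀ y' ∈ Y, y' ≠ y → ind (E y') S = 0 := by
        intro y' hy' hne
        apply ind_apply_not
        rintro ⟨h1', _, _⟩
        exact hne (hmemD y' h1' (hN (mem_NN_of_mem T (hY y' hy').1)))
      rw [Finset.sum_eq_single_of_mem y hy hz]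
      exact ind_le_one _ _
    exact hsum
  · push Not at hex
    have hz : ∀ y ∈ Y, ind (E y) S = 0 := fun y hy => ind_apply_not (hex y hy)
    rw [Finset.sum_eq_zero hz]
    exact ind_nonneg (fun S => Asym T j c u (S \ {c, u})) S

/-- (P3 core) Second-order union bound inside a world. -/
lemma PrW_RB_ge {p : ℝ} (h0 : 0 ≤ p) (h1 : p ≤ 1) (u : V) (D D' : Finset V)
    (hD' : D' ⊆ CC T u) (hdis : Disjoint D' D) :
    p * ∑ z ∈ D', PrW p D (BB T j u z) - (D'.card.choose 2 : ℝ) * p ^ 2 ≤ PrW p D (RB T j u) := by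
  classical
  have hpt : ∀ S : Finset V,
      (∑ z ∈ D', (if z ∈ S then (1 : ℝ) else 0) * ind (BB T j u z) (S \ D))
        - ((S ∩ D').card.choose 2 : ℝ) ≤ ind (RB T j u) (S \ D) := by
    intro S
    set x : V → ℝ := fun z => (if z ∈ S then (1 : ℝ) else 0) * ind (BB T j u z) (S \ D) with hx
    have hx01 : ∀ z, x z = 0 ∨ x z = 1 := by
      intro z
      by_cases a : z ∈ S
      · by_cases b : BB T j u z (S \ D)
        · right; simp only [hx, a, if_true, one_mul]; exact ind_apply_of b
        · left; simp only [hx, a, if_true, one_mul]; exact ind_apply_not b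
      · left; simp [hx, a]
    set F := D'.filter (fun z => x z = 1) with hF
    have hZ : ∑ z ∈ D', x z = (F.card : ℝ) := by
      rw [hF, Finset.card_filter]
      push_cast
      apply Finset.sum_congr rfl
      intro z _
      rcases hx01 z with h | h <;> simp [h]
    rw [hZ]
    have hsubF : F ⊆ S ∩ D' := by
      intro z hz
      obtain ⟨hz1, hz2⟩ := Finset.mem_filter.mp hz
      refine Finset.mem_inter.mpr ⟨?_, hz1⟩
      by_contra hzS
      simp [hx, hzS] at hz2
    have hch : (F.card.choose 2 : ℝ) ≤ ((S ∩ D').card.choose 2 : ℝ) := by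
      exact_mod_cast Nat.choose_le_choose 2 (Finset.card_le_card hsubF)
    have hn := nat_union_bound F.card
    by_cases hF0 : F.card = 0
    · rw [hF0]
      have h3 : (0 : ℝ) ≤ ((S ∩ D').card.choose 2 : ℝ) := Nat.cast_nonneg _
      have h4 := ind_nonneg (RB T j u) (S \ D)
      push_cast
      linarith
    · rw [if_neg hF0] at hn
      obtain ⟨z, hz⟩ := Finset.card_pos.mp (Nat.pos_of_ne_zero hF0)
      obtain ⟨hz1, hz2⟩ := Finset.mem_filter.mp hz
      have hzS : z ∈ S := by
        by_contra hzS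
        simp [hx, hzS] at hz2
      have hzB : BB T j u z (S \ D) := by
        by_contra hzB
        simp only [hx, hzS, if_true, one_mul] at hz2
        rw [ind_apply_not hzB] at hz2
        norm_num at hz2
      have hzD : z ∉ D := Finset.disjoint_left.mp hdis hz1
      have hRB : RB T j u (S \ D) := by
        rw [RB_iff]
        exact ⟨z, hD' hz1, Finset.mem_sdiff.mpr ⟨hzS, hzD⟩, hzB⟩
      rw [ind_apply_of hRB]
      linarith
  have h2 := Ep_mono h0 h1 hpt
  rw [Ep_sub, Ep_sum, Ep_choose] at h2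
  have h3 : ∀ z ∈ D', Ep p (fun S => (if z ∈ S then (1 : ℝ) else 0) * ind (BB T j u z) (S \ D))
      = p * PrW p D (BB T j u z) := by
    intro z hz
    unfold PrW EW
    apply Ep_mem_mul
    intro S
    have : BB T j u z ((insert z S) \ D) ↔ BB T j u z ((S.erase z) \ D) := by
      apply BB_ignore_y
      intro v hv
      simp [hv]
    by_cases hb : BB T j u z ((insert z S) \ D)
    · rw [ind_apply_of hb, ind_apply_of (this.mp hb)]
    · rw [ind_apply_not hb, ind_apply_not (fun h => hb (this.mpr h))]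
  rw [Finset.sum_congr rfl h3, ← Finset.mul_sum] at h2
  exact h2

end Vale.Agent.Lib.P336_h66
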