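/-
P336 (helper66): near-tightness of a tree at density `p`: the excess of the root probability over
its Harris bound controls the missing mass `dd` and the sibling covariance `vv`.
-/
import Vale.Agent.Lib.P336_h66.BFacts2

namespace Vale.Agent.Lib.P336_h66

set_option linter.unusedSectionVars false

open Finset

variable {V : Type} [Fintype V] [DecidableEq V] {K : ℕ}

variable (T : TS V K) (j : ℕ)

/-- probability of the child event -/
noncomputable def PB (p : ℝ) (x y : V) : ℝ := Pr p (BB T j x y)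

/-- the child `y` is present and has a bad path -/
def AA (x y : V) (S : Finset V) : Prop := y ∈ S ∧ BB T j x y S

/-- sibling covariance -/
noncomputable def Cv (p : ℝ) (x y z : V) : ℝ := Cov p (ind (BB T j x y)) (ind (BB T j x z))

lemma Pr_AA (p : ℝ) (x y : V) : Pr p (AA T j x y) = p * PB T j p x y :=
  Pr_mem_and p y (fun S S' h => BB_ignore_y T j x y S S' h)

lemma AA_mono (x y : V) (S S' : Finset V) (h : S ⊆ S') (hA : AA T j x y S) : AA T j x y S' :=
  ⟨h hA.1, BB_mono T j x y h hA.2⟩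

lemma PB_le {p : ℝ} (h0 : 0 ≤ p) (h1 : p ≤ 1) (x y : V) : PB T j p x y ≤ betaSeq p K j :=
  T.Pr_bad_le h0 h1 j _

lemma PB_nonneg {p : ℝ} (h0 : 0 ≤ p) (h1 : p ≤ 1) (x y : V) : 0 ≤ PB T j p x y :=
  Pr_nonneg h0 h1 _

lemma not_RB_iff (x : V) (S : Finset V) : ¬ RB T j x S ↔ ∀ y ∈ CC T x, ¬ AA T j x y S := by
  rw [RB_iff]
  unfold AA
  push Not
  rfl

/-- Harris bound for the root. -/
lemma w_ge_prod {p : ℝ} (h0 : 0 ≤ p) (h1 : p ≤ 1) (x : V) :
    ∏ y ∈ CC T x, (1 - p * PB T j p x y) ≤ Pr p (fun S => ¬ RB T j x S) := by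
  have h2 := Pr_none_ge h0 h1 (CC T x) (AA T j x) (fun y _ S S' h hA => AA_mono T j x y S S' h hA)
  have e : (fun S => ¬ RB T j x S) = fun S => ∀ y ∈ CC T x, ¬ AA T j x y S := by
    funext S
    exact propext (not_RB_iff T j x S)
  rw [e]
  refine le_trans (le_of_eq ?_) h2
  apply Finset.prod_congr rfl
  intro y _
  rw [Pr_AA]

lemma one_add_sum_le_prod' {ι : Type} (s : Finset ι) (t : ι → ℝ) (ht : ∀ i ∈ s, 0 ≤ t i) :
    1 + ∑ i ∈ s, t i ≤ ∏ i ∈ s, (1 + t i) := by
  classical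
  induction s using Finset.induction_on with
  | empty => simp
  | insert a s ha ih =>
    rw [Finset.sum_insert ha, Finset.prod_insert ha]
    have h1 := ih (fun i hi => ht i (Finset.mem_insert_of_mem hi))
    have h2 := ht a (Finset.mem_insert_self a s)
    have h3 : 0 ≤ ∑ i ∈ s, t i := Finset.sum_nonneg (fun i hi => ht i (Finset.mem_insert_of_mem hi))
    nlinarith

/-- Missing mass at the root `x`. -/
noncomputable def dd (p β : ℝ) (x : V) : ℝ :=
  (1 / (K : ℝ)) * (∑ y ∈ CC T x, (β - PB T j p x y) + ((K : ℝ) - (CC T x).card) * β)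

lemma card_CC_le (x : V) : (CC T x).card ≤ K := T.card_le _

/-- Product bound: `Π(1 - p P_y) ≥ q^K (1 + p K dd)` with `q = 1 - pβ`. -/
lemma prod_ge_dd {p : ℝ} (h0 : 0 ≤ p) (h1 : p ≤ 1) (hK : 0 < K) (x : V) :
    (1 - p * betaSeq p K j) ^ K * (1 + p * K * dd T j p (betaSeq p K j) x)
      ≤ ∏ y ∈ CC T x, (1 - p * PB T j p x y) := by
  set β := betaSeq p K j with hβ
  have hm := betaSeq_mem h0 h1 K j
  rw [← hβ] at hm
  set q := 1 - p * β with hq
  have hu0 : 0 ≤ p * β := mul_nonneg h0 hm.1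
  have hu1 : p * β ≤ 1 := by nlinarith [hm.1, hm.2]
  have hq0 : 0 ≤ q := by linarith
  have hq1 : q ≤ 1 := by linarith
  have hKpos : (0 : ℝ) < K := by exact_mod_cast hK
  set m := K - (CC T x).card with hm'
  have hcard : (CC T x).card + m = K := by
    have := card_CC_le T x; omega
  have hmc : ((K : ℝ) - (CC T x).card) = m := by
    have : ((CC T x).card : ℝ) + m = K := by exact_mod_cast hcard
    linarith
  -- Bernoulli
  have hB : q ^ m * (1 + m * (p * β)) ≤ 1 := by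
    have h2 : 1 + (m : ℝ) * (p * β) ≤ (1 + p * β) ^ m := by
      have := one_add_mul_le_pow (a := p * β) (by linarith) m
      linarith
    have h3 : q ^ m * (1 + p * β) ^ m ≤ 1 := by
      rw [← mul_pow]
      apply pow_le_one₀
      · apply mul_nonneg hq0; linarith
      · rw [hq]; nlinarith
    have h4 : q ^ m * (1 + m * (p * β)) ≤ q ^ m * (1 + p * β) ^ m :=
      mul_le_mul_of_nonneg_left h2 (pow_nonneg hq0 _)
    linarith
  -- termwise
  set t : V → ℝ := fun y => p * (β - PB T j p x y) with ht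
  have ht0 : ∀ y ∈ CC T x, 0 ≤ t y := by
    intro y _
    apply mul_nonneg h0
    have := PB_le T j h0 h1 x y
    linarith
  have hterm : ∀ y ∈ CC T x, q * (1 + t y) ≤ 1 - p * PB T j p x y := by
    intro y hy
    have h3 := ht0 y hy
    have e : 1 - p * PB T j p x y = q + t y := by
      simp only [ht, hq]; ring
    rw [e]
    nlinarith
  have hP : q ^ (CC T x).card * (1 + ∑ y ∈ CC T x, t y) ≤ ∏ y ∈ CC T x, (1 - p * PB T j p x y) := by
    have h4 : ∏ y ∈ CC T x, (q * (1 + t y)) ≤ ∏ y ∈ CC T x, (1 - p * PB T j p x y) := by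
      apply Finset.prod_le_prod
      · intro y hy
        exact mul_nonneg hq0 (by linarith [ht0 y hy])
      · exact hterm
    rw [Finset.prod_mul_distrib, Finset.prod_const] at h4
    refine le_trans ?_ h4
    apply mul_le_mul_of_nonneg_left _ (pow_nonneg hq0 _)
    exact one_add_sum_le_prod' _ _ ht0
  refine le_trans ?_ hP
  have hsumt : 0 ≤ ∑ y ∈ CC T x, t y := Finset.sum_nonneg ht0
  have e2 : p * K * dd T j p β x = ∑ y ∈ CC T x, t y + m * (p * β) := by
    unfold dd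
    rw [hmc]
    have : ∑ y ∈ CC T x, t y = p * ∑ y ∈ CC T x, (β - PB T j p x y) := by
      rw [Finset.mul_sum]
    rw [this]
    field_simp
  rw [e2]
  have hqK : q ^ K = q ^ (CC T x).card * q ^ m := by
    rw [← pow_add, hcard]
  rw [hqK]
  have hq' : 0 ≤ q ^ (CC T x).card := pow_nonneg hq0 _
  have hqm : 0 ≤ q ^ m := pow_nonneg hq0 _
  have hmu : 0 ≤ (m : ℝ) * (p * β) := by positivity
  have : q ^ m * (1 + (∑ y ∈ CC T x, t y + m * (p * β))) ≤ 1 + ∑ y ∈ CC T x, t y := by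
    have h6 : q ^ m * (∑ y ∈ CC T x, t y) ≤ ∑ y ∈ CC T x, t y := by
      have : q ^ m ≤ 1 := pow_le_one₀ hq0 hq1
      nlinarith
    nlinarith
  calc q ^ (CC T x).card * q ^ m * (1 + (∑ y ∈ CC T x, t y + m * (p * β)))
      = q ^ (CC T x).card * (q ^ m * (1 + (∑ y ∈ CC T x, t y + m * (p * β)))) := by ring
    _ ≤ q ^ (CC T x).card * (1 + ∑ y ∈ CC T x, t y) := mul_le_mul_of_nonneg_left this hq'

/-- Excess of the root over the Harris value bounds the missing mass. -/
lemma excess_ge_dd {p : ℝ} (h0 : 0 ≤ p) (h1 : p ≤ 1) (hK : 0 < K) (x : V) :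
    (1 - p * betaSeq p K j) ^ K * (p * K * dd T j p (betaSeq p K j) x)
      ≤ Pr p (fun S => ¬ RB T j x S) - (1 - p * betaSeq p K j) ^ K := by
  have h2 := prod_ge_dd T j h0 h1 hK x
  have h3 := w_ge_prod T j h0 h1 x
  have : (1 - p * betaSeq p K j) ^ K * (1 + p * K * dd T j p (betaSeq p K j) x)
      = (1 - p * betaSeq p K j) ^ K + (1 - p * betaSeq p K j) ^ K * (p * K * dd T j p (betaSeq p K j) x) := by
    ring
  linarith

/-- L-d: covariance of the events `AA` dominates `p²` times the sibling covariance. -/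
lemma AA_pair_ge {p : ℝ} (h0 : 0 ≤ p) (h1 : p ≤ 1) (x : V) {y z : V} (hyz : y ≠ z) :
    p * PB T j p x y * (p * PB T j p x z) + p ^ 2 * Cv T j p x y z
      ≤ Ep p (fun S => ind (AA T j x y) S * ind (AA T j x z) S) := by
  have hmy : Monotone (fun S : Finset V => (if y ∈ S then (1 : ℝ) else 0)) := by
    intro S S' h
    by_cases a : y ∈ S
    · simp [a, h a]
    · simp only [a, if_false]; split_ifs <;> norm_num
  have hmz : Monotone (fun S : Finset V => (if z ∈ S then (1 : ℝ) else 0)) := by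
    intro S S' h
    by_cases a : z ∈ S
    · simp [a, h a]
    · simp only [a, if_false]; split_ifs <;> norm_num
  have hl : Monotone (fun S : Finset V => (if y ∈ S then (1 : ℝ) else 0) * (if z ∈ S then (1 : ℝ) else 0)) := by
    intro S S' h
    apply mul_le_mul (hmy h) (hmz h)
    · show (0 : ℝ) ≤ if z ∈ S then 1 else 0
      split_ifs <;> norm_num
    · show (0 : ℝ) ≤ if y ∈ S' then 1 else 0
      split_ifs <;> norm_num
  have hBy := ind_mono (P := BB T j x y) (fun S S' h => BB_mono T j x y h)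
  have hBz := ind_mono (P := BB T j x z) (fun S S' h => BB_mono T j x z h)
  have hh : Monotone (fun S : Finset V => ind (BB T j x y) S * ind (BB T j x z) S) := by
    intro S S' h
    exact mul_le_mul (hBy h) (hBz h) (ind_nonneg _ _) (ind_nonneg _ _)
  have hH := Ep_harris h0 h1 hl hh
  rw [Ep_two_labels p hyz] at hH
  have e : (fun S => ind (AA T j x y) S * ind (AA T j x z) S)
      = fun S => ((if y ∈ S then (1 : ℝ) else 0) * (if z ∈ S then (1 : ℝ) else 0))
          * (ind (BB T j x y) S * ind (BB T j x z) S) := by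
    funext S
    unfold AA
    by_cases a : y ∈ S <;> by_cases b : z ∈ S <;> by_cases c : BB T j x y S <;>
      by_cases d : BB T j x z S <;> simp [ind, a, b, c, d]
  rw [e]
  unfold Cv Cov PB Pr at *
  nlinarith

/-- Gap between the probability that no event of `g` occurs and the product. -/
lemma gap_ge {p : ℝ} (h0 : 0 ≤ p) (h1 : p ≤ 1) (x : V) (g : Finset V) :
    (p ^ 2 / 2) * ∑ y ∈ g, ∑ z ∈ g.erase y, Cv T j p x y z - (g.card.choose 3 : ℝ) * p ^ 3
      ≤ Pr p (fun S => ∀ y ∈ g, ¬ AA T j x y S) - ∏ y ∈ g, (1 - p * PB T j p x y) := by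
  classical
  -- pointwise Bonferroni
  have hpt : ∀ S : Finset V,
      1 - ∑ y ∈ g, ind (AA T j x y) S
        + (1 / 2) * ∑ y ∈ g, ∑ z ∈ g.erase y, ind (AA T j x y) S * ind (AA T j x z) S
        - ((S ∩ g).card.choose 3 : ℝ)
      ≤ ind (fun S => ∀ y ∈ g, ¬ AA T j x y S) S := by
    intro S
    set xx : V → ℝ := fun y => ind (AA T j x y) S with hxx
    have hx01 : ∀ y ∈ g, xx y = 0 ∨ xx y = 1 := by
      intro y _
      by_cases a : AA T j x y S
      · right; exact ind_apply_of a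
      · left; exact ind_apply_not a
    set F := g.filter (fun y => xx y = 1) with hF
    have hZ : ∑ y ∈ g, xx y = (F.card : ℝ) := by
      rw [hF, Finset.card_filter]
      push_cast
      apply Finset.sum_congr rfl
      intro y hy
      rcases hx01 y hy with h | h <;> simp [h]
    have hC2 := choose_two_eq_sum g xx hx01
    rw [← hF] at hC2
    have hsubF : F ⊆ S ∩ g := by
      intro z hz
      obtain ⟨hz1, hz2⟩ := Finset.mem_filter.mp hz
      refine Finset.mem_inter.mpr ⟨?_, hz1⟩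
      by_contra hzS
      have : ¬ AA T j x z S := fun h => hzS h.1
      have h3 : xx z = 0 := ind_apply_not this
      rw [h3] at hz2
      norm_num at hz2
    have hch : (F.card.choose 3 : ℝ) ≤ ((S ∩ g).card.choose 3 : ℝ) := by
      exact_mod_cast Nat.choose_le_choose 3 (Finset.card_le_card hsubF)
    have hn := nat_bonf3 F.card
    have hind : ind (fun S => ∀ y ∈ g, ¬ AA T j x y S) S = if F.card = 0 then (1 : ℝ) else 0 := by
      by_cases hF0 : F.card = 0
      · rw [if_pos hF0]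
        apply ind_apply_of (P := fun S => ∀ y ∈ g, ¬ AA T j x y S)
        intro y hy hA
        have hmem : y ∈ F := Finset.mem_filter.mpr ⟨hy, ind_apply_of hA⟩
        rw [Finset.card_eq_zero.mp hF0] at hmem
        simp at hmem
      · rw [if_neg hF0]
        apply ind_apply_not (P := fun S => ∀ y ∈ g, ¬ AA T j x y S)
        intro hall
        obtain ⟨z, hz⟩ := Finset.card_pos.mp (Nat.pos_of_ne_zero hF0)
        obtain ⟨hz1, hz2⟩ := Finset.mem_filter.mp hz
        have h3 : xx z = 0 := ind_apply_not (hall z hz1)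
        rw [h3] at hz2
        norm_num at hz2
    rw [hind]
    change 1 - ∑ y ∈ g, xx y + (1 / 2) * ∑ y ∈ g, ∑ z ∈ g.erase y, xx y * xx z
      - ((S ∩ g).card.choose 3 : ℝ) ≤ _
    rw [hZ, ← hC2]
    linarith
  have h2 := Ep_mono h0 h1 hpt
  -- expectation of the left side
  have hE : Ep p (fun S => 1 - ∑ y ∈ g, ind (AA T j x y) S
        + (1 / 2) * ∑ y ∈ g, ∑ z ∈ g.erase y, ind (AA T j x y) S * ind (AA T j x z) S
        - ((S ∩ g).card.choose 3 : ℝ))
      = 1 - ∑ y ∈ g, p * PB T j p x y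
        + (1 / 2) * ∑ y ∈ g, ∑ z ∈ g.erase y, Ep p (fun S => ind (AA T j x y) S * ind (AA T j x z) S)
        - (g.card.choose 3 : ℝ) * p ^ 3 := by
    rw [Ep_sub, Ep_add, Ep_sub, Ep_const, Ep_smul, Ep_sum, Ep_sum, Ep_choose]
    congr 3
    · apply Finset.sum_congr rfl
      intro y _
      exact Pr_AA T j p x y
    · apply Finset.sum_congr rfl
      intro y _
      rw [Ep_sum]
  rw [hE] at h2
  change _ ≤ Pr p (fun S => ∀ y ∈ g, ¬ AA T j x y S) at h2
  -- upper Bonferroni for the product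
  have hq0 : ∀ y ∈ g, 0 ≤ p * PB T j p x y := fun y _ => mul_nonneg h0 (PB_nonneg T j h0 h1 x y)
  have hq1 : ∀ y ∈ g, p * PB T j p x y ≤ 1 := by
    intro y _
    have h3 : PB T j p x y ≤ 1 := Pr_le_one h0 h1 _
    have h4 := PB_nonneg T j h0 h1 x y
    nlinarith
  obtain ⟨_, _, hU⟩ := prod_one_sub_le g (fun y => p * PB T j p x y) hq0 hq1
  -- pair comparison
  have hpair : (p ^ 2 / 2) * ∑ y ∈ g, ∑ z ∈ g.erase y, Cv T j p x y z
      + (1 / 2) * ∑ y ∈ g, ∑ z ∈ g.erase y, (p * PB T j p x y) * (p * PB T j p x z)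
      ≤ (1 / 2) * ∑ y ∈ g, ∑ z ∈ g.erase y, Ep p (fun S => ind (AA T j x y) S * ind (AA T j x z) S) := by
    rw [Finset.mul_sum, Finset.mul_sum, Finset.mul_sum, ← Finset.sum_add_distrib]
    apply Finset.sum_le_sum
    intro y _
    rw [Finset.mul_sum, Finset.mul_sum, Finset.mul_sum, ← Finset.sum_add_distrib]
    apply Finset.sum_le_sum
    intro z hz
    have hyz : y ≠ z := (Finset.ne_of_mem_erase hz).symm
    have := AA_pair_ge T j h0 h1 x hyz
    nlinarith
  linarith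

/-- Splitting off `g`: the root probability dominates the product plus the gap of `g`. -/
lemma w_ge_gap {p : ℝ} (h0 : 0 ≤ p) (h1 : p ≤ 1) (x : V) (g : Finset V) (hg : g ⊆ CC T x) :
    ∏ y ∈ CC T x, (1 - p * PB T j p x y)
      + (1 - p) ^ K * ((p ^ 2 / 2) * ∑ y ∈ g, ∑ z ∈ g.erase y, Cv T j p x y z
          - (g.card.choose 3 : ℝ) * p ^ 3)
      ≤ Pr p (fun S => ¬ RB T j x S) := by
  classical
  set G1 : Finset V → ℝ := ind (fun S => ∀ y ∈ g, ¬ AA T j x y S) with hG1
  set G2 : Finset V → ℝ := ind (fun S => ∀ y ∈ CC T x \ g, ¬ AA T j x y S) with hG2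
  have hanti1 : Antitone G1 := ind_anti (fun S S' h hall y hy hA =>
    hall y hy (AA_mono T j x y S S' h hA))
  have hanti2 : Antitone G2 := ind_anti (fun S S' h hall y hy hA =>
    hall y hy (AA_mono T j x y S S' h hA))
  have hH := Ep_harris_anti h0 h1 hanti1 hanti2
  have e : (fun S => G1 S * G2 S) = ind (fun S => ¬ RB T j x S) := by
    funext S
    have e1 : (∀ y ∈ CC T x, ¬ AA T j x y S) ↔
        (∀ y ∈ g, ¬ AA T j x y S) ∧ (∀ y ∈ CC T x \ g, ¬ AA T j x y S) := by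
      constructor
      · intro h
        exact ⟨fun y hy => h y (hg hy), fun y hy => h y (Finset.mem_sdiff.mp hy).1⟩
      · rintro ⟨h1, h2⟩ y hy
        by_cases hyg : y ∈ g
        · exact h1 y hyg
        · exact h2 y (Finset.mem_sdiff.mpr ⟨hy, hyg⟩)
    by_cases a : ∀ y ∈ g, ¬ AA T j x y S
    · by_cases b : ∀ y ∈ CC T x \ g, ¬ AA T j x y S
      · have c : ¬ RB T j x S := (not_RB_iff T j x S).mpr (e1.mpr ⟨a, b⟩)
        rw [hG1, hG2, ind_apply_of (P := fun S => ∀ y ∈ g, ¬ AA T j x y S) a,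
          ind_apply_of (P := fun S => ∀ y ∈ CC T x \ g, ¬ AA T j x y S) b,
          ind_apply_of (P := fun S => ¬ RB T j x S) c]
        ring
      · have c : ¬ ¬ RB T j x S := fun hh => b (e1.mp ((not_RB_iff T j x S).mp hh)).2
        rw [hG2, ind_apply_not (P := fun S => ∀ y ∈ CC T x \ g, ¬ AA T j x y S) b,
          ind_apply_not (P := fun S => ¬ RB T j x S) c]
        ring
    · have c : ¬ ¬ RB T j x S := fun hh => a (e1.mp ((not_RB_iff T j x S).mp hh)).1
      rw [hG1, ind_apply_not (P := fun S => ∀ y ∈ g, ¬ AA T j x y S) a,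
        ind_apply_not (P := fun S => ¬ RB T j x S) c]
      ring
  rw [e] at hH
  change Ep p G1 * Ep p G2 ≤ Pr p (fun S => ¬ RB T j x S) at hH
  -- the lower bounds
  have h2 : ∏ y ∈ CC T x \ g, (1 - p * PB T j p x y) ≤ Ep p G2 := by
    have := Pr_none_ge h0 h1 (CC T x \ g) (AA T j x) (fun y _ S S' h hA => AA_mono T j x y S S' h hA)
    refine le_trans (le_of_eq ?_) this
    apply Finset.prod_congr rfl
    intro y _
    rw [Pr_AA]
  have h3 : ∏ y ∈ g, (1 - p * PB T j p x y) ≤ Ep p G1 := by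
    have := Pr_none_ge h0 h1 g (AA T j x) (fun y _ S S' h hA => AA_mono T j x y S S' h hA)
    refine le_trans (le_of_eq ?_) this
    apply Finset.prod_congr rfl
    intro y _
    rw [Pr_AA]
  have hgap := gap_ge T j h0 h1 x g
  change _ ≤ Ep p G1 - _ at hgap
  have hterm : ∀ y ∈ CC T x, 1 - p ≤ 1 - p * PB T j p x y := by
    intro y _
    have h4 : PB T j p x y ≤ 1 := Pr_le_one h0 h1 _
    nlinarith
  have hterm0 : ∀ y ∈ CC T x, 0 ≤ 1 - p * PB T j p x y := by
    intro y hy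
    have := hterm y hy
    linarith
  have hprodsplit : ∏ y ∈ CC T x, (1 - p * PB T j p x y)
      = (∏ y ∈ g, (1 - p * PB T j p x y)) * ∏ y ∈ CC T x \ g, (1 - p * PB T j p x y) := by
    rw [← Finset.prod_sdiff hg, mul_comm]
  have hp2 : (1 - p) ^ K ≤ ∏ y ∈ CC T x \ g, (1 - p * PB T j p x y) := by
    have hc : (CC T x \ g).card ≤ K :=
      le_trans (Finset.card_le_card Finset.sdiff_subset) (card_CC_le T x)
    calc (1 - p) ^ K ≤ (1 - p) ^ (CC T x \ g).card :=
          pow_le_pow_of_le_one (by linarith) (by linarith) hc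
      _ = ∏ _y ∈ CC T x \ g, (1 - p) := by rw [Finset.prod_const]
      _ ≤ _ := Finset.prod_le_prod (fun _ _ => by linarith)
          (fun y hy => hterm y (Finset.mem_sdiff.mp hy).1)
  set P2 := ∏ y ∈ CC T x \ g, (1 - p * PB T j p x y)
  set P1 := ∏ y ∈ g, (1 - p * PB T j p x y)
  set Gp := (p ^ 2 / 2) * ∑ y ∈ g, ∑ z ∈ g.erase y, Cv T j p x y z - (g.card.choose 3 : ℝ) * p ^ 3
  have hG1P : 0 ≤ Ep p G1 - P1 := by linarith
  have hP2nn : 0 ≤ P2 := by
    have : 0 ≤ (1 - p) ^ K := pow_nonneg (by linarith) _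
    linarith
  have hG2nn : 0 ≤ Ep p G1 := by
    apply Ep_nonneg h0 h1
    intro S
    exact ind_nonneg _ _
  have hpow : 0 ≤ (1 - p) ^ K := pow_nonneg (by linarith) _
  rw [hprodsplit]
  have h5 : (1 - p) ^ K * Gp ≤ (1 - p) ^ K * (Ep p G1 - P1) := mul_le_mul_of_nonneg_left hgap hpow
  have h6 : (1 - p) ^ K * (Ep p G1 - P1) ≤ P2 * (Ep p G1 - P1) := mul_le_mul_of_nonneg_right hp2 hG1P
  have h7 : Ep p G1 * P2 ≤ Ep p G1 * Ep p G2 := mul_le_mul_of_nonneg_left h2 hG2nn
  nlinarith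

/-- Sibling covariance density. -/
noncomputable def vv (p : ℝ) (x : V) : ℝ :=
  (1 / (K : ℝ) ^ 2) * ∑ y ∈ CC T x, ∑ z ∈ (CC T x).erase y, Cv T j p x y z

lemma Cv_nonneg {p : ℝ} (h0 : 0 ≤ p) (h1 : p ≤ 1) (x y z : V) : 0 ≤ Cv T j p x y z :=
  Cov_nonneg h0 h1 (ind_mono (fun S S' h => BB_mono T j x y h))
    (ind_mono (fun S S' h => BB_mono T j x z h))

lemma Cv_le_one {p : ℝ} (h0 : 0 ≤ p) (h1 : p ≤ 1) (x y z : V) : Cv T j p x y z ≤ 1 := by
  unfold Cv Cov
  have h2 : Ep p (fun T_1 => ind (BB T j x y) T_1 * ind (BB T j x z) T_1) ≤ 1 := by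
    have := Ep_mono h0 h1 (f := fun T_1 => ind (BB T j x y) T_1 * ind (BB T j x z) T_1)
      (g := fun _ => (1 : ℝ)) (fun S => by
        have a1 := ind_nonneg (BB T j x y) S
        have a2 := ind_le_one (BB T j x y) S
        have a3 := ind_nonneg (BB T j x z) S
        have a4 := ind_le_one (BB T j x z) S
        show ind (BB T j x y) S * ind (BB T j x z) S ≤ 1
        nlinarith)
    rwa [Ep_const] at this
  have h3 : 0 ≤ Ep p (ind (BB T j x y)) := Ep_nonneg h0 h1 (ind_nonneg _)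
  have h4 : 0 ≤ Ep p (ind (BB T j x z)) := Ep_nonneg h0 h1 (ind_nonneg _)
  nlinarith [mul_nonneg h3 h4]

lemma vv_nonneg {p : ℝ} (h0 : 0 ≤ p) (h1 : p ≤ 1) (x : V) : 0 ≤ vv T j p x := by
  unfold vv
  apply mul_nonneg (by positivity)
  apply Finset.sum_nonneg
  intro y _
  apply Finset.sum_nonneg
  intro z _
  exact Cv_nonneg T j h0 h1 x y z

lemma vv_le_one {p : ℝ} (h0 : 0 ≤ p) (h1 : p ≤ 1) (hK : 0 < K) (x : V) : vv T j p x ≤ 1 := by
  unfold vv
  have hKpos : (0 : ℝ) < K := by exact_mod_cast hK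
  have hc : ((CC T x).card : ℝ) ≤ K := by exact_mod_cast card_CC_le T x
  have h2 : ∑ y ∈ CC T x, ∑ z ∈ (CC T x).erase y, Cv T j p x y z ≤ (K : ℝ) ^ 2 := by
    have h3 : ∀ y ∈ CC T x, ∑ z ∈ (CC T x).erase y, Cv T j p x y z ≤ (K : ℝ) := by
      intro y _
      have : ∑ z ∈ (CC T x).erase y, Cv T j p x y z ≤ ∑ _z ∈ (CC T x).erase y, (1 : ℝ) :=
        Finset.sum_le_sum (fun z _ => Cv_le_one T j h0 h1 x y z)
      simp only [Finset.sum_const, nsmul_eq_mul, mul_one] at this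
      have h4 : (((CC T x).erase y).card : ℝ) ≤ (CC T x).card := by
        exact_mod_cast Finset.card_le_card (Finset.erase_subset _ _)
      linarith
    have h5 := Finset.sum_le_sum h3
    simp only [Finset.sum_const, nsmul_eq_mul] at h5
    nlinarith
  rw [one_div, inv_mul_le_iff₀ (by positivity)]
  linarith

/-- Excess of the root bounds the cube of the sibling covariance. -/
lemma excess_ge_vv {p : ℝ} (h0 : 0 ≤ p) (h1 : p ≤ 1) (hK : 0 < K) (ha : 1 ≤ p * K) (x : V) :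
    ∏ y ∈ CC T x, (1 - p * PB T j p x y) + (1 - p) ^ K * ((vv T j p x) ^ 3 / 3)
      ≤ Pr p (fun S => ¬ RB T j x S) := by
  classical
  have hKpos : (0 : ℝ) < K := by exact_mod_cast hK
  set a := p * K with ha'
  have hp0 : 0 < p := by
    by_contra h
    have : p = 0 := le_antisymm (not_lt.mp h) h0
    rw [this] at ha'
    simp at ha'
    rw [ha'] at ha
    norm_num at ha
  set v := vv T j p x with hv
  have hv0 : 0 ≤ v := vv_nonneg T j h0 h1 x
  have hv1 : v ≤ 1 := vv_le_one T j h0 h1 hK x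
  set ξ := v / a with hξ
  have hapos : 0 < a := by linarith
  have hξ0 : 0 ≤ ξ := by positivity
  have hξ1 : ξ ≤ 1 := by
    rw [hξ, div_le_one hapos]; linarith
  -- average over g
  have hpt : ∀ S : Finset V,
      ∏ y ∈ CC T x, (1 - p * PB T j p x y)
      + (1 - p) ^ K * ((p ^ 2 / 2) * (∑ y ∈ S ∩ CC T x, ∑ z ∈ (S ∩ CC T x).erase y, Cv T j p x y z)
          - ((S ∩ CC T x).card.choose 3 : ℝ) * p ^ 3)
      ≤ Pr p (fun S => ¬ RB T j x S) :=
    fun S => w_ge_gap T j h0 h1 x (S ∩ CC T x) Finset.inter_subset_right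
  have h2 := Ep_mono hξ0 hξ1 hpt
  rw [Ep_const] at h2
  rw [Ep_add, Ep_const, Ep_smul, Ep_sub, Ep_smul, Ep_pair_sum] at h2
  have e3 : Ep ξ (fun S => ((S ∩ CC T x).card.choose 3 : ℝ) * p ^ 3)
      = ((CC T x).card.choose 3 : ℝ) * ξ ^ 3 * p ^ 3 := by
    have := Ep_smul ξ (p ^ 3) (fun S => (((S ∩ CC T x).card.choose 3 : ℕ) : ℝ))
    rw [Ep_choose] at this
    calc Ep ξ (fun S => ((S ∩ CC T x).card.choose 3 : ℝ) * p ^ 3)
        = Ep ξ (fun S => p ^ 3 * (((S ∩ CC T x).card.choose 3 : ℕ) : ℝ)) := by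
          congr 1; funext S; ring
      _ = _ := by rw [this]; ring
  rw [e3] at h2
  -- estimates
  have hchoose : ((CC T x).card.choose 3 : ℝ) ≤ (K : ℝ) ^ 3 / 6 := by
    have h4 : ((CC T x).card.choose 3 : ℝ) ≤ ((CC T x).card : ℝ) ^ 3 / (Nat.factorial 3 : ℝ) :=
      Nat.choose_le_pow_div 3 _
    have h5 : ((CC T x).card : ℝ) ≤ K := by exact_mod_cast card_CC_le T x
    have h6 : ((CC T x).card : ℝ) ^ 3 ≤ (K : ℝ) ^ 3 := pow_le_pow_left₀ (by positivity) h5 3
    have h7 : (Nat.factorial 3 : ℝ) = 6 := by norm_num [Nat.factorial]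
    rw [h7] at h4
    linarith
  have hS : ∑ y ∈ CC T x, ∑ z ∈ (CC T x).erase y, Cv T j p x y z = (K : ℝ) ^ 2 * v := by
    rw [hv]; unfold vv; field_simp
  rw [hS] at h2
  have hgain : v ^ 3 / 3 ≤ (p ^ 2 / 2) * (ξ ^ 2 * ((K : ℝ) ^ 2 * v))
      - ((CC T x).card.choose 3 : ℝ) * ξ ^ 3 * p ^ 3 := by
    have e4 : (p ^ 2 / 2) * (ξ ^ 2 * ((K : ℝ) ^ 2 * v)) = v ^ 3 / 2 := by
      have : p * K = a := rfl
      have : (p ^ 2 / 2) * (ξ ^ 2 * ((K : ℝ) ^ 2 * v)) = (a * ξ) ^ 2 * v / 2 := by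
        rw [ha']; ring
      rw [this]
      have h8 : a * ξ = v := by rw [hξ]; field_simp
      rw [h8]; ring
    have e5 : ((CC T x).card.choose 3 : ℝ) * ξ ^ 3 * p ^ 3 ≤ v ^ 3 / 6 := by
      have h8 : a * ξ = v := by rw [hξ]; field_simp
      have h9 : (K : ℝ) ^ 3 / 6 * ξ ^ 3 * p ^ 3 = (a * ξ) ^ 3 / 6 := by rw [ha']; ring
      have h10 : 0 ≤ ξ ^ 3 * p ^ 3 := by positivity
      calc ((CC T x).card.choose 3 : ℝ) * ξ ^ 3 * p ^ 3
          = ((CC T x).card.choose 3 : ℝ) * (ξ ^ 3 * p ^ 3) := by ring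
        _ ≤ (K : ℝ) ^ 3 / 6 * (ξ ^ 3 * p ^ 3) := mul_le_mul_of_nonneg_right hchoose h10
        _ = (a * ξ) ^ 3 / 6 := by rw [← h9]; ring
        _ = v ^ 3 / 6 := by rw [h8]
    rw [e4]
    have : v ^ 3 / 2 - v ^ 3 / 6 = v ^ 3 / 3 := by ring
    linarith
  have hpow : 0 ≤ (1 - p) ^ K := pow_nonneg (by linarith) _
  have := mul_le_mul_of_nonneg_left hgain hpow
  linarith

end Vale.Agent.Lib.P336_h66
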