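/-
P336 (helper66): the quality number `TQ` of a root: it controls world probabilities of the children
and is bounded linearly by the excess of the root.
-/
import Vale.Agent.Lib.P336_h66.BTight

namespace Vale.Agent.Lib.P336_h66

set_option linter.unusedSectionVars false

open Finset

variable {V : Type} [Fintype V] [DecidableEq V] {K : ℕ}

variable (T : TS V K) (j : ℕ)

/-- Variance bound for the average of the child events. -/
lemma sum_PB_world {p : ℝ} (h0 : 0 ≤ p) (h1 : p < 1) (hK : 0 < K) (x : V) (D : Finset V)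
    {θ : ℝ} (hθ : 0 < θ) :
    ∑ y ∈ CC T x, (PB T j p x y - PrW p D (BB T j x y))
      ≤ K * (θ * (vv T j p x + 1 / K) / (2 * (1 - p) ^ D.card) + 1 / (2 * θ)) := by
  have h1' : p ≤ 1 := le_of_lt h1
  have hKpos : (0 : ℝ) < K := by exact_mod_cast hK
  have hπ : 0 < (1 - p) ^ D.card := pow_pos (by linarith) _
  set f : Finset V → ℝ := fun S => (1 / (K : ℝ)) * ∑ y ∈ CC T x, ind (BB T j x y) S with hf
  have e1 : Ep p f = (1 / (K : ℝ)) * ∑ y ∈ CC T x, PB T j p x y := by
    rw [hf, Ep_smul, Ep_sum]; rfl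
  have e2 : EW p D f = (1 / (K : ℝ)) * ∑ y ∈ CC T x, PrW p D (BB T j x y) := by
    unfold EW
    have : (fun T_1 => f (T_1 \ D)) = fun S => (1 / (K : ℝ)) * ∑ y ∈ CC T x, ind (BB T j x y) (S \ D) := rfl
    rw [this, Ep_smul, Ep_sum]; rfl
  have e3 : Ep p (fun S => f S * f S) - Ep p f * Ep p f
      = (1 / (K : ℝ) ^ 2) * ∑ y ∈ CC T x, ∑ z ∈ CC T x, Cv T j p x y z := by
    have e4 : (fun S => f S * f S) = fun S => (1 / (K : ℝ) ^ 2) *
        ∑ y ∈ CC T x, ∑ z ∈ CC T x, ind (BB T j x y) S * ind (BB T j x z) S := by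
      funext S
      rw [hf]
      simp only
      rw [← Finset.sum_mul_sum]
      ring
    rw [e4, Ep_smul, Ep_sum, e1]
    have e5 : ∑ y ∈ CC T x, Ep p (fun S => ∑ z ∈ CC T x, ind (BB T j x y) S * ind (BB T j x z) S)
        = ∑ y ∈ CC T x, ∑ z ∈ CC T x, Ep p (fun S => ind (BB T j x y) S * ind (BB T j x z) S) := by
      apply Finset.sum_congr rfl
      intro y _
      rw [Ep_sum]
    rw [e5]
    have e6 : ∑ y ∈ CC T x, ∑ z ∈ CC T x, Cv T j p x y z
        = ∑ y ∈ CC T x, ∑ z ∈ CC T x, Ep p (fun S => ind (BB T j x y) S * ind (BB T j x z) S)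
          - (∑ y ∈ CC T x, PB T j p x y) * ∑ y ∈ CC T x, PB T j p x y := by
      rw [Finset.sum_mul_sum, ← Finset.sum_sub_distrib]
      apply Finset.sum_congr rfl
      intro y _
      rw [← Finset.sum_sub_distrib]
      rfl
    rw [e6]
    ring
  have hvar : Ep p (fun S => f S * f S) - Ep p f * Ep p f ≤ vv T j p x + 1 / K := by
    rw [e3]
    have hsum : ∑ y ∈ CC T x, ∑ z ∈ CC T x, Cv T j p x y z
        ≤ ∑ y ∈ CC T x, (1 + ∑ z ∈ (CC T x).erase y, Cv T j p x y z) := by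
      apply Finset.sum_le_sum
      intro y hy
      rw [← Finset.add_sum_erase (CC T x) _ hy]
      have := Cv_le_one T j h0 h1' x y y
      linarith
    rw [Finset.sum_add_distrib] at hsum
    simp only [Finset.sum_const, nsmul_eq_mul, mul_one] at hsum
    have hc : ((CC T x).card : ℝ) ≤ K := by exact_mod_cast card_CC_le T x
    have hv : vv T j p x = (1 / (K : ℝ) ^ 2) * ∑ y ∈ CC T x, ∑ z ∈ (CC T x).erase y, Cv T j p x y z := rfl
    rw [hv]
    have hK2 : 0 ≤ 1 / (K : ℝ) ^ 2 := by positivity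
    have := mul_le_mul_of_nonneg_left hsum hK2
    have h3 : (1 / (K : ℝ) ^ 2) * ((CC T x).card : ℝ) ≤ 1 / K := by
      have : (1 / (K : ℝ) ^ 2) * ((CC T x).card : ℝ) ≤ (1 / (K : ℝ) ^ 2) * K :=
        mul_le_mul_of_nonneg_left hc hK2
      refine le_trans this (le_of_eq ?_)
      field_simp
    nlinarith
  have hm := mean_world_le h0 h1 D f hθ
  rw [e1, e2] at hm
  have h3 : ∑ y ∈ CC T x, (PB T j p x y - PrW p D (BB T j x y))
      = K * ((1 / (K : ℝ)) * ∑ y ∈ CC T x, PB T j p x y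
        - (1 / (K : ℝ)) * ∑ y ∈ CC T x, PrW p D (BB T j x y)) := by
    rw [Finset.sum_sub_distrib]
    field_simp
  rw [h3]
  apply mul_le_mul_of_nonneg_left _ hKpos.le
  refine le_trans hm ?_
  apply add_le_add_left
  rw [e1] at hvar
  apply div_le_div_of_nonneg_right _ (by positivity)
  exact mul_le_mul_of_nonneg_left hvar hθ.le

/-- Quality defect of the root `x`. -/
noncomputable def TQ (p β θ π : ℝ) (x : V) : ℝ :=
  dd T j p β x + θ * (vv T j p x + 1 / K) / (2 * π) + 1 / (2 * θ) + vv T j p x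

lemma dd_nonneg {p : ℝ} (h0 : 0 ≤ p) (h1 : p ≤ 1) (hK : 0 < K) (x : V) :
    0 ≤ dd T j p (betaSeq p K j) x := by
  unfold dd
  have hKpos : (0 : ℝ) < K := by exact_mod_cast hK
  apply mul_nonneg (by positivity)
  apply add_nonneg
  · apply Finset.sum_nonneg
    intro y _
    have := PB_le T j h0 h1 x y
    linarith
  · apply mul_nonneg
    · have : ((CC T x).card : ℝ) ≤ K := by exact_mod_cast card_CC_le T x
      linarith
    · exact (betaSeq_mem h0 h1 K j).1

lemma TQ_nonneg {p θ π : ℝ} (h0 : 0 ≤ p) (h1 : p ≤ 1) (hK : 0 < K) (hθ : 0 < θ) (hπ : 0 < π) (x : V) :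
    0 ≤ TQ T j p (betaSeq p K j) θ π x := by
  unfold TQ
  have a1 := dd_nonneg T j h0 h1 hK x
  have a2 := vv_nonneg T j h0 h1 x
  have hKpos : (0 : ℝ) < K := by exact_mod_cast hK
  positivity

lemma PrW_BB_le {p : ℝ} (h0 : 0 ≤ p) (h1 : p ≤ 1) (x y : V) (D : Finset V) :
    PrW p D (BB T j x y) ≤ betaSeq p K j :=
  le_trans (PrW_le_Pr h0 h1 D (fun S S' h => BB_mono T j x y h)) (PB_le T j h0 h1 x y)

/-- The main property of `TQ`: control in every world of large weight. -/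
lemma TQ_world {p θ π : ℝ} (h0 : 0 ≤ p) (h1 : p < 1) (hK : 0 < K) (hθ : 0 < θ) (hπ : 0 < π) (x : V)
    (D : Finset V) (hD : π ≤ (1 - p) ^ D.card) :
    ∑ y ∈ CC T x, (betaSeq p K j - PrW p D (BB T j x y))
      + ((K : ℝ) - (CC T x).card) * betaSeq p K j
      ≤ K * TQ T j p (betaSeq p K j) θ π x := by
  have h1' : p ≤ 1 := le_of_lt h1
  have hKpos : (0 : ℝ) < K := by exact_mod_cast hK
  set β := betaSeq p K j
  have h2 := sum_PB_world T j h0 h1 hK x D hθ
  have hv0 := vv_nonneg T j h0 h1' x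
  have h3 : θ * (vv T j p x + 1 / K) / (2 * (1 - p) ^ D.card) ≤ θ * (vv T j p x + 1 / K) / (2 * π) := by
    apply div_le_div_of_nonneg_left (by positivity) (by positivity)
    linarith
  have e : K * TQ T j p β θ π x = K * dd T j p β x
      + K * (θ * (vv T j p x + 1 / K) / (2 * π) + 1 / (2 * θ)) + K * vv T j p x := by
    unfold TQ; ring
  have e2 : (K : ℝ) * dd T j p β x
      = ∑ y ∈ CC T x, (β - PB T j p x y) + ((K : ℝ) - (CC T x).card) * β := by
    unfold dd
    field_simp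
  rw [e, e2]
  have e3 : ∑ y ∈ CC T x, (β - PrW p D (BB T j x y))
      = ∑ y ∈ CC T x, (β - PB T j p x y) + ∑ y ∈ CC T x, (PB T j p x y - PrW p D (BB T j x y)) := by
    rw [← Finset.sum_add_distrib]
    apply Finset.sum_congr rfl
    intro y _
    ring
  rw [e3]
  have h4 : (K : ℝ) * (θ * (vv T j p x + 1 / K) / (2 * (1 - p) ^ D.card) + 1 / (2 * θ))
      ≤ K * (θ * (vv T j p x + 1 / K) / (2 * π) + 1 / (2 * θ)) :=
    mul_le_mul_of_nonneg_left (by linarith) hKpos.le
  have h5 : 0 ≤ (K : ℝ) * vv T j p x := by positivity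
  linarith

/-- The excess at the root. -/
noncomputable def exc (p : ℝ) (x : V) : ℝ :=
  Pr p (fun S => ¬ RB T j x S) - (1 - p * betaSeq p K j) ^ K

/-- Linear bound of the quality by the excess. -/
lemma TQ_le_exc {p π θ θ' : ℝ} (h0 : 0 ≤ p) (h1 : p ≤ 1) (hK : 0 < K) (ha : 1 ≤ p * K)
    (hπ : 0 < π) (hπK : π ≤ (1 - p) ^ K) (hθ : 0 < θ) (hθ' : 0 < θ') (x : V) :
    TQ T j p (betaSeq p K j) θ π x ≤ ((1 + θ / (2 * π)) * θ' + 1 / (2 * θ))
      + (1 / π + (1 + θ / (2 * π)) * (3 / (π * θ' ^ 2)) + θ / (2 * π))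
        * (exc T j p x + 1 / K) := by
  have hKpos : (0 : ℝ) < K := by exact_mod_cast hK
  set β := betaSeq p K j with hβ
  set e := exc T j p x with he
  have hm := betaSeq_mem h0 h1 K j
  rw [← hβ] at hm
  have hq0 : 0 ≤ 1 - p * β := by nlinarith [hm.1, hm.2]
  have hqq : 1 - p ≤ 1 - p * β := by nlinarith [hm.1, hm.2]
  have hp1 : p < 1 ∨ p = 1 := lt_or_eq_of_le h1
  have hwπ : π ≤ (1 - p * β) ^ K :=
    le_trans hπK (pow_le_pow_left₀ (by
      have : 0 ≤ (1 - p) ^ K := le_trans hπ.le hπK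
      rcases hp1 with h | h
      · linarith
      · rw [h] at hπK
        rw [h]
        have hKne : K ≠ 0 := by omega
        simp [hKne] at hπK
        linarith) hqq K)
  -- excess bounds
  have hd0 := dd_nonneg T j h0 h1 hK x
  have h2 := excess_ge_dd T j h0 h1 hK x
  rw [← hβ] at h2
  have hd : π * dd T j p β x ≤ e := by
    have h3 : π * dd T j p β x ≤ (1 - p * β) ^ K * (p * K * dd T j p β x) := by
      have h4 : dd T j p β x ≤ p * K * dd T j p β x := by nlinarith
      calc π * dd T j p β x ≤ π * (p * K * dd T j p β x) := mul_le_mul_of_nonneg_left h4 hπ.le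
        _ ≤ _ := mul_le_mul_of_nonneg_right hwπ (by positivity)
    have e' : e = Pr p (fun S => ¬ RB T j x S) - (1 - p * β) ^ K := rfl
    linarith
  have hv := excess_ge_vv T j h0 h1 hK ha x
  have hprod := prod_ge_dd T j h0 h1 hK x
  rw [← hβ] at hprod
  have hv0 := vv_nonneg T j h0 h1 x
  have hv3 : π * (vv T j p x ^ 3 / 3) ≤ e := by
    have h5 : (1 - p * β) ^ K ≤ ∏ y ∈ CC T x, (1 - p * PB T j p x y) := by
      have h6 : 0 ≤ (1 - p * β) ^ K * (p * K * dd T j p β x) := by positivity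
      nlinarith
    have h7 : π * (vv T j p x ^ 3 / 3) ≤ (1 - p) ^ K * (vv T j p x ^ 3 / 3) :=
      mul_le_mul_of_nonneg_right hπK (by positivity)
    have e' : e = Pr p (fun S => ¬ RB T j x S) - (1 - p * β) ^ K := rfl
    linarith
  -- linearize
  have hvle : vv T j p x ≤ θ' + (3 / (π * θ' ^ 2)) * e := by
    by_cases hcase : vv T j p x ≤ θ'
    · have h8 : 0 ≤ e := le_trans (by positivity) hv3
      have h9 : 0 ≤ (3 / (π * θ' ^ 2)) * e := by positivity
      linarith
    · have hlt : θ' < vv T j p x := not_le.mp hcase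
      have h10 : θ' ^ 2 * vv T j p x ≤ vv T j p x ^ 3 := by nlinarith [sq_nonneg (vv T j p x - θ'), sq_pos_of_pos hθ']
      have h11 : vv T j p x ≤ (3 / (π * θ' ^ 2)) * e := by
        rw [div_mul_eq_mul_div, le_div_iff₀ (by positivity)]
        have h12 : π * θ' ^ 2 * vv T j p x ≤ π * vv T j p x ^ 3 := by
          calc π * θ' ^ 2 * vv T j p x = π * (θ' ^ 2 * vv T j p x) := by ring
            _ ≤ _ := mul_le_mul_of_nonneg_left h10 hπ.le
        nlinarith
      linarith
  have hdle : dd T j p β x ≤ (1 / π) * e := by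
    rw [div_mul_eq_mul_div, one_mul, le_div_iff₀ hπ]
    linarith
  have hA : 0 ≤ θ / (2 * π) := by positivity
  unfold TQ
  have e4 : θ * (vv T j p x + 1 / K) / (2 * π) = (θ / (2 * π)) * vv T j p x + (θ / (2 * π)) * (1 / K) := by
    field_simp
  rw [e4]
  have hK1 : 0 ≤ 1 / (K : ℝ) := by positivity
  have h13 : (1 + θ / (2 * π)) * vv T j p x ≤ (1 + θ / (2 * π)) * (θ' + (3 / (π * θ' ^ 2)) * e) :=
    mul_le_mul_of_nonneg_left hvle (by linarith)
  have hee : 0 ≤ e := le_trans (by positivity) hv3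
  have hB : 0 ≤ (1 + θ / (2 * π)) * (3 / (π * θ' ^ 2)) := by positivity
  have hC : 0 ≤ 1 / π := by positivity
  have h14 : 0 ≤ (1 / π) * (1 / (K : ℝ)) := by positivity
  have h15 : 0 ≤ (1 + θ / (2 * π)) * (3 / (π * θ' ^ 2)) * (1 / (K : ℝ)) := by positivity
  have h16 : 0 ≤ (θ / (2 * π)) * e := by positivity
  nlinarith

end Vale.Agent.Lib.P336_h66
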