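/-
P336 (helper66): inequality (B): a nearly tight critical-tree system has many asymmetric pivots.
-/
import Vale.Agent.Lib.P336_h66.BQual
import Vale.Agent.Lib.P336_h66.BCount

namespace Vale.Agent.Lib.P336_h66

set_option linter.unusedSectionVars false

open Finset

variable {V : Type} [Fintype V] [DecidableEq V] {K : ℕ}

variable (T : TS V K) (j : ℕ)

/-- Solid slot. -/
def Sol (p : ℝ) (c u : V) : Prop := betaSeq p K j / 2 ≤ PrW p (NN T c) (BB T j c u)

/-- World of a triple. -/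
def Dt (c u y : V) : Finset V := NN T c ∪ NN T u ∪ NN T y

/-- Triple probability. -/
noncomputable def tau (p : ℝ) (c u y : V) : ℝ := PrW p (Dt T c u y) (TriQ T j c u y)

lemma card_NN_le (x : V) : (NN T x).card ≤ K + 1 :=
  le_trans (Finset.card_insert_le _ _) (by have := card_CC_le T x; omega)

lemma card_Dt_le (c u y : V) : (Dt T c u y).card ≤ 3 * K + 3 := by
  unfold Dt
  have h1 := Finset.card_union_le (NN T c ∪ NN T u) (NN T y)
  have h2 := Finset.card_union_le (NN T c) (NN T u)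
  have h3 := card_NN_le T c
  have h4 := card_NN_le T u
  have h5 := card_NN_le T y
  omega

/-- Parameters valid for the tree system at density `p`. -/
structure Par (p a₁ πc : ℝ) (K j : ℕ) : Prop where
  hK : 4 ≤ K
  h0 : 0 ≤ p
  hp : p ≤ 1 / 4
  ha1 : 1 ≤ p * K
  ha2 : p * K ≤ a₁
  hβ1 : 1 / 2 ≤ betaSeq p K j
  hβ2 : πc ≤ 1 - betaSeq p K j
  hπ : 0 < πc
  hπK : πc ≤ (1 - p) ^ (3 * K + 3)

variable {T j} {p a₁ πc θ : ℝ} (P : Par p a₁ πc K j)

include P

lemma Par.h1 : p ≤ 1 := by have := P.hp; linarith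
lemma Par.hlt : p < 1 := by have := P.hp; linarith
lemma Par.hKpos : 0 < K := by have := P.hK; omega
lemma Par.hKR : (0 : ℝ) < K := by exact_mod_cast P.hKpos
lemma Par.hπ1 : πc ≤ 1 := by
  have h1 : (1 - p) ^ (3 * K + 3) ≤ 1 := pow_le_one₀ (by have := P.h1; linarith) (by have := P.h0; linarith)
  exact le_trans P.hπK h1
lemma Par.ha₁ : 1 ≤ a₁ := le_trans P.ha1 P.ha2
lemma Par.world {D : Finset V} (hD : D.card ≤ 3 * K + 3) : πc ≤ (1 - p) ^ D.card :=
  le_trans P.hπK (pow_le_pow_of_le_one (by have := P.h1; linarith) (by have := P.h0; linarith) hD)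
lemma Par.world_pos {D : Finset V} : 0 < (1 - p) ^ D.card :=
  pow_pos (by have := P.hlt; linarith) _
lemma Par.hpK : p ≤ a₁ / K := by
  rw [le_div_iff₀ P.hKR]; exact P.ha2
lemma Par.card_world (x : V) : (NN T x).card ≤ 3 * K + 3 := by
  have := card_NN_le T x; omega

lemma Par.qual_world (hθ : 0 < θ) (x : V) {D : Finset V} (hD : D.card ≤ 3 * K + 3) :
    ∑ y ∈ CC T x, (betaSeq p K j - PrW p D (BB T j x y))
      + ((K : ℝ) - (CC T x).card) * betaSeq p K j
      ≤ K * TQ T j p (betaSeq p K j) θ πc x :=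
  TQ_world T j P.h0 P.hlt P.hKpos hθ P.hπ x D (P.world hD)

lemma Par.term_nonneg (x y : V) (D : Finset V) : 0 ≤ betaSeq p K j - PrW p D (BB T j x y) := by
  have := PrW_BB_le T j P.h0 P.h1 x y D
  linarith

lemma Par.card_term_nonneg (x : V) : 0 ≤ (K : ℝ) - (CC T x).card := by
  have : ((CC T x).card : ℝ) ≤ K := by exact_mod_cast card_CC_le T x
  linarith

/-- H0 -/
lemma Par.H0 (hθ : 0 < θ) (c : V) :
    (K : ℝ) - (CC T c).card ≤ 2 * K * TQ T j p (betaSeq p K j) θ πc c := by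
  have h1 := P.qual_world (T := T) hθ c (D := NN T c) (P.card_world c)
  have h2 : 0 ≤ ∑ y ∈ CC T c, (betaSeq p K j - PrW p (NN T c) (BB T j c y)) :=
    Finset.sum_nonneg (fun y _ => P.term_nonneg c y _)
  have h3 := P.card_term_nonneg (T := T) c
  have h4 := P.hβ1
  nlinarith

/-- H1 -/
lemma Par.H1 (hθ : 0 < θ) (c : V) :
    ∑ u ∈ CC T c, bo (¬ Sol T j p c u) ≤ 4 * K * TQ T j p (betaSeq p K j) θ πc c := by
  have h1 := P.qual_world (T := T) hθ c (D := NN T c) (P.card_world c)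
  have h2 : ∀ u ∈ CC T c, bo (¬ Sol T j p c u) ≤ 4 * (betaSeq p K j - PrW p (NN T c) (BB T j c u)) := by
    intro u _
    have h4 := P.term_nonneg (T := T) c u (NN T c)
    by_cases hS : Sol T j p c u
    · rw [bo_not (not_not.mpr hS)]; linarith
    · rw [bo_of hS]
      have h5 : PrW p (NN T c) (BB T j c u) < betaSeq p K j / 2 := not_le.mp hS
      have h6 := P.hβ1
      linarith
  have h3 := Finset.sum_le_sum h2
  rw [← Finset.mul_sum] at h3
  have h4 := P.card_term_nonneg (T := T) c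
  have h5 := (betaSeq_mem P.h0 P.h1 K j).1
  have h6 : 0 ≤ ((K : ℝ) - (CC T c).card) * betaSeq p K j := mul_nonneg h4 h5
  nlinarith

/-- Core of P3: children of `u` outside `N_c` are few. -/
lemma Par.E_le (hθ : 0 < θ) (c u : V) :
    ((CC T u \ NN T c).card : ℝ)
      ≤ K * (16 * (PrW p (NN T c) (RB T j u) + p * K * TQ T j p (betaSeq p K j) θ πc u)) := by
  classical
  set D := NN T c with hD
  set E := CC T u \ D with hE
  set β := betaSeq p K j with hβ
  set ζ := PrW p D (RB T j u) with hζ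
  set Qu := TQ T j p β θ πc u with hQu
  have hKR := P.hKR
  have hp0 := P.h0
  have ha1 := P.ha1
  have hp : 0 < p := by
    rcases eq_or_lt_of_le hp0 with h | h
    · rw [← h] at ha1; norm_num at ha1
    · exact h
  have hQ0 : 0 ≤ Qu := TQ_nonneg T j hp0 P.h1 P.hKpos hθ P.hπ u
  have hζ0 : 0 ≤ ζ := PrW_nonneg hp0 P.h1 D _
  -- a sublemma for subsets
  have key : ∀ D' : Finset V, D' ⊆ E → p * D'.card ≤ 1 / 2 →
      p * D'.card ≤ 4 * (ζ + p * K * Qu) := by
    intro D' hD' hx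
    have hsubC : D' ⊆ CC T u := fun z hz => (Finset.mem_sdiff.mp (hD' hz)).1
    have hdis : Disjoint D' D := by
      rw [Finset.disjoint_left]
      intro z hz
      exact (Finset.mem_sdiff.mp (hD' hz)).2
    have h1 := PrW_RB_ge T j hp0 P.h1 u D D' hsubC hdis
    have h2 : (D'.card : ℝ) * β - K * Qu ≤ ∑ z ∈ D', PrW p D (BB T j u z) := by
      have h3 := P.qual_world (T := T) hθ u (D := D) (P.card_world c)
      have h4 : ∑ z ∈ D', (β - PrW p D (BB T j u z)) ≤ ∑ z ∈ CC T u, (β - PrW p D (BB T j u z)) :=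
        Finset.sum_le_sum_of_subset_of_nonneg hsubC (fun z _ _ => P.term_nonneg u z D)
      have h5 : 0 ≤ ((K : ℝ) - (CC T u).card) * β :=
        mul_nonneg (P.card_term_nonneg u) (betaSeq_mem hp0 P.h1 K j).1
      have h6 : ∑ z ∈ CC T u, (β - PrW p D (BB T j u z)) ≤ K * Qu := by
        linarith
      rw [Finset.sum_sub_distrib, Finset.sum_const, nsmul_eq_mul] at h4
      linarith
    have hch : ((D'.card.choose 2 : ℕ) : ℝ) ≤ (D'.card : ℝ) ^ 2 / 2 := by
      have := Nat.choose_le_pow_div (α := ℝ) 2 D'.card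
      have h7 : (Nat.factorial 2 : ℝ) = 2 := by norm_num [Nat.factorial]
      rw [h7] at this
      exact this
    set x := p * D'.card with hx'
    have hx0 : 0 ≤ x := by positivity
    have h8 : p * ((D'.card : ℝ) * β - K * Qu) ≤ p * ∑ z ∈ D', PrW p D (BB T j u z) :=
      mul_le_mul_of_nonneg_left h2 hp0
    have h9 : ((D'.card.choose 2 : ℕ) : ℝ) * p ^ 2 ≤ x ^ 2 / 2 := by
      have : ((D'.card.choose 2 : ℕ) : ℝ) * p ^ 2 ≤ (D'.card : ℝ) ^ 2 / 2 * p ^ 2 :=
        mul_le_mul_of_nonneg_right hch (by positivity)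
      calc ((D'.card.choose 2 : ℕ) : ℝ) * p ^ 2 ≤ (D'.card : ℝ) ^ 2 / 2 * p ^ 2 := this
        _ = x ^ 2 / 2 := by rw [hx']; ring
    have h10 : x / 2 ≤ x * β := by
      have := P.hβ1
      nlinarith
    have h11 : x ^ 2 / 2 ≤ x / 4 := by nlinarith
    have e : p * ((D'.card : ℝ) * β - K * Qu) = x * β - p * K * Qu := by rw [hx']; ring
    rw [e] at h8
    nlinarith
  have hEcard : (E.card : ℝ) ≤ K := by
    have h1 : E.card ≤ (CC T u).card := Finset.card_le_card Finset.sdiff_subset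
    have h2 := card_CC_le T u
    exact_mod_cast le_trans h1 h2
  -- the multiplier
  have hmain : p * E.card ≤ p * K * (16 * (ζ + p * K * Qu)) := by
    have hS0 : 0 ≤ ζ + p * K * Qu := by positivity
    by_cases hcase : p * E.card ≤ 1 / 2
    · have h1 := key E (Finset.Subset.refl _) hcase
      have : 4 * (ζ + p * K * Qu) ≤ p * K * (16 * (ζ + p * K * Qu)) := by nlinarith
      linarith
    · have hcase' : 1 / 2 < p * E.card := not_le.mp hcase
      -- choose a subset of size ⌊1/(2p)⌋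
      set m₀ := ⌊1 / (2 * p)⌋₊ with hm₀
      have hm1 : (m₀ : ℝ) ≤ 1 / (2 * p) := Nat.floor_le (by positivity)
      have hm2 : 1 / (2 * p) < m₀ + 1 := Nat.lt_floor_add_one _
      have hmE : m₀ ≤ E.card := by
        have h3 : (m₀ : ℝ) ≤ E.card := by
          refine le_trans hm1 ?_
          rw [div_le_iff₀ (by positivity)]
          nlinarith
        exact_mod_cast h3
      obtain ⟨D', hD'1, hD'2⟩ := Finset.exists_subset_card_eq hmE
      have hx1 : p * D'.card ≤ 1 / 2 := by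
        rw [hD'2]
        have : p * (m₀ : ℝ) ≤ p * (1 / (2 * p)) := mul_le_mul_of_nonneg_left hm1 hp0
        have e : p * (1 / (2 * p)) = 1 / 2 := by field_simp
        linarith
      have h4 := key D' hD'1 hx1
      rw [hD'2] at h4
      have hx2 : 1 / 4 ≤ p * (m₀ : ℝ) := by
        have h5 : p * (1 / (2 * p)) < p * ((m₀ : ℝ) + 1) := mul_lt_mul_of_pos_left hm2 hp
        have e : p * (1 / (2 * p)) = 1 / 2 := by field_simp
        have := P.hp
        nlinarith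
      have h6 : 1 ≤ 16 * (ζ + p * K * Qu) := by linarith
      have h7 : p * E.card ≤ p * K := mul_le_mul_of_nonneg_left hEcard hp0
      have h8 : 0 ≤ p * K := by positivity
      nlinarith
  -- cancel p
  have h1 : (E.card : ℝ) ≤ K * (16 * (ζ + p * K * Qu)) := by
    have e : p * K * (16 * (ζ + p * K * Qu)) = p * (K * (16 * (ζ + p * K * Qu))) := by ring
    rw [e] at hmain
    exact le_of_mul_le_mul_left hmain hp
  exact h1

/-- Constant `Cf`. -/
noncomputable def cfC (a₁ πc : ℝ) : ℝ := 64 / πc + 16 * a₁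

/-- Constant `Cm`. -/
noncomputable def cmC (a₁ πc : ℝ) : ℝ := 4 * (1 / πc + a₁ * cfC a₁ πc)

/-- H2 -/
lemma Par.H2 (hθ : 0 < θ) {c u : V} (hu : u ∈ CC T c) (hS : Sol T j p c u) :
    ((CC T u \ NN T c).card : ℝ)
      ≤ K * (cfC a₁ πc * (aa T j p c u + TQ T j p (betaSeq p K j) θ πc u)) := by
  have h1 := P.E_le (T := T) hθ c u
  set ζ := PrW p (NN T c) (RB T j u)
  set Qu := TQ T j p (betaSeq p K j) θ πc u
  have hQ0 : 0 ≤ Qu := TQ_nonneg T j P.h0 P.h1 P.hKpos hθ P.hπ u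
  have hπ := P.hπ
  have hKR := P.hKR
  have hζ0 : 0 ≤ ζ := PrW_nonneg P.h0 P.h1 _ _
  have h2 := aa_ge_P1 T j P.h0 P.h1 hu
  have h3 : πc ≤ (1 - p) ^ (NN T c).card := P.world (P.card_world c)
  have h4 : 1 / 4 ≤ PrW p (NN T c) (BB T j c u) := by
    have := P.hβ1
    have : betaSeq p K j / 2 ≤ PrW p (NN T c) (BB T j c u) := hS
    linarith
  have h5 : πc * (1 / 4 * ζ) ≤ aa T j p c u := by
    refine le_trans ?_ h2
    apply mul_le_mul h3 _ (by positivity) (pow_nonneg (by have := P.hlt; linarith) _)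
    exact mul_le_mul_of_nonneg_right h4 hζ0
  have h6 : ζ ≤ (4 / πc) * aa T j p c u := by
    rw [div_mul_eq_mul_div, le_div_iff₀ hπ]
    linarith
  have ha0 : 0 ≤ aa T j p c u := Pr_nonneg P.h0 P.h1 _
  have h7 : p * K * Qu ≤ a₁ * Qu := mul_le_mul_of_nonneg_right P.ha2 hQ0
  refine le_trans h1 ?_
  apply mul_le_mul_of_nonneg_left _ hKR.le
  unfold cfC
  have h8 : 0 ≤ (64 / πc) * Qu := by positivity
  have h9 : 0 ≤ 16 * a₁ * aa T j p c u := by
    have := P.ha₁
    positivity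
  have e : (64 / πc + 16 * a₁) * (aa T j p c u + Qu)
      = 16 * ((4 / πc) * aa T j p c u) + 16 * (a₁ * Qu) + (64 / πc) * Qu + 16 * a₁ * aa T j p c u := by
    field_simp
    ring
  rw [e]
  linarith

/-- H3 -/
lemma Par.H3 (hθ : 0 < θ) {c u : V} (hu : u ∈ CC T c) (hS : Sol T j p c u) (hc : c ∉ CC T u) :
    1 ≤ cmC a₁ πc * (aa T j p c u + TQ T j p (betaSeq p K j) θ πc u) := by
  set Qu := TQ T j p (betaSeq p K j) θ πc u
  have hQ0 : 0 ≤ Qu := TQ_nonneg T j P.h0 P.h1 P.hKpos hθ P.hπ u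
  have ha0 : 0 ≤ aa T j p c u := Pr_nonneg P.h0 P.h1 _
  have hπ := P.hπ
  have hKR := P.hKR
  have h1 := aa_ge_P2 T j P.h0 P.h1 hu hc
  have hcard : (NN T c ∪ CC T u).card ≤ 3 * K + 3 := by
    have h2 := Finset.card_union_le (NN T c) (CC T u)
    have h3 := card_NN_le T c
    have h4 := card_CC_le T u
    omega
  have h5 := P.world hcard
  have h6 := PrW_union_ge P.h0 P.h1 (NN T c) (CC T u) (BB T j c u)
  have h7 : 0 ≤ PrW p (NN T c ∪ CC T u) (BB T j c u) := PrW_nonneg P.h0 P.h1 _ _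
  have h8 : πc * PrW p (NN T c ∪ CC T u) (BB T j c u) ≤ aa T j p c u :=
    le_trans (mul_le_mul_of_nonneg_right h5 h7) h1
  have h9 : PrW p (NN T c ∪ CC T u) (BB T j c u) ≤ (1 / πc) * aa T j p c u := by
    rw [div_mul_eq_mul_div, one_mul, le_div_iff₀ hπ]
    linarith
  have hS' : betaSeq p K j / 2 ≤ PrW p (NN T c) (BB T j c u) := hS
  have hE := P.H2 (T := T) hθ hu hS
  -- p |E| ≤ a₁ Cf (a+Q)
  have hA : 0 ≤ aa T j p c u + Qu := by positivity
  have hCf : 0 ≤ cfC a₁ πc := by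
    unfold cfC
    have := P.ha₁
    positivity
  have h10 : p * ((CC T u \ NN T c).card : ℝ) ≤ a₁ * (cfC a₁ πc * (aa T j p c u + Qu)) := by
    have h11 : p * ((CC T u \ NN T c).card : ℝ) ≤ p * (K * (cfC a₁ πc * (aa T j p c u + Qu))) :=
      mul_le_mul_of_nonneg_left hE P.h0
    have h12 : p * K * (cfC a₁ πc * (aa T j p c u + Qu)) ≤ a₁ * (cfC a₁ πc * (aa T j p c u + Qu)) :=
      mul_le_mul_of_nonneg_right P.ha2 (by positivity)
    calc p * ((CC T u \ NN T c).card : ℝ) ≤ p * (K * (cfC a₁ πc * (aa T j p c u + Qu))) := h11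
      _ = p * K * (cfC a₁ πc * (aa T j p c u + Qu)) := by ring
      _ ≤ _ := h12
  have h13 := P.hβ1
  have h14 : 1 / 4 ≤ (1 / πc) * aa T j p c u + a₁ * (cfC a₁ πc * (aa T j p c u + Qu)) := by linarith
  unfold cmC
  have h15 : (1 / πc) * aa T j p c u ≤ (1 / πc) * (aa T j p c u + Qu) :=
    mul_le_mul_of_nonneg_left (by linarith) (by positivity)
  have e : 4 * (1 / πc + a₁ * cfC a₁ πc) * (aa T j p c u + Qu)
      = 4 * ((1 / πc) * (aa T j p c u + Qu) + a₁ * (cfC a₁ πc * (aa T j p c u + Qu))) := by ring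
  rw [e]
  linarith

/-- H4 -/
lemma Par.H4 {R : ℝ} (hR : Rseq a₁ (j + 1) ≤ R) (u : V) :
    (πc / 4) * ∑ c, bo (u ∈ CC T c ∧ Sol T j p c u)
      ≤ K * R + ∑ c, bo (u ∈ CC T c) * aa T j p c u := by
  have hterm : ∀ c : V, (πc / 4) * bo (u ∈ CC T c ∧ Sol T j p c u)
      ≤ bo (u ∈ CC T c) * aa T j p c u + Pr p (fun S => Piv T j u c (S \ {c, u})) := by
    intro c
    have hP0 : 0 ≤ Pr p (fun S => Piv T j u c (S \ {c, u})) := Pr_nonneg P.h0 P.h1 _
    by_cases h : u ∈ CC T c ∧ Sol T j p c u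
    · rw [bo_of h, bo_of h.1, one_mul, mul_one]
      have h1 := Pr_Piv_ge T j P.h0 P.h1 h.1
      have h2 := aa_ge_piv_sub T j P.h0 P.h1 c u
      have h3 : πc ≤ (1 - p) ^ (NN T c).card := P.world (P.card_world c)
      have h4 : 1 / 4 ≤ PrW p (NN T c) (BB T j c u) := by
        have := P.hβ1
        have : betaSeq p K j / 2 ≤ PrW p (NN T c) (BB T j c u) := h.2
        linarith
      have h5 : πc * (1 / 4) ≤ (1 - p) ^ (NN T c).card * PrW p (NN T c) (BB T j c u) :=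
        mul_le_mul h3 h4 (by norm_num) (pow_nonneg (by have := P.hlt; linarith) _)
      linarith
    · rw [bo_not h, mul_zero]
      have := mul_nonneg (bo_nonneg (u ∈ CC T c)) (Pr_nonneg P.h0 P.h1 (fun S => Asym T j c u (S \ {c, u})))
      have e : aa T j p c u = Pr p (fun S => Asym T j c u (S \ {c, u})) := rfl
      rw [e]
      linarith
  have h1 := Finset.sum_le_sum (fun c (_ : c ∈ (Finset.univ : Finset V)) => hterm c)
  rw [← Finset.mul_sum, Finset.sum_add_distrib] at h1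
  have h2 := sum_Pr_Piv_le T j P.h0 P.h1 u Finset.univ
  have h3 := T.gam_moment P.h0 P.h1 P.ha2 (j + 1) [u]
  have h4 : (K : ℝ) * Rseq a₁ (j + 1) ≤ K * R := mul_le_mul_of_nonneg_left hR P.hKR.le
  linarith

/-- H5 -/
lemma Par.H5 {c u : V} (hu : u ∈ CC T c) (Y : Finset V) (hY : Y ⊆ (CC T c).erase u)
    (hY2 : ∀ y ∈ Y, y ∈ CC T u) :
    (πc / K) * ∑ y ∈ Y, tau T j p c u y ≤ aa T j p c u := by
  have h1 := aa_ge_triples T j P.h0 P.h1 hu Y
    (fun y hy => ⟨(Finset.mem_erase.mp (hY hy)).2, (Finset.mem_erase.mp (hY hy)).1, hY2 y hy⟩)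
    (fun y => Dt T c u y)
    (fun y _ => by
      unfold Dt
      exact Finset.subset_union_left.trans Finset.subset_union_left)
  refine le_trans ?_ h1
  rw [Finset.mul_sum]
  apply Finset.sum_le_sum
  intro y _
  have hτ : 0 ≤ tau T j p c u y := PrW_nonneg P.h0 P.h1 _ _
  change (πc / K) * tau T j p c u y ≤ p * (1 - p) ^ ((Dt T c u y).card - 1) * tau T j p c u y
  apply mul_le_mul_of_nonneg_right _ hτ
  have hpK : 1 / (K : ℝ) ≤ p := by
    rw [div_le_iff₀ P.hKR]; exact P.ha1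
  have hcard : (Dt T c u y).card - 1 ≤ 3 * K + 3 := by
    have := card_Dt_le T c u y; omega
  have h2 : πc ≤ (1 - p) ^ ((Dt T c u y).card - 1) :=
    le_trans P.hπK (pow_le_pow_of_le_one (by have := P.h1; linarith) (by have := P.h0; linarith) hcard)
  have e : πc / K = (1 / (K : ℝ)) * πc := by ring
  rw [e]
  exact mul_le_mul hpK h2 P.hπ.le P.h0

omit P in
/-- A real inequality for the triple bound. -/
lemma tri_real {A1 A2 A3 β x x' π : ℝ} (h01 : 0 ≤ A1) (h11 : A1 ≤ 1) (h02 : 0 ≤ A2) (h12 : A2 ≤ 1)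
    (hA3 : A3 ≤ β) (hβ1 : 1 / 2 ≤ β) (hβ2 : π ≤ 1 - β) (hπ : 0 < π) (hπ1 : π ≤ 1) (hx : 0 ≤ x)
    (hx' : 0 ≤ x') (hA1 : β / 2 - x ≤ A1) (hA2 : β / 2 - x' ≤ A2) :
    π / 16 - x - x' ≤ A1 * A2 * (1 - A3) := by
  have hβ : β ≤ 1 := by linarith
  have h1 : A1 * A2 * π ≤ A1 * A2 * (1 - A3) :=
    mul_le_mul_of_nonneg_left (by linarith) (mul_nonneg h01 h02)
  have h2 : (A1 - β / 2) * A2 ≥ -x := by
    by_cases hc : A1 - β / 2 ≥ 0
    · have := mul_nonneg hc h02
      linarith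
    · push Not at hc
      have h3 : -x ≤ A1 - β / 2 := by linarith
      have h4 : (A1 - β / 2) * A2 ≥ (A1 - β / 2) * 1 :=
        mul_le_mul_of_nonpos_left h12 (le_of_lt hc)
      linarith
  have h3 : (β / 2) * (A2 - β / 2) ≥ -x' := by
    by_cases hc : A2 - β / 2 ≥ 0
    · have := mul_nonneg (by linarith : 0 ≤ β / 2) hc
      linarith
    · push Not at hc
      have h3 : -x' ≤ A2 - β / 2 := by linarith
      have h4 : (β / 2) * (A2 - β / 2) ≥ 1 * (A2 - β / 2) :=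
        mul_le_mul_of_nonpos_right (by linarith) (le_of_lt hc)
      linarith
  have h4 : 1 / 16 - x - x' ≤ A1 * A2 := by
    have e : A1 * A2 = (A1 - β / 2) * A2 + (β / 2) * (A2 - β / 2) + (β / 2) * (β / 2) := by ring
    nlinarith
  have h5 : (1 / 16 - x - x') * π ≤ A1 * A2 * π := mul_le_mul_of_nonneg_right h4 hπ.le
  have h6 : (x + x') * π ≤ (x + x') * 1 := mul_le_mul_of_nonneg_left hπ1 (by linarith)
  nlinarith

omit P in
lemma ind_diff_le (P Q : Finset V → Prop) (S : Finset V) :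
    |ind P S - ind Q S| ≤ ind (fun S => P S ∧ ¬ Q S) S + ind (fun S => Q S ∧ ¬ P S) S := by
  have h1 := ind_nonneg (fun S => P S ∧ ¬ Q S) S
  have h2 := ind_nonneg (fun S => Q S ∧ ¬ P S) S
  by_cases a : P S <;> by_cases b : Q S
  · rw [ind_apply_of a, ind_apply_of b]; simpa using add_nonneg h1 h2
  · rw [ind_apply_of a, ind_apply_not b, ind_apply_of (P := fun S => P S ∧ ¬ Q S) ⟨a, b⟩]
    simp only [sub_zero, abs_one]
    linarith
  · rw [ind_apply_not a, ind_apply_of b, ind_apply_of (P := fun S => Q S ∧ ¬ P S) ⟨b, a⟩]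
    simp only [zero_sub, abs_neg, abs_one]
    linarith
  · rw [ind_apply_not a, ind_apply_not b]; simpa using add_nonneg h1 h2

omit P in
lemma ind_TriQ (c u y : V) (S : Finset V) :
    ind (TriQ T j c u y) S = ind (BB T j c u) S * ind (BB T j u y) S * (1 - ind (BB T j c y) S) := by
  by_cases a : BB T j c u S
  · by_cases b : BB T j u y S
    · by_cases d : BB T j c y S
      · rw [ind_apply_not (P := TriQ T j c u y) (fun h => h.2.2 d), ind_apply_of d]; ring
      · rw [ind_apply_of (P := TriQ T j c u y) ⟨a, b, d⟩, ind_apply_of a, ind_apply_of b, ind_apply_not d]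
        norm_num
    · rw [ind_apply_not (P := TriQ T j c u y) (fun h => b h.2.1), ind_apply_not b]; ring
  · rw [ind_apply_not (P := TriQ T j c u y) (fun h => a h.1), ind_apply_not a]; ring

omit P in
lemma card_NN_sdiff_NN_le {c u : V} (hu : u ∈ CC T c) :
    (NN T u \ NN T c).card ≤ (CC T u \ NN T c).card := by
  apply Finset.card_le_card
  intro z hz
  obtain ⟨hz1, hz2⟩ := Finset.mem_sdiff.mp hz
  rcases Finset.mem_insert.mp hz1 with rfl | hz3
  · exact absurd (mem_NN_of_mem T hu) hz2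
  · exact Finset.mem_sdiff.mpr ⟨hz3, hz2⟩

omit P in
lemma card_NN_sdiff_le {c u : V} (_hu : u ∈ CC T c) :
    ((NN T c \ NN T u).card : ℝ) ≤ ((K : ℝ) - (CC T u).card) + ((CC T u \ NN T c).card : ℝ) := by
  have h1 : (NN T c).card ≤ K + 1 := card_NN_le T c
  have h2 : (NN T u).card = (CC T u).card + 1 := Finset.card_insert_of_notMem (not_mem_CC T u)
  have h3 := Finset.card_sdiff_add_card_inter (NN T c) (NN T u)
  have h4 := Finset.card_sdiff_add_card_inter (NN T u) (NN T c)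
  rw [Finset.inter_comm] at h4
  have h5 : (NN T u \ NN T c).card ≤ (CC T u \ NN T c).card := by
    apply Finset.card_le_card
    intro z hz
    obtain ⟨hz1, hz2⟩ := Finset.mem_sdiff.mp hz
    rcases Finset.mem_insert.mp hz1 with rfl | hz3
    · exact absurd (mem_NN_of_mem T _hu) hz2
    · exact Finset.mem_sdiff.mpr ⟨hz3, hz2⟩
  have h6 : (NN T c \ NN T u).card + (CC T u).card ≤ K + (CC T u \ NN T c).card := by omega
  have h7 : (((NN T c \ NN T u).card + (CC T u).card : ℕ) : ℝ) ≤ ((K + (CC T u \ NN T c).card : ℕ) : ℝ) := by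
    exact_mod_cast h6
  push_cast at h7
  linarith

/-- H6 -/
lemma Par.H6 (hθ : 0 < θ) {c u y : V} (hu : u ∈ CC T c) (hy : y ∈ CC T c)
    (hSu : Sol T j p c u) (_hcu : c ∈ CC T u) (hcy : c ∈ CC T y)
    (hyCu : y ∈ CC T u) (huCy : u ∈ CC T y) (hSuy : Sol T j p u y) :
    πc / 16 - 4 * a₁ * (((CC T u \ NN T c).card : ℝ) / K + ((CC T y \ NN T c).card : ℝ) / K
        + TQ T j p (betaSeq p K j) θ πc u)
      - (1 / πc) * (Cv T j p c u y + Cv T j p y u c)
      - (2 / πc) * (aa T j p u y + aa T j p y u + aa T j p c y + aa T j p y c)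
      ≤ tau T j p c u y := by
  classical
  have h0 := P.h0
  have h1 := P.h1
  have hKR := P.hKR
  have hπ := P.hπ
  set β := betaSeq p K j with hβ
  set Qu := TQ T j p β θ πc u with hQu
  have hQ0 : 0 ≤ Qu := TQ_nonneg T j h0 h1 P.hKpos hθ hπ u
  set D := Dt T c u y with hD
  have hπD : πc ≤ (1 - p) ^ D.card := P.world (card_Dt_le T c u y)
  -- inclusions
  have hNc : NN T c ⊆ D := fun z hz => Finset.mem_union_left _ (Finset.mem_union_left _ hz)
  have hNu : NN T u ⊆ D := fun z hz => Finset.mem_union_left _ (Finset.mem_union_right _ hz)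
  have hNy : NN T y ⊆ D := fun z hz => Finset.mem_union_right _ hz
  have hCcD : CC T c ⊆ D := (CC_subset_NN T c).trans hNc
  have hCuD : CC T u ⊆ D := (CC_subset_NN T u).trans hNu
  have hCyD : CC T y ⊆ D := (CC_subset_NN T y).trans hNy
  -- functions
  set f : Finset V → ℝ := fun S => ind (BB T j c u) (S \ D) with hf
  set h : Finset V → ℝ := fun S => ind (BB T j u y) (S \ D) with hh
  set g : Finset V → ℝ := fun S => ind (BB T j c y) (S \ D) with hg
  have mf : Monotone (ind (BB T j c u)) := ind_mono (fun S S' hs => BB_mono T j c u hs)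
  have mh : Monotone (ind (BB T j u y)) := ind_mono (fun S S' hs => BB_mono T j u y hs)
  have mg : Monotone (ind (BB T j c y)) := ind_mono (fun S S' hs => BB_mono T j c y hs)
  have mh' : Monotone (ind (BB T j y u)) := ind_mono (fun S S' hs => BB_mono T j y u hs)
  have mg' : Monotone (ind (BB T j y c)) := ind_mono (fun S S' hs => BB_mono T j y c hs)
  have hfm : Monotone f := monotone_comp_sdiff mf D
  have hhm : Monotone h := monotone_comp_sdiff mh D
  have hgm : Monotone g := monotone_comp_sdiff mg D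
  have htri := triple_ineq h0 h1 hfm hhm hgm (fun S => ind_nonneg _ _) (fun S => ind_le_one _ _)
    (fun S => ind_nonneg _ _) (fun S => ind_le_one _ _) (fun S => ind_nonneg _ _) (fun S => ind_le_one _ _)
  have etau : Ep p (fun S => f S * h S * (1 - g S)) = tau T j p c u y := by
    unfold tau PrW EW
    congr 1
    funext S
    rw [ind_TriQ]
  rw [etau] at htri
  -- means
  have eA1 : Ep p f = PrW p D (BB T j c u) := rfl
  have eA2 : Ep p h = PrW p D (BB T j u y) := rfl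
  have eA3 : Ep p g = PrW p D (BB T j c y) := rfl
  set eu := ((CC T u \ NN T c).card : ℝ) with heu
  set ey := ((CC T y \ NN T c).card : ℝ) with hey
  set n1 := ((NN T c \ NN T u).card : ℝ) with hn1
  have heu0 : 0 ≤ eu := Nat.cast_nonneg _
  have hey0 : 0 ≤ ey := Nat.cast_nonneg _
  have hn10 : 0 ≤ n1 := Nat.cast_nonneg _
  have hA1 : β / 2 - p * (eu + ey) ≤ PrW p D (BB T j c u) := by
    have h2 := PrW_union_ge h0 h1 (NN T c) (NN T u ∪ NN T y) (BB T j c u)
    have e : NN T c ∪ (NN T u ∪ NN T y) = D := by rw [hD]; unfold Dt; rw [Finset.union_assoc]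
    rw [e] at h2
    have h3 : (((NN T u ∪ NN T y) \ NN T c).card : ℝ) ≤ eu + ey := by
      have h4 : ((NN T u ∪ NN T y) \ NN T c).card ≤ (NN T u \ NN T c).card + (NN T y \ NN T c).card := by
        rw [Finset.union_sdiff_distrib]
        exact Finset.card_union_le _ _
      have h5 := card_NN_sdiff_NN_le hu
      have h6 := card_NN_sdiff_NN_le hy
      rw [heu, hey]
      exact_mod_cast (by omega : ((NN T u ∪ NN T y) \ NN T c).card ≤ (CC T u \ NN T c).card + (CC T y \ NN T c).card)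
    have h7 : β / 2 ≤ PrW p (NN T c) (BB T j c u) := hSu
    have h8 := mul_le_mul_of_nonneg_left h3 h0
    linarith
  have hA2 : β / 2 - p * (2 * n1 + ey) ≤ PrW p D (BB T j u y) := by
    have h2 := PrW_union_ge h0 h1 (NN T u) (NN T c ∪ NN T y) (BB T j u y)
    have e : NN T u ∪ (NN T c ∪ NN T y) = D := by
      rw [hD]; unfold Dt
      ext z; simp only [Finset.mem_union]; tauto
    rw [e] at h2
    have h3 : (((NN T c ∪ NN T y) \ NN T u).card : ℝ) ≤ 2 * n1 + ey := by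
      have h4 : ((NN T c ∪ NN T y) \ NN T u).card ≤ (NN T c \ NN T u).card + (NN T y \ NN T u).card := by
        rw [Finset.union_sdiff_distrib]
        exact Finset.card_union_le _ _
      have h5 : (NN T y \ NN T u).card ≤ (NN T y \ NN T c).card + (NN T c \ NN T u).card := by
        refine le_trans (Finset.card_le_card ?_) (Finset.card_union_le _ _)
        intro z hz
        obtain ⟨hz1, hz2⟩ := Finset.mem_sdiff.mp hz
        by_cases hz3 : z ∈ NN T c
        · exact Finset.mem_union_right _ (Finset.mem_sdiff.mpr ⟨hz3, hz2⟩)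
        · exact Finset.mem_union_left _ (Finset.mem_sdiff.mpr ⟨hz1, hz3⟩)
      have h6 := card_NN_sdiff_NN_le hy
      rw [hn1, hey]
      have h7 : ((NN T c ∪ NN T y) \ NN T u).card ≤ 2 * (NN T c \ NN T u).card + (CC T y \ NN T c).card := by omega
      exact_mod_cast h7
    have h7 : β / 2 ≤ PrW p (NN T u) (BB T j u y) := hSuy
    have h8 := mul_le_mul_of_nonneg_left h3 h0
    linarith
  have hA3 : PrW p D (BB T j c y) ≤ β := PrW_BB_le T j h0 h1 c y D
  have hmain := tri_real (PrW_nonneg h0 h1 D (BB T j c u)) (PrW_le_one h0 h1 D _)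
    (PrW_nonneg h0 h1 D (BB T j u y)) (PrW_le_one h0 h1 D _) hA3 P.hβ1 P.hβ2 hπ P.hπ1
    (mul_nonneg h0 (add_nonneg heu0 hey0)) (mul_nonneg h0 (by positivity)) hA1 hA2
  -- bound of the error terms
  have hn1le : n1 ≤ 2 * K * Qu + eu := by
    have h2 := card_NN_sdiff_le hu
    have h3 := P.H0 (T := T) hθ u
    linarith
  have hx : p * (eu + ey) + p * (2 * n1 + ey)
      ≤ 4 * a₁ * (eu / K + ey / K + Qu) := by
    have h2 : p * (eu + ey) + p * (2 * n1 + ey) ≤ p * (3 * eu + 2 * ey + 4 * K * Qu) := by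
      have := mul_le_mul_of_nonneg_left hn1le h0
      nlinarith
    have e : p * (3 * eu + 2 * ey + 4 * K * Qu) = (p * K) * (3 * (eu / K) + 2 * (ey / K) + 4 * Qu) := by
      field_simp
    have hf0 : 0 ≤ eu / K := by positivity
    have hf1 : 0 ≤ ey / K := by positivity
    have h3 : (p * K) * (3 * (eu / K) + 2 * (ey / K) + 4 * Qu) ≤ a₁ * (3 * (eu / K) + 2 * (ey / K) + 4 * Qu) :=
      mul_le_mul_of_nonneg_right P.ha2 (by positivity)
    have h4 : a₁ * (3 * (eu / K) + 2 * (ey / K) + 4 * Qu) ≤ a₁ * (4 * (eu / K + ey / K + Qu)) := by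
      apply mul_le_mul_of_nonneg_left _ (by have := P.ha₁; linarith)
      linarith
    rw [e] at h2
    linarith
  -- covariance bounds
  have hCf : Cov p f g ≤ (1 / πc) * Cv T j p c u y := by
    have h2 := Cov_world h0 h1 D mf mg
    have h3 : 0 ≤ Cov p f g := Cov_nonneg h0 h1 hfm hgm
    have h4 : πc * Cov p f g ≤ Cv T j p c u y :=
      le_trans (mul_le_mul_of_nonneg_right hπD h3) h2
    rw [div_mul_eq_mul_div, one_mul, le_div_iff₀ hπ]
    linarith
  set h' : Finset V → ℝ := fun S => ind (BB T j y u) (S \ D) with hh'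
  set g' : Finset V → ℝ := fun S => ind (BB T j y c) (S \ D) with hg'
  have hh'm : Monotone h' := monotone_comp_sdiff mh' D
  have hg'm : Monotone g' := monotone_comp_sdiff mg' D
  have hCh' : Cov p h' g' ≤ (1 / πc) * Cv T j p y u c := by
    have h2 := Cov_world h0 h1 D mh' mg'
    have h3 : 0 ≤ Cov p h' g' := Cov_nonneg h0 h1 hh'm hg'm
    have h4 : πc * Cov p h' g' ≤ Cv T j p y u c :=
      le_trans (mul_le_mul_of_nonneg_right hπD h3) h2
    rw [div_mul_eq_mul_div, one_mul, le_div_iff₀ hπ]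
    linarith
  have hpert := Cov_perturb h0 h1 (f := h) (g := g) (f' := h') (g' := g')
    (δf := fun S => ind (fun S => BB T j u y S ∧ ¬ BB T j y u S) (S \ D)
      + ind (fun S => BB T j y u S ∧ ¬ BB T j u y S) (S \ D))
    (δg := fun S => ind (fun S => BB T j c y S ∧ ¬ BB T j y c S) (S \ D)
      + ind (fun S => BB T j y c S ∧ ¬ BB T j c y S) (S \ D))
    (fun S => ⟨ind_nonneg _ _, ind_le_one _ _⟩) (fun S => ⟨ind_nonneg _ _, ind_le_one _ _⟩)
    (fun S => ⟨ind_nonneg _ _, ind_le_one _ _⟩) (fun S => ⟨ind_nonneg _ _, ind_le_one _ _⟩)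
    (fun S => ind_diff_le _ _ _) (fun S => ind_diff_le _ _ _)
  have hsym : ∀ {x w : V}, w ∈ CC T x → NN T x ⊆ D → CC T w ⊆ D →
      PrW p D (fun S => BB T j x w S ∧ ¬ BB T j w x S) ≤ (1 / πc) * aa T j p x w := by
    intro x w hw h2 h3
    have h4 := aa_ge_sym T j h0 h1 hw D h2 h3
    have h5 : 0 ≤ PrW p D (fun S => BB T j x w S ∧ ¬ BB T j w x S) := PrW_nonneg h0 h1 _ _
    rw [div_mul_eq_mul_div, one_mul, le_div_iff₀ hπ]
    have := mul_le_mul_of_nonneg_right hπD h5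
    linarith
  have s1 := hsym hyCu hNu hCyD
  have s2 := hsym huCy hNy hCuD
  have s3 := hsym hy hNc hCyD
  have s4 := hsym hcy hNy hCcD
  have eδ1 : Ep p (fun S => ind (fun S => BB T j u y S ∧ ¬ BB T j y u S) (S \ D)
      + ind (fun S => BB T j y u S ∧ ¬ BB T j u y S) (S \ D))
      = PrW p D (fun S => BB T j u y S ∧ ¬ BB T j y u S) + PrW p D (fun S => BB T j y u S ∧ ¬ BB T j u y S) := by
    rw [Ep_add]; rfl
  have eδ2 : Ep p (fun S => ind (fun S => BB T j c y S ∧ ¬ BB T j y c S) (S \ D)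
      + ind (fun S => BB T j y c S ∧ ¬ BB T j c y S) (S \ D))
      = PrW p D (fun S => BB T j c y S ∧ ¬ BB T j y c S) + PrW p D (fun S => BB T j y c S ∧ ¬ BB T j c y S) := by
    rw [Ep_add]; rfl
  rw [eδ1, eδ2] at hpert
  rw [eA1, eA2, eA3] at htri
  have e3 : (2 / πc) * (aa T j p u y + aa T j p y u + aa T j p c y + aa T j p y c)
      = 2 * ((1 / πc) * aa T j p u y + (1 / πc) * aa T j p y u + (1 / πc) * aa T j p c y + (1 / πc) * aa T j p y c) := by
    ring
  have e4 : (1 / πc) * (Cv T j p c u y + Cv T j p y u c) = (1 / πc) * Cv T j p c u y + (1 / πc) * Cv T j p y u c := by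
    ring
  rw [e3, e4]
  linarith

/-- H7 -/
lemma Par.H7 (hθ : 0 < θ) (x : V) :
    ∑ y ∈ CC T x, ∑ z ∈ (CC T x).erase y, Cv T j p x y z
      ≤ (K : ℝ) ^ 2 * TQ T j p (betaSeq p K j) θ πc x := by
  have hKR := P.hKR
  have hK2 : (0 : ℝ) < (K : ℝ) ^ 2 := by positivity
  have e : ∑ y ∈ CC T x, ∑ z ∈ (CC T x).erase y, Cv T j p x y z = (K : ℝ) ^ 2 * vv T j p x := by
    unfold vv
    field_simp
  rw [e]
  apply mul_le_mul_of_nonneg_left _ hK2.le
  unfold TQ
  have a1 := dd_nonneg T j P.h0 P.h1 P.hKpos x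
  have a2 := vv_nonneg T j P.h0 P.h1 x
  have hπ := P.hπ
  have h3 : 0 ≤ θ * (vv T j p x + 1 / K) / (2 * πc) := by positivity
  have h4 : 0 ≤ 1 / (2 * θ) := by positivity
  linarith

omit P in
lemma cfC_nonneg (ha : 1 ≤ a₁) (hπ : 0 < πc) : 0 ≤ cfC a₁ πc := by
  unfold cfC; positivity

omit P in
lemma cmC_nonneg (ha : 1 ≤ a₁) (hπ : 0 < πc) : 0 ≤ cmC a₁ πc := by
  have := cfC_nonneg ha hπ
  unfold cmC; positivity

/-- The counting data of a tree system. -/
noncomputable def Par.cd (hθ : 0 < θ) {R : ℝ} (hR0 : 0 ≤ R) (hR : Rseq a₁ (j + 1) ≤ R) : CD V where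
  K := K
  hK := P.hKpos
  C := CC T
  hC := card_CC_le T
  hirr := not_mem_CC T
  a := aa T j p
  ha := fun x y => Pr_nonneg P.h0 P.h1 _
  Q := TQ T j p (betaSeq p K j) θ πc
  hQ := TQ_nonneg T j P.h0 P.h1 P.hKpos hθ P.hπ
  Sol := Sol T j p
  Cv := Cv T j p
  hCv := Cv_nonneg T j P.h0 P.h1
  τ := tau T j p
  hτ := fun c u y => PrW_nonneg P.h0 P.h1 _ _
  Cf := cfC a₁ πc
  hCf := cfC_nonneg P.ha₁ P.hπ
  Cm := cmC a₁ πc
  hCm := cmC_nonneg P.ha₁ P.hπ
  R := R
  hR := hR0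
  π₀ := πc / 4
  hπ₀ := by have := P.hπ; positivity
  κ₁ := πc
  hκ₁ := P.hπ.le
  M := πc / 16
  hM := by have := P.hπ; positivity
  E₁ := 4 * a₁
  hE₁ := by have := P.ha₁; positivity
  E₂ := 1 / πc
  hE₂ := by have := P.hπ; positivity
  E₃ := 2 / πc
  hE₃ := by have := P.hπ; positivity
  H0 := P.H0 hθ
  H1 := P.H1 hθ
  H2 := fun c u hu hS => P.H2 hθ hu hS
  H3 := fun c u hu hS hc => P.H3 hθ hu hS hc
  H4 := P.H4 hR
  H5 := fun c u hu Y hY hY2 => P.H5 hu Y hY hY2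
  H6 := fun c u y hu hy _ hSu _ hcu hcy hyCu huCy hSuy => P.H6 hθ hu hy hSu hcu hcy hyCu huCy hSuy
  H7 := P.H7 hθ

omit P

/-- Constant `GG`. -/
noncomputable def GGc (a₁ πc : ℝ) : ℝ :=
  2 * (πc / 16) * (cmC a₁ πc + cfC a₁ πc + 6) + 4 * a₁ * (2 * cfC a₁ πc + 1)

/-- Constant `CA`. -/
noncomputable def CAc (a₁ πc : ℝ) : ℝ :=
  2 * (πc / 16) * (2 / (πc / 4)) + GGc a₁ πc + 4 * (2 / πc)

/-- The absolute constant in the asymmetry bound. -/
noncomputable def Astar (a₁ πc : ℝ) : ℝ :=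
  πc * (πc / 16) / (2 * (1 + πc * CAc a₁ πc))

lemma GGc_nonneg (ha : 1 ≤ a₁) (hπ : 0 < πc) : 0 ≤ GGc a₁ πc := by
  have := cfC_nonneg ha hπ
  have := cmC_nonneg ha hπ
  unfold GGc; positivity

lemma CAc_nonneg (ha : 1 ≤ a₁) (hπ : 0 < πc) : 0 ≤ CAc a₁ πc := by
  have := GGc_nonneg ha hπ
  unfold CAc; positivity

lemma Astar_pos (ha : 1 ≤ a₁) (hπ : 0 < πc) : 0 < Astar a₁ πc := by
  have := CAc_nonneg ha hπ
  unfold Astar; positivity

/-- Form of the final bound with explicit constants. -/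
lemma Par.asym_of_TT (P : Par p a₁ πc K j) (hθ : 0 < θ) {R t₀ : ℝ} (hR0 : 0 ≤ R) (hR : Rseq a₁ (j + 1) ≤ R)
    (hTT : ∑ x, TQ T j p (betaSeq p K j) θ πc x ≤ (Fintype.card V : ℝ) * t₀)
    (hCT : (12 * (πc / 16) + GGc a₁ πc * (2 * R / (πc / 4)) + 2 * (1 / πc)) * t₀ ≤ (πc / 16) / 4) :
    Astar a₁ πc * (Fintype.card V : ℝ) * K ≤ ∑ c, ∑ u ∈ CC T c, aa T j p c u := by
  have hfin := (P.cd (T := T) hθ hR0 hR).final_bound P.hK hTT hCT
  change πc * (πc / 16) * (Fintype.card V : ℝ) * (K : ℝ) / 2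
    ≤ (∑ c, ∑ u ∈ CC T c, aa T j p c u) * (1 + πc * CAc a₁ πc) at hfin
  have hπ := P.hπ
  have hCA := CAc_nonneg P.ha₁ hπ
  unfold Astar
  rw [div_mul_eq_mul_div, div_mul_eq_mul_div, div_le_iff₀ (by positivity)]
  nlinarith

/-- Constants of the asymmetry theorem. -/
noncomputable def c1c (a₁ πc : ℝ) : ℝ :=
  12 * (πc / 16) + GGc a₁ πc * (2 / (πc / 4)) + 2 * (1 / πc)

/-- Constants of the asymmetry theorem. -/
noncomputable def t1c (a₁ πc : ℝ) : ℝ := (πc / 16) / (4 * c1c a₁ πc)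

/-- Constants of the asymmetry theorem. -/
noncomputable def c2c (t₁ πc : ℝ) : ℝ :=
  1 / πc + 48 * (1 + 1 / (t₁ * πc)) ^ 3 / (πc * t₁ ^ 2) + 1 / (t₁ * πc)

lemma asym_params {πc t₁ s : ℝ} (hπ : 0 < πc) (ht₁ : 0 < t₁) (hs1 : 1 ≤ s) :
    ∃ θ θ' : ℝ, 0 < θ ∧ 0 < θ' ∧ (1 + θ / (2 * πc)) * θ' + 1 / (2 * θ) = t₁ / (2 * s) ∧
      1 / πc + (1 + θ / (2 * πc)) * (3 / (πc * θ' ^ 2)) + θ / (2 * πc) ≤ c2c t₁ πc * s ^ 5 := by
  have hs0 : 0 < s := by linarith
  set a₂ := 1 + 1 / (t₁ * πc) with ha₂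
  have ha₂0 : 1 ≤ a₂ := by
    have : 0 ≤ 1 / (t₁ * πc) := by positivity
    linarith
  set θ := 2 * s / t₁ with hθ
  have hθ0 : 0 < θ := by positivity
  set A := 1 + θ / (2 * πc) with hA
  have hA1 : 1 ≤ A := by
    have : 0 ≤ θ / (2 * πc) := by positivity
    linarith
  have hA0 : 0 < A := by linarith
  set θ' := (t₁ / (4 * s)) / A with hθ'
  have hθ'0 : 0 < θ' := by positivity
  refine ⟨θ, θ', hθ0, hθ'0, ?_, ?_⟩
  · show A * θ' + 1 / (2 * θ) = t₁ / (2 * s)
    have e1 : A * θ' = t₁ / (4 * s) := by rw [hθ']; field_simp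
    have e2 : 1 / (2 * θ) = t₁ / (4 * s) := by
      rw [hθ]; field_simp; ring
    rw [e1, e2]; field_simp; ring
  · show 1 / πc + A * (3 / (πc * θ' ^ 2)) + θ / (2 * πc) ≤ c2c t₁ πc * s ^ 5
    have hAle : A ≤ s * a₂ := by
      rw [hA, ha₂, hθ]
      have e : 2 * s / t₁ / (2 * πc) = s * (1 / (t₁ * πc)) := by
        field_simp
      rw [e]
      have : 0 ≤ 1 / (t₁ * πc) := by positivity
      nlinarith
    have e1 : A * (3 / (πc * θ' ^ 2)) = 48 * s ^ 2 * A ^ 3 / (πc * t₁ ^ 2) := by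
      rw [hθ']
      field_simp
      ring
    have e2 : θ / (2 * πc) = s * (1 / (t₁ * πc)) := by
      rw [hθ]
      field_simp
    rw [e1, e2]
    unfold c2c
    rw [← ha₂]
    have hs5 : 1 ≤ s ^ 5 := one_le_pow₀ hs1
    have hs4 : s ≤ s ^ 5 := by
      calc s = s ^ 1 := (pow_one s).symm
        _ ≤ s ^ 5 := pow_le_pow_right₀ hs1 (by norm_num)
    have h1 : 1 / πc ≤ (1 / πc) * s ^ 5 := by
      have : 0 ≤ 1 / πc := by positivity
      nlinarith
    have h2 : s * (1 / (t₁ * πc)) ≤ (1 / (t₁ * πc)) * s ^ 5 := by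
      have : 0 ≤ 1 / (t₁ * πc) := by positivity
      nlinarith
    have h3 : 48 * s ^ 2 * A ^ 3 / (πc * t₁ ^ 2) ≤ (48 * a₂ ^ 3 / (πc * t₁ ^ 2)) * s ^ 5 := by
      have h4 : A ^ 3 ≤ (s * a₂) ^ 3 := pow_le_pow_left₀ hA0.le hAle 3
      have e3 : (48 * a₂ ^ 3 / (πc * t₁ ^ 2)) * s ^ 5 = 48 * s ^ 2 * (s * a₂) ^ 3 / (πc * t₁ ^ 2) := by
        field_simp
      rw [e3]
      apply div_le_div_of_nonneg_right _ (by positivity)
      exact mul_le_mul_of_nonneg_left h4 (by positivity)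
    linarith

lemma sum_TQ_bound (P : Par p a₁ πc K j) {θ θ' t₁ s c₂ ε : ℝ} (hθ : 0 < θ) (hθ' : 0 < θ') (ht₁ : 0 < t₁)
    (hs : 0 < s) (hc₂ : 0 < c₂) (hε : ε = (t₁ / (4 * c₂)) / s ^ 6)
    (hB : (1 + θ / (2 * πc)) * θ' + 1 / (2 * θ) = t₁ / (2 * s))
    (hC : 1 / πc + (1 + θ / (2 * πc)) * (3 / (πc * θ' ^ 2)) + θ / (2 * πc) ≤ c₂ * s ^ 5)
    (hK1 : 1 / (K : ℝ) ≤ ε)
    (hexc : ∑ x, exc T j p x ≤ ε * (Fintype.card V : ℝ)) :
    ∑ x, TQ T j p (betaSeq p K j) θ πc x ≤ (Fintype.card V : ℝ) * (t₁ / s) := by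
  have hπ := P.hπ
  have hπK : πc ≤ (1 - p) ^ K :=
    le_trans P.hπK (pow_le_pow_of_le_one (by have := P.h1; linarith) (by have := P.h0; linarith) (by omega))
  have hQ := fun x => TQ_le_exc T j P.h0 P.h1 P.hKpos P.ha1 hπ hπK hθ hθ' x
  set Cτ := 1 / πc + (1 + θ / (2 * πc)) * (3 / (πc * θ' ^ 2)) + θ / (2 * πc) with hCτ
  have hCτ0 : 0 ≤ Cτ := by positivity
  set n : ℝ := (Fintype.card V : ℝ) with hn
  have hn0 : 0 ≤ n := Nat.cast_nonneg _
  have hε0 : 0 < ε := by rw [hε]; positivity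
  have h2 : ∑ x, TQ T j p (betaSeq p K j) θ πc x
      ≤ ∑ x : V, (((1 + θ / (2 * πc)) * θ' + 1 / (2 * θ)) + Cτ * (exc T j p x + 1 / K)) :=
    Finset.sum_le_sum (fun x _ => hQ x)
  have h3 : ∑ x : V, (((1 + θ / (2 * πc)) * θ' + 1 / (2 * θ)) + Cτ * (exc T j p x + 1 / K))
      = n * (t₁ / (2 * s)) + Cτ * (∑ x, exc T j p x + n * (1 / K)) := by
    have e : ∀ x : V, ((1 + θ / (2 * πc)) * θ' + 1 / (2 * θ)) + Cτ * (exc T j p x + 1 / K)
        = (t₁ / (2 * s) + Cτ * (1 / K)) + Cτ * exc T j p x := by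
      intro x; rw [hB]; ring
    rw [Finset.sum_congr rfl (fun x _ => e x), Finset.sum_add_distrib, ← Finset.mul_sum,
      Finset.sum_const, Finset.card_univ, nsmul_eq_mul]
    ring
  have h4 : ∑ x, exc T j p x + n * (1 / K) ≤ 2 * (ε * n) := by
    have := mul_le_mul_of_nonneg_left hK1 hn0
    nlinarith
  have hε2 : 0 ≤ 2 * (ε * n) := by positivity
  have h5 : Cτ * (∑ x, exc T j p x + n * (1 / K)) ≤ (c₂ * s ^ 5) * (2 * (ε * n)) :=
    le_trans (mul_le_mul_of_nonneg_left h4 hCτ0) (mul_le_mul_of_nonneg_right hC hε2)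
  have h6 : (c₂ * s ^ 5) * (2 * (ε * n)) = n * (t₁ / (2 * s)) := by
    rw [hε]
    field_simp
    ring
  have h7 : n * (t₁ / (2 * s)) + n * (t₁ / (2 * s)) = n * (t₁ / s) := by
    field_simp
    ring
  linarith

/-- The main asymmetry theorem: a nearly tight tree system has many asymmetric pivots. -/
theorem asym_main (ha : 1 ≤ a₁) (hπ : 0 < πc) :
    ∃ c₀ : ℝ, 0 < c₀ ∧ ∀ R : ℝ, 0 ≤ R → ∀ (K j : ℕ) (p : ℝ), (1 + R) ^ 6 / c₀ ≤ K →
      Par p a₁ πc K j → Rseq a₁ (j + 1) ≤ R →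
      ∀ (V : Type) [Fintype V] [DecidableEq V] (T : TS V K),
        ∑ x, exc T j p x ≤ (c₀ / (1 + R) ^ 6) * (Fintype.card V : ℝ) →
        Astar a₁ πc * (Fintype.card V : ℝ) * K ≤ ∑ c, ∑ u ∈ CC T c, aa T j p c u := by
  have hG := GGc_nonneg ha hπ
  have hc₁0 : 0 < c1c a₁ πc := by unfold c1c; positivity
  have ht₁0 : 0 < t1c a₁ πc := by unfold t1c; positivity
  set t₁ := t1c a₁ πc with ht₁
  have hc₂0 : 0 < c2c t₁ πc := by unfold c2c; positivity
  set c₂ := c2c t₁ πc with hc₂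
  refine ⟨t₁ / (4 * c₂), by positivity, ?_⟩
  intro R hR K j p hK P hRj V _ _ T hexc
  have hs1 : 1 ≤ 1 + R := by linarith
  have hs0 : 0 < 1 + R := by linarith
  have hKR : (0 : ℝ) < K := P.hKR
  have hK1 : 1 / (K : ℝ) ≤ (t₁ / (4 * c₂)) / (1 + R) ^ 6 := by
    rw [div_le_iff₀ hKR]
    have e : t₁ / (4 * c₂) / (1 + R) ^ 6 * K = K / ((1 + R) ^ 6 / (t₁ / (4 * c₂))) := by
      field_simp
    rw [e, le_div_iff₀ (by positivity)]
    linarith
  obtain ⟨θ, θ', hθ, hθ', hB, hC⟩ := asym_params hπ ht₁0 hs1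
  have hTT := sum_TQ_bound (T := T) P hθ hθ' ht₁0 hs0 hc₂0 rfl hB hC hK1 hexc
  refine P.asym_of_TT hθ hR hRj hTT ?_
  have h1 : 12 * (πc / 16) + GGc a₁ πc * (2 * R / (πc / 4)) + 2 * (1 / πc) ≤ c1c a₁ πc * (1 + R) := by
    unfold c1c
    have h2 : GGc a₁ πc * (2 * R / (πc / 4)) = (GGc a₁ πc * (2 / (πc / 4))) * R := by
      field_simp
    rw [h2]
    have h3 : 0 ≤ GGc a₁ πc * (2 / (πc / 4)) := by positivity
    have h4 : 0 ≤ 12 * (πc / 16) + 2 * (1 / πc) := by positivity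
    nlinarith
  have hCT0 : 0 ≤ t₁ / (1 + R) := by positivity
  have h2 := mul_le_mul_of_nonneg_right h1 hCT0
  have e3 : c1c a₁ πc * (1 + R) * (t₁ / (1 + R)) = (πc / 16) / 4 := by
    rw [ht₁]
    unfold t1c
    field_simp
  linarith

end Vale.Agent.Lib.P336_h66
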