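/-
P336 PART C, first half (helper16): the satisfiability coding (Kraft) lemma for level maps,
extraction of critical trees from a CNF with isolated solutions, and the resulting bound
on the number of isolated solutions from a universal exponential-moment bound.
-/
import Vale.Agent.Lib.P336_h66.Defs

namespace Vale.Agent.Lib.P336_h66

open Finset

section CNF

variable {V : Type} [Fintype V] [DecidableEq V]

/-- A clause (a set of literals, a literal being a variable with its required value) is satisfied
by `x` if one of its literals is true at `x`. -/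
def ClauseSat (D : Finset (V × Bool)) (x : V → Bool) : Prop := ∃ l ∈ D, x l.1 = l.2

/-- No complementary pair of literals. -/
def NoCompl (D : Finset (V × Bool)) : Prop := ∀ v b, (v, b) ∈ D → (v, !b) ∉ D

/-- `v` is determined at `x` relative to `A` and the level map `τ`. -/
def Det {M : ℕ} (τ : V → Fin M) (A : Finset (V → Bool)) (x : V → Bool) (v : V) : Prop :=
  ∀ y ∈ A, (∀ w, w ∉ later τ v → w ≠ v → y w = x w) → y v = x v

omit [Fintype V] in
lemma Det.mono' {M : ℕ} [Fintype V] {τ : V → Fin M} {A B : Finset (V → Bool)} (h : A ⊆ B) {x : V → Bool} {v : V}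
    (hd : Det τ B x v) : Det τ A x v := fun y hy hag => hd y (h hy) hag

open Classical in
theorem kraft_aux {M : ℕ} (τ : V → Fin M) : ∀ (n : ℕ) (S : Finset V), S.card = n →
    ∀ A : Finset (V → Bool), (∀ x ∈ A, ∀ y ∈ A, ∀ w, w ∉ S → x w = y w) →
    ∑ x ∈ A, 2 ^ (S.filter (Det τ A x)).card ≤ 2 ^ n := by
  intro n
  induction n with
  | zero =>
    intro S hS A hA
    have hS' : S = ∅ := Finset.card_eq_zero.mp hS
    subst hS'
    have hle : A.card ≤ 1 := by
      rw [Finset.card_le_one]
      intro a ha b hb
      funext w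
      exact hA a ha b hb w (by simp)
    simpa using hle
  | succ n ih =>
    intro S hS A hA
    have hne : S.Nonempty := by
      rw [← Finset.card_pos]; omega
    obtain ⟨v, hvS, hmin⟩ := Finset.exists_min_image S τ hne
    have hS' : (S.erase v).card = n := by
      rw [Finset.card_erase_of_mem hvS]; omega
    by_cases hsame : ∀ x ∈ A, ∀ y ∈ A, x v = y v
    · -- all agree at v
      have hA' : ∀ x ∈ A, ∀ y ∈ A, ∀ w, w ∉ S.erase v → x w = y w := by
        intro x hx y hy w hw
        by_cases hwv : w = v
        · subst hwv; exact hsame x hx y hy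
        · exact hA x hx y hy w (fun hwS => hw (Finset.mem_erase.mpr ⟨hwv, hwS⟩))
      have key := ih (S.erase v) hS' A hA'
      have hle : ∀ x ∈ A, 2 ^ (S.filter (Det τ A x)).card ≤
          2 * 2 ^ ((S.erase v).filter (Det τ A x)).card := by
        intro x _
        have hsub : S.filter (Det τ A x) ⊆ insert v ((S.erase v).filter (Det τ A x)) := by
          intro w hw
          rw [Finset.mem_filter] at hw
          by_cases hwv : w = v
          · subst hwv; exact Finset.mem_insert_self _ _
          · exact Finset.mem_insert_of_mem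
              (Finset.mem_filter.mpr ⟨Finset.mem_erase.mpr ⟨hwv, hw.1⟩, hw.2⟩)
        have hcard := (Finset.card_le_card hsub).trans (Finset.card_insert_le _ _)
        calc 2 ^ (S.filter (Det τ A x)).card
            ≤ 2 ^ (((S.erase v).filter (Det τ A x)).card + 1) :=
              Nat.pow_le_pow_right (by norm_num) hcard
          _ = 2 * 2 ^ ((S.erase v).filter (Det τ A x)).card := by ring
      calc ∑ x ∈ A, 2 ^ (S.filter (Det τ A x)).card
          ≤ ∑ x ∈ A, 2 * 2 ^ ((S.erase v).filter (Det τ A x)).card := Finset.sum_le_sum hle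
        _ = 2 * ∑ x ∈ A, 2 ^ ((S.erase v).filter (Det τ A x)).card := by rw [Finset.mul_sum]
        _ ≤ 2 * 2 ^ n := Nat.mul_le_mul_left _ key
        _ = 2 ^ (n + 1) := by ring
    · -- two elements differ at v: v is never determined
      push Not at hsame
      obtain ⟨a, ha, b, hb, hab⟩ := hsame
      have hnotdet : ∀ x ∈ A, ¬ Det τ A x v := by
        intro x hx hdet
        have hlater : ∀ z ∈ A, ∀ w, w ∉ later τ v → w ≠ v → z w = x w := by
          intro z hz w hw hwv
          apply hA z hz x hx w
          intro hwS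
          apply hw
          simp only [later, Finset.mem_filter, Finset.mem_univ, true_and]
          exact ⟨hwv, hmin w hwS⟩
        have h1 := hdet a ha (hlater a ha)
        have h2 := hdet b hb (hlater b hb)
        exact hab (h1.trans h2.symm)
      -- split by the value at v
      set A₁ := A.filter (fun y => y v = true) with hA₁
      set A₀ := A.filter (fun y => ¬ y v = true) with hA₀
      have hA₁sub : A₁ ⊆ A := Finset.filter_subset _ _
      have hA₀sub : A₀ ⊆ A := Finset.filter_subset _ _
      have hagree : ∀ (A' : Finset (V → Bool)), A' ⊆ A → (∀ x ∈ A', ∀ y ∈ A', x v = y v) →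
          ∀ x ∈ A', ∀ y ∈ A', ∀ w, w ∉ S.erase v → x w = y w := by
        intro A' hsub hsame x hx y hy w hw
        by_cases hwv : w = v
        · subst hwv; exact hsame x hx y hy
        · exact hA x (hsub hx) y (hsub hy) w (fun hwS => hw (Finset.mem_erase.mpr ⟨hwv, hwS⟩))
      have key₁ := ih (S.erase v) hS' A₁ (hagree A₁ hA₁sub (by
        intro x hx y hy
        have hx' := (Finset.mem_filter.mp hx).2
        have hy' := (Finset.mem_filter.mp hy).2
        rw [hx', hy']))
      have key₀ := ih (S.erase v) hS' A₀ (hagree A₀ hA₀sub (by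
        intro x hx y hy
        have hx' := (Finset.mem_filter.mp hx).2
        have hy' := (Finset.mem_filter.mp hy).2
        simp only [Bool.not_eq_true] at hx' hy'
        rw [hx', hy']))
      have hle : ∀ (A' : Finset (V → Bool)), A' ⊆ A → ∀ x ∈ A',
          2 ^ (S.filter (Det τ A x)).card ≤ 2 ^ ((S.erase v).filter (Det τ A' x)).card := by
        intro A' hsub x hx
        apply Nat.pow_le_pow_right (by norm_num)
        apply Finset.card_le_card
        intro w hw
        rw [Finset.mem_filter] at hw ⊢
        have hwv : w ≠ v := by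
          rintro rfl
          exact hnotdet x (hsub hx) hw.2
        exact ⟨Finset.mem_erase.mpr ⟨hwv, hw.1⟩, Det.mono' hsub hw.2⟩
      calc ∑ x ∈ A, 2 ^ (S.filter (Det τ A x)).card
          = ∑ x ∈ A₁, 2 ^ (S.filter (Det τ A x)).card
            + ∑ x ∈ A₀, 2 ^ (S.filter (Det τ A x)).card := by
              rw [hA₁, hA₀, Finset.sum_filter_add_sum_filter_not]
        _ ≤ ∑ x ∈ A₁, 2 ^ ((S.erase v).filter (Det τ A₁ x)).card
            + ∑ x ∈ A₀, 2 ^ ((S.erase v).filter (Det τ A₀ x)).card :=
              Nat.add_le_add (Finset.sum_le_sum (hle A₁ hA₁sub))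
                (Finset.sum_le_sum (hle A₀ hA₀sub))
        _ ≤ 2 ^ n + 2 ^ n := Nat.add_le_add key₁ key₀
        _ = 2 ^ (n + 1) := by ring

open Classical in
/-- The satisfiability coding lemma for level maps. -/
theorem kraft {M : ℕ} (τ : V → Fin M) (A : Finset (V → Bool)) :
    ∑ x ∈ A, 2 ^ (Finset.univ.filter (Det τ A x)).card ≤ 2 ^ Fintype.card V :=
  kraft_aux τ _ Finset.univ Finset.card_univ A (fun _ _ _ _ w hw => absurd (Finset.mem_univ w) hw)

/-- Flip `x` on the variables of the list `Φ`. -/
def flipOn (x : V → Bool) (Φ : List V) : V → Bool := fun w => if w ∈ Φ then !x w else x w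

open Classical in
/-- Tree extraction and the forcing property. -/
theorem exists_tree (φ : Finset (Finset (V × Bool))) (x : V → Bool) (K d : ℕ)
    (hiso : ∀ Φ : List V, Φ.Nodup → Φ ≠ [] → Φ.length ≤ d → ∃ D ∈ φ, ¬ ClauseSat D (flipOn x Φ))
    (hwide : ∀ D ∈ φ, NoCompl D → K < D.card → d < (D.filter (fun l => x l.1 = l.2)).card) :
    ∃ T : TS V K, ∀ {M : ℕ} (τ : V → Fin M) (v : V) (y : V → Bool),
      (∀ D ∈ φ, ClauseSat D y) → (∀ w, w ∉ later τ v → w ≠ v → y w = x w) → y v ≠ x v →
      T.bad (later τ v) d [v] := by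
  -- the chosen clause
  let Good : List V → Prop := fun Φ => Φ.Nodup ∧ Φ ≠ [] ∧ Φ.length ≤ d
  have hex : ∀ Φ, Good Φ → ∃ D ∈ φ, ¬ ClauseSat D (flipOn x Φ) :=
    fun Φ h => hiso Φ h.1 h.2.1 h.2.2
  let Dch : ∀ Φ, Good Φ → Finset (V × Bool) := fun Φ h => (hex Φ h).choose
  have hDmem : ∀ Φ h, Dch Φ h ∈ φ := fun Φ h => (hex Φ h).choose_spec.1
  have hDfals : ∀ Φ h, ¬ ClauseSat (Dch Φ h) (flipOn x Φ) := fun Φ h => (hex Φ h).choose_spec.2
  have hDcard : ∀ Φ h, (Dch Φ h).card ≤ K := by
    intro Φ h
    by_contra hlt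
    push Not at hlt
    have hnoc : NoCompl (Dch Φ h) := by
      intro v b hb hnb
      apply hDfals Φ h
      by_cases hc : flipOn x Φ v = b
      · exact ⟨(v, b), hb, hc⟩
      · refine ⟨(v, !b), hnb, ?_⟩
        cases hf : flipOn x Φ v <;> cases b <;> simp_all
    have hlt2 := hwide _ (hDmem Φ h) hnoc hlt
    have hle : ((Dch Φ h).filter (fun l => x l.1 = l.2)).card ≤ Φ.toFinset.card := by
      apply Finset.card_le_card_of_injOn (fun l => l.1)
      · intro l hl
        have hl' := Finset.mem_filter.mp (Finset.mem_coe.mp hl)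
        simp only [Finset.mem_coe, List.mem_toFinset]
        by_contra hnot
        apply hDfals Φ h
        refine ⟨l, hl'.1, ?_⟩
        simp only [flipOn, hnot, if_false]
        exact hl'.2
      · intro a ha b hb hab
        have ha' := (Finset.mem_filter.mp (Finset.mem_coe.mp ha)).2
        have hb' := (Finset.mem_filter.mp (Finset.mem_coe.mp hb)).2
        simp only at hab
        apply Prod.ext hab
        rw [← ha', ← hb', hab]
    have hΦ : Φ.toFinset.card ≤ d := (List.toFinset_card_le Φ).trans h.2.2
    omega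
  let T : TS V K :=
    { ch := fun Φ => if h : Good Φ then ((Dch Φ h).image Prod.fst) \ Φ.toFinset else ∅
      card_le := by
        intro Φ
        by_cases h : Good Φ
        · simp only [dif_pos h]
          exact (Finset.card_le_card Finset.sdiff_subset).trans
            (Finset.card_image_le.trans (hDcard Φ h))
        · simp only [dif_neg h, Finset.card_empty, Nat.zero_le]
      disj := by
        intro Φ y hy
        by_cases h : Good Φ
        · simp only [dif_pos h, Finset.mem_sdiff, List.mem_toFinset] at hy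
          exact hy.2
        · simp only [dif_neg h, Finset.notMem_empty] at hy }
  refine ⟨T, ?_⟩
  intro M τ v y hy hag hne
  -- the walk
  have walk : ∀ (j : ℕ) (Φ : List V), Φ.Nodup → v ∈ Φ → (∀ u ∈ Φ, y u ≠ x u) →
      Φ.length + j = d + 1 → T.bad (later τ v) j Φ := by
    intro j
    induction j with
    | zero => intro Φ _ _ _ _; trivial
    | succ j ih =>
      intro Φ hnd hv hdiff hlen
      have hgood : Good Φ := ⟨hnd, List.ne_nil_of_mem hv, by omega⟩
      obtain ⟨l, hlD, hly⟩ := hy _ (hDmem Φ hgood)
      have hfl : flipOn x Φ l.1 ≠ l.2 := by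
        intro hc
        exact hDfals Φ hgood ⟨l, hlD, hc⟩
      have hlΦ : l.1 ∉ Φ := by
        intro hc
        apply hfl
        simp only [flipOn, hc, if_true]
        have := hdiff _ hc
        rw [← hly]
        cases hx : x l.1 <;> cases hy' : y l.1 <;> simp_all
      have hfl' : x l.1 ≠ l.2 := by
        intro hc
        apply hfl
        simp only [flipOn, hlΦ, if_false]
        exact hc
      have hw : y l.1 ≠ x l.1 := by
        rw [hly]; exact fun h => hfl' h.symm
      have hlater : l.1 ∈ later τ v := by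
        by_contra hc
        have hwv : l.1 ≠ v := fun h => hlΦ (h ▸ hv)
        exact hw (hag _ hc hwv)
      refine ⟨l.1, ?_, hlater, ?_⟩
      · show l.1 ∈ (if h : Good Φ then ((Dch Φ h).image Prod.fst) \ Φ.toFinset else ∅)
        rw [dif_pos hgood, Finset.mem_sdiff]
        exact ⟨Finset.mem_image_of_mem _ hlD, by simpa using hlΦ⟩
      · apply ih
        · exact List.nodup_cons.mpr ⟨hlΦ, hnd⟩
        · exact List.mem_cons_of_mem _ hv
        · intro u hu
          rcases List.mem_cons.mp hu with rfl | hu'
          · exact hw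
          · exact hdiff u hu'
        · simp only [List.length_cons]; omega
  apply walk d [v] (List.nodup_singleton v) (List.mem_singleton.mpr rfl)
  · intro u hu
    rw [List.mem_singleton.mp hu]; exact hne
  · simp only [List.length_singleton]; omega

open Classical in
/-- (c) of the blueprint: isolated solutions of a CNF whose long clauses have many true literals
are few, given the exponential-moment bound. -/
theorem card_mul_le_of_moment (φ : Finset (Finset (V × Bool))) (A : Finset (V → Bool)) (K d M : ℕ)
    (hM : 0 < M) (B : ℝ)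
    (hU : ∀ T : TS V K, B ≤ (∑ τ : V → Fin M, (2 : ℝ) ^ (FF T d τ)) /
      (M : ℝ) ^ (Fintype.card V))
    (hsat : ∀ x ∈ A, ∀ D ∈ φ, ClauseSat D x)
    (hiso : ∀ x ∈ A, ∀ Φ : List V, Φ.Nodup → Φ ≠ [] → Φ.length ≤ d →
      ∃ D ∈ φ, ¬ ClauseSat D (flipOn x Φ))
    (hwide : ∀ x ∈ A, ∀ D ∈ φ, NoCompl D → K < D.card →
      d < (D.filter (fun l => x l.1 = l.2)).card) :
    (A.card : ℝ) * B ≤ 2 ^ Fintype.card V := by
  have htree : ∀ x ∈ A, ∃ T : TS V K, ∀ (τ : V → Fin M) (v : V) (y : V → Bool),
      (∀ D ∈ φ, ClauseSat D y) → (∀ w, w ∉ later τ v → w ≠ v → y w = x w) → y v ≠ x v →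
      T.bad (later τ v) d [v] := by
    intro x hx
    obtain ⟨T, hT⟩ := exists_tree φ x K d (hiso x hx) (hwide x hx)
    exact ⟨T, fun τ v y h1 h2 h3 => hT τ v y h1 h2 h3⟩
  haveI : Nonempty (TS V K) := ⟨⟨fun _ => ∅, by simp, by simp⟩⟩
  choose! T hT using htree
  have hpos : (0 : ℝ) < (M : ℝ) ^ (Fintype.card V) := by positivity
  -- for each level map the Kraft inequality
  have hkr : ∀ τ : V → Fin M, ∑ x ∈ A, (2 : ℝ) ^ (FF (T x) d τ) ≤ 2 ^ Fintype.card V := by
    intro τ
    have hk := kraft τ A
    have hcast : ((∑ x ∈ A, 2 ^ (Finset.univ.filter (Det τ A x)).card : ℕ) : ℝ)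
        ≤ ((2 ^ Fintype.card V : ℕ) : ℝ) := by exact_mod_cast hk
    push_cast at hcast
    refine le_trans (Finset.sum_le_sum ?_) hcast
    intro x hx
    apply pow_le_pow_right₀ (by norm_num)
    apply Finset.card_le_card
    intro v hv
    simp only [Finset.mem_filter, Finset.mem_univ, true_and] at hv ⊢
    intro y hy hag
    by_contra hne
    exact hv (hT x hx τ v y (hsat y hy) hag hne)
  calc (A.card : ℝ) * B = ∑ x ∈ A, B := by simp
    _ ≤ ∑ x ∈ A, (∑ τ : V → Fin M, (2 : ℝ) ^ (FF (T x) d τ)) / (M : ℝ) ^ (Fintype.card V) :=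
        Finset.sum_le_sum (fun x _ => hU (T x))
    _ = (∑ τ : V → Fin M, ∑ x ∈ A, (2 : ℝ) ^ (FF (T x) d τ)) / (M : ℝ) ^ (Fintype.card V) := by
        rw [← Finset.sum_div, Finset.sum_comm]
    _ ≤ (∑ _τ : V → Fin M, (2 : ℝ) ^ Fintype.card V) / (M : ℝ) ^ (Fintype.card V) := by
        apply div_le_div_of_nonneg_right _ hpos.le
        exact Finset.sum_le_sum (fun τ _ => hkr τ)
    _ = 2 ^ Fintype.card V := by
        simp only [Finset.sum_const, Finset.card_univ, nsmul_eq_mul, Fintype.card_fun,
          Fintype.card_fin]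
        push_cast
        field_simp

end CNF

end Vale.Agent.Lib.P336_h66
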