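/-
P336 PART C (helper16): the depth-three circuit model and the Reed-Muller type code.
A circuit is a top OR of middle AND gates of bottom OR gates; a bottom gate is a set of literals
(a literal is a variable with the value making it true) together with a flag saying that the gate
also reads the constant 1. The size counts all gates (bottom, middle and the top gate).
-/
import Mathlib

namespace Vale.Agent.Lib.P336_h66

/-- Depth-three OR-AND-OR circuits on the variable type `ι`. -/
structure Depth3 (ι : Type) where
  /-- number of bottom OR gates -/
  numBot : ℕ
  /-- a bottom gate: its literals and the flag that it reads the constant 1 -/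
  bot : Fin numBot → Finset (ι × Bool) × Bool
  /-- number of middle AND gates -/
  numMid : ℕ
  /-- the bottom gates read by a middle gate -/
  mid : Fin numMid → Finset (Fin numBot)

/-- The value of the circuit at `x`: some middle gate has all its bottom gates true. -/
def Depth3.eval {ι : Type} (C : Depth3 ι) (x : ι → Bool) : Prop :=
  ∃ g, ∀ b ∈ C.mid g, (C.bot b).2 = true ∨ ∃ l ∈ (C.bot b).1, x l.1 = l.2

/-- The number of gates, the top gate included. -/
def Depth3.size {ι : Type} (C : Depth3 ι) : ℕ := C.numBot + C.numMid + 1

/-- Membership of the word `x`, indexed by the points of the cube `{0,1}^m` (so it has `2^m` bits),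
in the code of all words orthogonal over the two-element field to the evaluation vectors of all
monomials of degree at most `r`. This is the Reed-Muller code of order `m - r - 1`. -/
def rmMember (r m : ℕ) (x : (Fin m → Bool) → Bool) : Prop :=
  ∀ T : Finset (Fin m), T.card ≤ r →
    Even (Finset.univ.filter (fun a : Fin m → Bool => (∀ i ∈ T, a i = true) ∧ x a = true)).card

end Vale.Agent.Lib.P336_h66
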