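/-
P336 PART C (helper16): the properties of the Reed-Muller type code used in the lower bound:
minimum distance, dual distance (uniform projections), and number of codewords.
-/
import Vale.Agent.Lib.P336_h66.Circuit

namespace Vale.Agent.Lib.P336_h66

open Finset

section Code

variable {m : ℕ}

/-- The cube. -/
abbrev Cube (m : ℕ) := Fin m → Bool

/-- The orthogonality condition on a set of points. -/
def Orth (r : ℕ) (W : Finset (Cube m)) : Prop :=
  ∀ T : Finset (Fin m), T.card ≤ r → Even (W.filter (fun a => ∀ i ∈ T, a i = true)).card

theorem orth_card : ∀ (r : ℕ) (W : Finset (Cube m)), W.Nonempty → Orth r W → 2 ^ (r + 1) ≤ W.card := by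
  intro r
  have base : ∀ (W : Finset (Cube m)), W.Nonempty → Even W.card → 2 ≤ W.card := by
    intro W hne hev
    have h1 : 0 < W.card := Finset.card_pos.mpr hne
    rcases hev with ⟨k, hk⟩
    omega
  have heven : ∀ (r : ℕ) (W : Finset (Cube m)), Orth r W → Even W.card := by
    intro r W h
    have := h ∅ (by simp)
    simpa using this
  induction r with
  | zero =>
    intro W hne h
    simpa using base W hne (heven 0 W h)
  | succ r ih =>
    intro W hne h
    have h2 : 1 < W.card := base W hne (heven _ W h)
    obtain ⟨a, ha, b, hb, hab⟩ := Finset.one_lt_card.mp h2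
    obtain ⟨i, hi⟩ := Function.ne_iff.mp hab
    set W₁ := W.filter (fun c : Cube m => c i = true) with hW₁
    set W₀ := W.filter (fun c : Cube m => ¬ c i = true) with hW₀
    have hcard : W₁.card + W₀.card = W.card :=
      Finset.card_filter_add_card_filter_not (s := W) (fun c : Cube m => c i = true)
    have hne₁ : W₁.Nonempty := by
      by_cases hai : a i = true
      · exact ⟨a, Finset.mem_filter.mpr ⟨ha, hai⟩⟩
      · refine ⟨b, Finset.mem_filter.mpr ⟨hb, ?_⟩⟩
        cases hbi : b i
        · cases hai' : a i <;> simp_all
        · rfl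
    have hne₀ : W₀.Nonempty := by
      by_cases hai : a i = true
      · refine ⟨b, Finset.mem_filter.mpr ⟨hb, ?_⟩⟩
        intro hbi
        exact hi (hai.trans hbi.symm)
      · exact ⟨a, Finset.mem_filter.mpr ⟨ha, hai⟩⟩
    have horth₁ : Orth r W₁ := by
      intro T hT
      have hev := h (insert i T) ((Finset.card_insert_le _ _).trans (by omega))
      have : W₁.filter (fun c => ∀ j ∈ T, c j = true) =
          W.filter (fun c => ∀ j ∈ insert i T, c j = true) := by
        ext c
        simp only [hW₁, Finset.mem_filter, Finset.mem_insert, forall_eq_or_imp]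
        tauto
      rw [this]; exact hev
    have horth₀ : Orth r W₀ := by
      intro T hT
      have hev := h T (by omega)
      have hev₁ := horth₁ T hT
      have hsplit : (W₁.filter (fun c => ∀ j ∈ T, c j = true)).card
          + (W₀.filter (fun c => ∀ j ∈ T, c j = true)).card
          = (W.filter (fun c => ∀ j ∈ T, c j = true)).card := by
        rw [hW₁, hW₀, Finset.filter_filter, Finset.filter_filter, ← Finset.card_union_of_disjoint]
        · congr 1
          ext c
          simp only [Finset.mem_union, Finset.mem_filter]
          tauto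
        · rw [Finset.disjoint_left]
          intro c hc hc'
          simp only [Finset.mem_filter] at hc hc'
          exact hc'.2.1 hc.2.1
      rw [← hsplit] at hev
      exact (Nat.even_add.mp hev).mp hev₁
    have := ih W₁ hne₁ horth₁
    have := ih W₀ hne₀ horth₀
    rw [pow_succ]
    omega

/-- The word space over the two-element field. -/
abbrev E (m : ℕ) := Cube m → ZMod 2

/-- The monomial with variable set `T` evaluated at `a`. -/
def mono (T : Finset (Fin m)) (a : Cube m) : ZMod 2 := if ∀ i ∈ T, a i = true then 1 else 0

/-- The parity check of the monomial `T`. -/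
def chk (T : Finset (Fin m)) : E m →ₗ[ZMod 2] ZMod 2 where
  toFun z := ∑ a, mono T a * z a
  map_add' z w := by simp [mul_add, Finset.sum_add_distrib]
  map_smul' c z := by simp [Finset.mul_sum, mul_left_comm]

lemma chk_apply (T : Finset (Fin m)) (z : E m) : chk T z = ∑ a, mono T a * z a := rfl

/-- The support of a word. -/
def supp (z : E m) : Finset (Cube m) := Finset.univ.filter (fun a => z a ≠ 0)

lemma zmod2_eq_one {u : ZMod 2} (h : u ≠ 0) : u = 1 := by
  revert h; revert u; decide

lemma orth_supp {r : ℕ} {z : E m} (h : ∀ T : Finset (Fin m), T.card ≤ r → chk T z = 0) :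
    Orth r (supp z) := by
  intro T hT
  rw [← ZMod.natCast_eq_zero_iff_even, ← h T hT, chk_apply, Finset.card_eq_sum_ones]
  push_cast
  rw [Finset.sum_filter, supp, Finset.sum_filter]
  apply Finset.sum_congr rfl
  intro a _
  simp only [mono]
  by_cases hz : z a = 0
  · simp [hz]
  · have := zmod2_eq_one hz
    simp [this]

theorem min_weight {r : ℕ} {z : E m} (hz : z ≠ 0)
    (h : ∀ T : Finset (Fin m), T.card ≤ r → chk T z = 0) : 2 ^ (r + 1) ≤ (supp z).card := by
  apply orth_card r _ _ (orth_supp h)
  obtain ⟨a, ha⟩ := Function.ne_iff.mp hz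
  exact ⟨a, Finset.mem_filter.mpr ⟨Finset.mem_univ _, ha⟩⟩

lemma sum_mono_eq_zero (U : Finset (Fin m)) (hU : U.card < m) : ∑ a, mono U a = 0 := by
  have : ∃ i, i ∉ U := by
    by_contra hall
    push Not at hall
    have : U = Finset.univ := Finset.eq_univ_iff_forall.mpr hall
    rw [this, Finset.card_univ, Fintype.card_fin] at hU
    omega
  obtain ⟨i, hi⟩ := this
  apply Finset.sum_involution (fun a _ => Function.update a i (!a i))
  · intro a _
    have : mono U (Function.update a i (!a i)) = mono U a := by
      simp only [mono]
      have hiff : (∀ j ∈ U, Function.update a i (!a i) j = true) ↔ ∀ j ∈ U, a j = true := by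
        apply forall₂_congr
        intro j hj
        have hji : j ≠ i := fun h => hi (h ▸ hj)
        rw [Function.update_of_ne hji]
      simp only [hiff]
    rw [this]
    exact CharTwo.add_self_eq_zero _
  · intro a _ _ hfix
    have := congrFun hfix i
    simp only [Function.update_self] at this
    cases hai : a i <;> simp_all
  · intro a _
    funext j
    by_cases hj : j = i
    · subst hj; simp
    · simp [Function.update_of_ne hj]
  · intro a _; exact Finset.mem_univ _

lemma mono_mul (S T : Finset (Fin m)) (a : Cube m) : mono S a * mono T a = mono (S ∪ T) a := by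
  have hiff : (∀ i ∈ S ∪ T, a i = true) ↔ (∀ i ∈ S, a i = true) ∧ (∀ i ∈ T, a i = true) := by
    simp only [Finset.mem_union]
    constructor
    · intro h
      exact ⟨fun i hi => h i (Or.inl hi), fun i hi => h i (Or.inr hi)⟩
    · rintro ⟨h1, h2⟩ i (hi | hi)
      · exact h1 i hi
      · exact h2 i hi
  simp only [mono, hiff]
  by_cases h1 : ∀ i ∈ S, a i = true
  · by_cases h2 : ∀ i ∈ T, a i = true
    · rw [if_pos h1, if_pos h2, if_pos ⟨h1, h2⟩, one_mul]
    · rw [if_neg h2, mul_zero, if_neg (fun h => h2 h.2)]
  · rw [if_neg h1, zero_mul, if_neg (fun h => h1 h.1)]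

/-- The value of a functional on a basis vector. -/
def coeffs (f : E m →ₗ[ZMod 2] ZMod 2) : E m := fun a => f (Pi.single a 1)

lemma coeffs_chk (T : Finset (Fin m)) : coeffs (chk T) = mono T := by
  funext a
  simp [coeffs, chk_apply, Pi.single_apply]

/-- Every functional in the span of the checks is orthogonal to low-degree monomials. -/
lemma chk_coeffs_of_span {r : ℕ} {S : Finset (Fin m)} (hS : S.card + r < m)
    {f : E m →ₗ[ZMod 2] ZMod 2}
    (hf : f ∈ Submodule.span (ZMod 2) (Set.range (fun T : {T : Finset (Fin m) // T.card ≤ r} => chk T.1))) :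
    chk S (coeffs f) = 0 := by
  induction hf using Submodule.span_induction with
  | mem f hf =>
    obtain ⟨⟨T, hT⟩, rfl⟩ := hf
    simp only [coeffs_chk, chk_apply, mono_mul]
    apply sum_mono_eq_zero
    have := Finset.card_union_le S T
    omega
  | zero =>
    have : coeffs (0 : E m →ₗ[ZMod 2] ZMod 2) = 0 := rfl
    rw [this, map_zero]
  | add f g _ _ hf hg =>
    have : coeffs (f + g) = coeffs f + coeffs g := rfl
    rw [this, map_add, hf, hg, add_zero]
  | smul c f _ hf =>
    have : coeffs (c • f) = c • coeffs f := rfl
    rw [this, map_smul, hf, smul_zero]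

/-- The code as a submodule. -/
def codeSub (r m : ℕ) : Submodule (ZMod 2) (E m) :=
  ⨅ T : {T : Finset (Fin m) // T.card ≤ r}, LinearMap.ker (chk T.1)

lemma mem_codeSub {r : ℕ} {z : E m} :
    z ∈ codeSub r m ↔ ∀ T : Finset (Fin m), T.card ≤ r → chk T z = 0 := by
  simp only [codeSub, Submodule.mem_iInf, LinearMap.mem_ker, Subtype.forall]

/-- The restriction to `J`. -/
def restr (J : Finset (Cube m)) : E m →ₗ[ZMod 2] (J → ZMod 2) where
  toFun z := fun j => z j.1
  map_add' _ _ := rfl
  map_smul' _ _ := rfl

/-- Dual distance: the projection of the code to a small set of coordinates is onto. -/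
theorem restr_surj {r : ℕ} (hr : r < m) (J : Finset (Cube m)) (hJ : J.card < 2 ^ (m - r)) :
    ∀ q : J → ZMod 2, ∃ z ∈ codeSub r m, restr J z = q := by
  by_contra hcon
  have hlt : (codeSub r m).map (restr J) < ⊤ := by
    rw [lt_top_iff_ne_top]
    intro htop
    apply hcon
    intro q
    have : q ∈ (codeSub r m).map (restr J) := by rw [htop]; trivial
    obtain ⟨z, hz, hzq⟩ := this
    exact ⟨z, hz, hzq⟩
  obtain ⟨f, hf, hle⟩ := Submodule.exists_le_ker_of_lt_top _ hlt
  -- pull back
  let K' : E m →ₗ[ZMod 2] ZMod 2 := f ∘ₗ restr J
  have hker : (⨅ T : {T : Finset (Fin m) // T.card ≤ r}, LinearMap.ker (chk T.1)) ≤ LinearMap.ker K' := by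
    intro z hz
    have h1 : restr J z ∈ (codeSub r m).map (restr J) := ⟨z, hz, rfl⟩
    have h2 := hle h1
    simpa [K'] using h2
  have hspan := mem_span_of_iInf_ker_le_ker hker
  -- the coefficient word
  have hchk : ∀ S : Finset (Fin m), S.card ≤ m - r - 1 → chk S (coeffs K') = 0 := by
    intro S hS
    apply chk_coeffs_of_span (r := r) (by omega) hspan
  -- nonzero
  have hne : coeffs K' ≠ 0 := by
    intro h0
    apply hf
    apply LinearMap.pi_ext
    intro j x
    have h1 : coeffs K' j.1 = 0 := congrFun h0 j.1
    have h2 : restr J (Pi.single j.1 (1 : ZMod 2)) = Pi.single j 1 := by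
      funext i
      simp only [restr, LinearMap.coe_mk, AddHom.coe_mk, Pi.single_apply, Subtype.ext_iff]
    have h3 : f (Pi.single j 1) = 0 := by
      have : K' (Pi.single j.1 1) = 0 := h1
      simpa [K', h2] using this
    have h4 : (Pi.single j x : J → ZMod 2) = x • Pi.single j 1 := by
      funext i
      simp [Pi.single_apply]
    simp [h4, h3]
  have hw := min_weight hne hchk
  have hsub : supp (coeffs K') ⊆ J := by
    intro a ha
    by_contra haJ
    have h0 : restr J (Pi.single a (1 : ZMod 2)) = 0 := by
      funext i
      simp only [restr, LinearMap.coe_mk, AddHom.coe_mk, Pi.single_apply, Pi.zero_apply]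
      rw [if_neg]
      intro hia
      exact haJ (hia ▸ i.2)
    have : coeffs K' a = 0 := by
      simp [coeffs, K', h0]
    exact (Finset.mem_filter.mp ha).2 this
  have h5 := Finset.card_le_card hsub
  have h6 : m - r - 1 + 1 = m - r := by omega
  rw [h6] at hw
  omega

open Classical in
/-- The code as a finite set of words. -/
noncomputable def codeE (r m : ℕ) : Finset (E m) := Finset.univ.filter (fun z => z ∈ codeSub r m)

open Classical in
/-- All fibres of the projection have the same size. -/
theorem card_fiber_mul {r : ℕ} (hr : r < m) (J : Finset (Cube m)) (hJ : J.card < 2 ^ (m - r))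
    (p : E m) :
    ((codeE r m).filter (fun z => ∀ j ∈ J, z j = p j)).card * 2 ^ J.card = (codeE r m).card := by
  have hF : ∀ q : J → ZMod 2, ((codeE r m).filter (fun z => restr J z = q)).card
      = ((codeE r m).filter (fun z => restr J z = restr J p)).card := by
    intro q
    obtain ⟨z₀, hz₀, hz₀q⟩ := restr_surj hr J hJ q
    obtain ⟨z₁, hz₁, hz₁q⟩ := restr_surj hr J hJ (restr J p)
    apply Finset.card_bij' (fun z _ => z - z₀ + z₁) (fun z _ => z - z₁ + z₀)
    · intro z hz
      simp only [codeE, Finset.mem_filter, Finset.mem_univ, true_and] at hz ⊢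
      refine ⟨(codeSub r m).add_mem ((codeSub r m).sub_mem hz.1 hz₀) hz₁, ?_⟩
      rw [map_add, map_sub, hz.2, hz₀q, hz₁q]; abel
    · intro z hz
      simp only [codeE, Finset.mem_filter, Finset.mem_univ, true_and] at hz ⊢
      refine ⟨(codeSub r m).add_mem ((codeSub r m).sub_mem hz.1 hz₁) hz₀, ?_⟩
      rw [map_add, map_sub, hz.2, hz₁q, hz₀q]; abel
    · intro z _; abel
    · intro z _; abel
  have hsum : (codeE r m).card = ∑ q : J → ZMod 2, ((codeE r m).filter (fun z => restr J z = q)).card :=
    Finset.card_eq_sum_card_fiberwise (fun z _ => Finset.mem_univ _)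
  have hfilter : (codeE r m).filter (fun z => ∀ j ∈ J, z j = p j)
      = (codeE r m).filter (fun z => restr J z = restr J p) := by
    apply Finset.filter_congr
    intro z _
    constructor
    · intro h
      funext j
      exact h j.1 j.2
    · intro h j hj
      exact congrFun h ⟨j, hj⟩
  rw [hfilter, hsum, Finset.sum_congr rfl (fun q _ => hF q), Finset.sum_const, Finset.card_univ]
  simp [ZMod.card, mul_comm]

/-- The set of checks. -/
def checkSet (r m : ℕ) : Finset (Finset (Fin m)) := Finset.univ.filter (fun T => T.card ≤ r)

lemma card_checkSet_le (r m : ℕ) : (checkSet r m).card ≤ (m + 1) ^ r := by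
  induction r with
  | zero =>
    have : checkSet 0 m ⊆ {∅} := by
      intro T hT
      simp only [checkSet, Finset.mem_filter, Finset.mem_univ, true_and, Nat.le_zero,
        Finset.card_eq_zero] at hT
      simp [hT]
    simpa using Finset.card_le_card this
  | succ r ih =>
    classical
    have hsub : checkSet (r + 1) m ⊆
        ((Finset.univ : Finset (Option (Fin m))) ×ˢ checkSet r m).image
          (fun p => match p.1 with
            | none => p.2
            | some i => insert i p.2) := by
      intro T hT
      simp only [checkSet, Finset.mem_filter, Finset.mem_univ, true_and] at hT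
      rw [Finset.mem_image]
      by_cases hT0 : T = ∅
      · refine ⟨(none, ∅), ?_, by simp [hT0]⟩
        simp [checkSet]
      · obtain ⟨i, hi⟩ := Finset.nonempty_iff_ne_empty.mpr hT0
        refine ⟨(some i, T.erase i), ?_, by simp [Finset.insert_erase hi]⟩
        simp only [Finset.mem_product, Finset.mem_univ, true_and, checkSet, Finset.mem_filter]
        rw [Finset.card_erase_of_mem hi]
        omega
    calc (checkSet (r + 1) m).card ≤ _ := Finset.card_le_card hsub
      _ ≤ _ := Finset.card_image_le
      _ = (m + 1) * (checkSet r m).card := by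
          rw [Finset.card_product, Finset.card_univ, Fintype.card_option, Fintype.card_fin]
      _ ≤ (m + 1) * (m + 1) ^ r := Nat.mul_le_mul_left _ ih
      _ = (m + 1) ^ (r + 1) := by ring

open Classical in
/-- The number of codewords. -/
theorem card_code_lower (r : ℕ) :
    2 ^ (2 ^ m) ≤ (codeE r m).card * 2 ^ (checkSet r m).card := by
  -- the syndrome map
  let syn : E m → ({T // T ∈ checkSet r m} → ZMod 2) := fun z T => chk T.1 z
  have hbound : ∀ q ∈ (Finset.univ : Finset ({T // T ∈ checkSet r m} → ZMod 2)),
      ((Finset.univ : Finset (E m)).filter (fun z => syn z = q)).card ≤ (codeE r m).card := by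
    intro q _
    by_cases hne : ((Finset.univ : Finset (E m)).filter (fun z => syn z = q)).Nonempty
    · obtain ⟨z₀, hz₀⟩ := hne
      have hz₀' := (Finset.mem_filter.mp hz₀).2
      apply Finset.card_le_card_of_injOn (fun z => z - z₀)
      · intro z hz
        have hz' := (Finset.mem_filter.mp (Finset.mem_coe.mp hz)).2
        simp only [codeE, Finset.coe_filter, Finset.mem_univ, true_and, Set.mem_ofPred_eq]
        rw [mem_codeSub]
        intro T hT
        have hm : T ∈ checkSet r m := by
          simp [checkSet, hT]
        have h1 := congrFun hz' ⟨T, hm⟩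
        have h2 := congrFun hz₀' ⟨T, hm⟩
        simp only [syn] at h1 h2
        rw [map_sub, h1, h2, sub_self]
      · intro a _ b _ hab
        simpa using hab
    · rw [Finset.not_nonempty_iff_eq_empty.mp hne]
      simp
  have := Finset.card_le_mul_card_image_of_maps_to (f := syn) (s := Finset.univ)
    (t := Finset.univ) (fun _ _ => Finset.mem_univ _) _ hbound
  simp only [Finset.card_univ, Fintype.card_fun, ZMod.card, Fintype.card_bool, Fintype.card_fin,
    Fintype.card_coe] at this
  exact this

/-- From Boolean words to words over the two-element field. -/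
def toE (x : Cube m → Bool) : E m := fun a => if x a = true then 1 else 0

lemma toE_injective : Function.Injective (toE : (Cube m → Bool) → E m) := by
  intro x y h
  funext a
  have := congrFun h a
  simp only [toE] at this
  cases hx : x a <;> cases hy : y a <;> simp_all

lemma toE_surjective : Function.Surjective (toE : (Cube m → Bool) → E m) := by
  intro z
  refine ⟨fun a => decide (z a ≠ 0), ?_⟩
  funext a
  simp only [toE]
  by_cases h : z a = 0
  · simp [h]
  · have := zmod2_eq_one h
    simp [this]

lemma rmMember_iff {r : ℕ} {x : Cube m → Bool} : rmMember r m x ↔ toE x ∈ codeSub r m := by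
  rw [mem_codeSub]
  apply forall₂_congr
  intro T _
  rw [← ZMod.natCast_eq_zero_iff_even, chk_apply, Finset.card_eq_sum_ones]
  push_cast
  rw [Finset.sum_filter]
  have : ∀ a : Cube m, (if (∀ i ∈ T, a i = true) ∧ x a = true then (1 : ZMod 2) else 0)
      = mono T a * toE x a := by
    intro a
    simp only [mono, toE]
    by_cases h1 : ∀ i ∈ T, a i = true
    · by_cases h2 : x a = true
      · rw [if_pos h1, if_pos h2, if_pos ⟨h1, h2⟩, one_mul]
      · rw [if_neg h2, mul_zero, if_neg (fun h => h2 h.2)]
    · rw [if_neg h1, zero_mul, if_neg (fun h => h1 h.1)]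
  simp only [this]

open Classical in
/-- The code as a finite set of Boolean words. -/
noncomputable def code (r m : ℕ) : Finset (Cube m → Bool) :=
  Finset.univ.filter (fun x => rmMember r m x)

open Classical in
lemma card_filter_code {r : ℕ} (P : E m → Prop) :
    ((code r m).filter (fun x => P (toE x))).card = ((codeE r m).filter P).card := by
  apply Finset.card_bij (fun x _ => toE x)
  · intro x hx
    simp only [code, codeE, Finset.mem_filter, Finset.mem_univ, true_and] at hx ⊢
    exact ⟨rmMember_iff.mp hx.1, hx.2⟩
  · intro x _ y _ h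
    exact toE_injective h
  · intro z hz
    simp only [codeE, Finset.mem_filter, Finset.mem_univ, true_and] at hz
    obtain ⟨x, rfl⟩ := toE_surjective z
    exact ⟨x, by simpa [code] using ⟨rmMember_iff.mpr hz.1, hz.2⟩, rfl⟩

open Classical in
lemma card_code_eq {r : ℕ} : (code r m).card = (codeE r m).card := by
  have := card_filter_code (r := r) (m := m) (fun _ => True)
  simpa using this

open Classical in
/-- The number of codewords. -/
theorem card_code_lower' (r : ℕ) : 2 ^ (2 ^ m) ≤ (code r m).card * 2 ^ (checkSet r m).card := by
  rw [card_code_eq]; exact card_code_lower r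

open Classical in
/-- Uniform projections, Boolean form. -/
theorem card_code_fiber {r : ℕ} (hr : r < m) (J : Finset (Cube m)) (hJ : J.card < 2 ^ (m - r))
    (p : Cube m → Bool) :
    ((code r m).filter (fun x => ∀ j ∈ J, x j = p j)).card * 2 ^ J.card = (code r m).card := by
  have h1 := card_filter_code (r := r) (m := m) (fun z => ∀ j ∈ J, z j = toE p j)
  have h2 : ((code r m).filter (fun x => ∀ j ∈ J, x j = p j)).card
      = ((codeE r m).filter (fun z => ∀ j ∈ J, z j = toE p j)).card := by
    convert h1 using 2
    · ext x
      simp only [Finset.mem_filter, and_congr_right_iff]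
      intro _
      apply forall₂_congr
      intro j _
      simp only [toE]
      cases hx : x j <;> cases hy : p j <;> simp
    · ext z
      simp only [Finset.mem_filter]
  rw [h2, card_code_eq]
  exact card_fiber_mul hr J hJ _

end Code

end Vale.Agent.Lib.P336_h66
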