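/-
P336 PART C (helper16): the combinatorial core of the reduction from a circuit for the code to the
moment bound: wide clauses, pigeonhole on middle gates, and the bound on the moment.
-/
import Vale.Agent.Lib.P336_h66.CNF
import Vale.Agent.Lib.P336_h66.Code

namespace Vale.Agent.Lib.P336_h66

open Finset

variable {m : ℕ}

/-- Distance of the code: flipping a few coordinates leaves the code. -/
lemma flip_not_mem {r : ℕ} {x : Cube m → Bool} (hx : rmMember r m x) (Φ : List (Cube m))
    (hne : Φ ≠ []) (hlen : Φ.length < 2 ^ (r + 1)) : ¬ rmMember r m (flipOn x Φ) := by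
  intro hy
  have hz : toE x - toE (flipOn x Φ) ∈ codeSub r m :=
    (codeSub r m).sub_mem (rmMember_iff.mp hx) (rmMember_iff.mp hy)
  obtain ⟨a, ha⟩ := List.exists_mem_of_ne_nil Φ hne
  have hzne : toE x - toE (flipOn x Φ) ≠ 0 := by
    intro h0
    have h1 := congrFun h0 a
    simp only [Pi.sub_apply, Pi.zero_apply, toE, flipOn, ha, if_true] at h1
    cases hxa : x a <;> simp [hxa] at h1
  have hw := min_weight hzne (mem_codeSub.mp hz)
  have hsub : supp (toE x - toE (flipOn x Φ)) ⊆ Φ.toFinset := by
    intro b hb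
    have hb' := (Finset.mem_filter.mp hb).2
    by_contra hbΦ
    apply hb'
    have hbΦ' : b ∉ Φ := by simpa using hbΦ
    simp [toE, flipOn, hbΦ']
  have h1 := Finset.card_le_card hsub
  have h2 := List.toFinset_card_le Φ
  omega

open Classical in
lemma card_low_subsets {α : Type} (D : Finset α) (d : ℕ) :
    (D.powerset.filter (fun U => U.card ≤ d)).card ≤ (D.card + 1) ^ d := by
  induction d with
  | zero =>
    have : D.powerset.filter (fun U => U.card ≤ 0) ⊆ {∅} := by
      intro U hU
      simp only [Finset.mem_filter, Nat.le_zero, Finset.card_eq_zero] at hU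
      simp [hU.2]
    simpa using Finset.card_le_card this
  | succ d ih =>
    have hsub : D.powerset.filter (fun U => U.card ≤ d + 1) ⊆
        (D.insertNone ×ˢ D.powerset.filter (fun U => U.card ≤ d)).image
          (fun p => match p.1 with
            | none => p.2
            | some i => insert i p.2) := by
      intro T hT
      simp only [Finset.mem_filter, Finset.mem_powerset] at hT
      rw [Finset.mem_image]
      by_cases hT0 : T = ∅
      · refine ⟨(none, ∅), ?_, by simp [hT0]⟩
        simp
      · obtain ⟨i, hi⟩ := Finset.nonempty_iff_ne_empty.mpr hT0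
        refine ⟨(some i, T.erase i), ?_, by simp [Finset.insert_erase hi]⟩
        simp only [Finset.mem_product, Finset.mem_filter, Finset.mem_powerset]
        refine ⟨?_, (Finset.erase_subset _ _).trans hT.1, ?_⟩
        · simpa using hT.1 hi
        · rw [Finset.card_erase_of_mem hi]; omega
    calc (D.powerset.filter (fun U => U.card ≤ d + 1)).card ≤ _ := Finset.card_le_card hsub
      _ ≤ _ := Finset.card_image_le
      _ = (D.card + 1) * (D.powerset.filter (fun U => U.card ≤ d)).card := by
          rw [Finset.card_product, Finset.card_insertNone]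
      _ ≤ (D.card + 1) * (D.card + 1) ^ d := Nat.mul_le_mul_left _ ih
      _ = (D.card + 1) ^ (d + 1) := by ring

open Classical in
/-- A wide clause has many true literals on most codewords. -/
theorem card_bad {r K d : ℕ} (hr : r < m) (D : Finset (Cube m × Bool)) (hD : NoCompl D)
    (hK : K < D.card) (hK' : K + 1 < 2 ^ (m - r)) :
    ((code r m).filter (fun x => (D.filter (fun l => x l.1 = l.2)).card ≤ d)).card * 2 ^ (K + 1)
      ≤ (code r m).card * (K + 2) ^ d := by
  obtain ⟨D', hD'sub, hD'card⟩ := Finset.exists_subset_card_eq (show K + 1 ≤ D.card by omega)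
  set J := D'.image Prod.fst with hJ
  have hJcard : J.card = K + 1 := by
    rw [hJ, Finset.card_image_of_injOn, hD'card]
    intro a ha b hb hab
    have ha' := Finset.mem_coe.mp ha
    have hb' := Finset.mem_coe.mp hb
    apply Prod.ext hab
    by_contra hne
    rcases a with ⟨v, c⟩
    rcases b with ⟨w, e⟩
    simp only at hab hne
    subst hab
    have : e = !c := by cases c <;> cases e <;> simp_all
    subst this
    exact hD v c (hD'sub ha') (hD'sub hb')
  let f : (Cube m → Bool) → Finset (Cube m × Bool) := fun x => D'.filter (fun l => x l.1 = l.2)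
  let B := (code r m).filter (fun x => (D.filter (fun l => x l.1 = l.2)).card ≤ d)
  let t := D'.powerset.filter (fun U => U.card ≤ d)
  have hmaps : ∀ x ∈ B, f x ∈ t := by
    intro x hx
    have hx' := (Finset.mem_filter.mp hx).2
    simp only [t, Finset.mem_filter, Finset.mem_powerset]
    refine ⟨Finset.filter_subset _ _, le_trans (Finset.card_le_card ?_) hx'⟩
    intro l hl
    have hl' := Finset.mem_filter.mp hl
    exact Finset.mem_filter.mpr ⟨hD'sub hl'.1, hl'.2⟩
  have hsum := Finset.card_eq_sum_card_fiberwise hmaps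
  have hfib : ∀ U ∈ t, (B.filter (fun x => f x = U)).card * 2 ^ (K + 1) ≤ (code r m).card := by
    intro U _
    by_cases hne : (B.filter (fun x => f x = U)).Nonempty
    · obtain ⟨x₀, hx₀⟩ := hne
      have hx₀' := (Finset.mem_filter.mp hx₀).2
      have hfiber := card_code_fiber hr J (by rw [hJcard]; exact hK') x₀
      rw [hJcard] at hfiber
      rw [← hfiber]
      apply Nat.mul_le_mul_right
      apply Finset.card_le_card
      intro x hx
      have hx1 := Finset.mem_filter.mp hx
      have hx2 := Finset.mem_filter.mp hx1.1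
      refine Finset.mem_filter.mpr ⟨hx2.1, ?_⟩
      intro j hj
      obtain ⟨l, hl, rfl⟩ := Finset.mem_image.mp hj
      have hff : f x = f x₀ := hx1.2.trans hx₀'.symm
      have hiff : x l.1 = l.2 ↔ x₀ l.1 = l.2 := by
        have h1 : l ∈ f x ↔ l ∈ f x₀ := by rw [hff]
        simpa [f, hl] using h1
      by_cases hc : x l.1 = l.2
      · rw [hc, hiff.mp hc]
      · have hc' : x₀ l.1 ≠ l.2 := fun h => hc (hiff.mpr h)
        cases hx1' : x l.1 <;> cases hx2' : x₀ l.1 <;> cases hl2 : l.2 <;> simp_all
    · rw [Finset.not_nonempty_iff_eq_empty.mp hne]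
      simp
  have htcard := card_low_subsets D' d
  rw [hD'card] at htcard
  calc B.card * 2 ^ (K + 1) = ∑ U ∈ t, (B.filter (fun x => f x = U)).card * 2 ^ (K + 1) := by
        rw [hsum, Finset.sum_mul]
    _ ≤ ∑ _U ∈ t, (code r m).card := Finset.sum_le_sum hfib
    _ = (code r m).card * t.card := by rw [Finset.sum_const, smul_eq_mul, mul_comm]
    _ ≤ (code r m).card * (K + 2) ^ d := Nat.mul_le_mul_left _ htcard

open Classical in
/-- Codewords on which all wide clauses have more than `d` true literals. -/
noncomputable def goodWords (r K d : ℕ) (C : Depth3 (Cube m)) : Finset (Cube m → Bool) :=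
  (code r m).filter (fun x => ∀ b, NoCompl (C.bot b).1 → K < (C.bot b).1.card →
    d < ((C.bot b).1.filter (fun l => x l.1 = l.2)).card)

open Classical in
/-- At least half of the codewords are good. -/
theorem card_code_le_two_good {r K d : ℕ} (hr : r < m) (hK' : K + 1 < 2 ^ (m - r))
    (C : Depth3 (Cube m)) (hs : C.numBot * (K + 2) ^ d ≤ 2 ^ K) :
    (code r m).card ≤ 2 * (goodWords r K d C).card := by
  set G := goodWords r K d C with hG
  set NG := (code r m).filter (fun x => ¬ ∀ b, NoCompl (C.bot b).1 → K < (C.bot b).1.card →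
    d < ((C.bot b).1.filter (fun l => x l.1 = l.2)).card) with hNG
  have hsplit : G.card + NG.card = (code r m).card :=
    Finset.card_filter_add_card_filter_not _
  let Bad : Fin C.numBot → Finset (Cube m → Bool) := fun b =>
    if NoCompl (C.bot b).1 ∧ K < (C.bot b).1.card then
      (code r m).filter (fun x => ((C.bot b).1.filter (fun l => x l.1 = l.2)).card ≤ d)
    else ∅
  have hsub : NG ⊆ Finset.univ.biUnion Bad := by
    intro x hx
    have hx' := Finset.mem_filter.mp hx
    have hx2 := hx'.2
    push Not at hx2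
    obtain ⟨b, h1, h2, h3⟩ := hx2
    refine Finset.mem_biUnion.mpr ⟨b, Finset.mem_univ _, ?_⟩
    simp only [Bad, if_pos (And.intro h1 h2)]
    exact Finset.mem_filter.mpr ⟨hx'.1, h3⟩
  have hbad : ∀ b, (Bad b).card * 2 ^ (K + 1) ≤ (code r m).card * (K + 2) ^ d := by
    intro b
    by_cases hb : NoCompl (C.bot b).1 ∧ K < (C.bot b).1.card
    · simp only [Bad, if_pos hb]
      exact card_bad hr _ hb.1 hb.2 hK'
    · simp [Bad, if_neg hb]
  have hNG2 : NG.card * 2 ^ (K + 1) ≤ C.numBot * ((code r m).card * (K + 2) ^ d) := by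
    calc NG.card * 2 ^ (K + 1)
        ≤ (Finset.univ.biUnion Bad).card * 2 ^ (K + 1) :=
          Nat.mul_le_mul_right _ (Finset.card_le_card hsub)
      _ ≤ (∑ b, (Bad b).card) * 2 ^ (K + 1) :=
          Nat.mul_le_mul_right _ Finset.card_biUnion_le
      _ = ∑ b, (Bad b).card * 2 ^ (K + 1) := by rw [Finset.sum_mul]
      _ ≤ ∑ _b : Fin C.numBot, (code r m).card * (K + 2) ^ d := Finset.sum_le_sum (fun b _ => hbad b)
      _ = C.numBot * ((code r m).card * (K + 2) ^ d) := by
          rw [Finset.sum_const, Finset.card_univ, Fintype.card_fin, smul_eq_mul]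
  have h3 : NG.card * 2 ^ (K + 1) ≤ (code r m).card * 2 ^ K := by
    calc NG.card * 2 ^ (K + 1) ≤ C.numBot * ((code r m).card * (K + 2) ^ d) := hNG2
      _ = (code r m).card * (C.numBot * (K + 2) ^ d) := by ring
      _ ≤ (code r m).card * 2 ^ K := Nat.mul_le_mul_left _ hs
  have h4 : 2 * NG.card ≤ (code r m).card := by
    have hpos : 0 < 2 ^ K := by positivity
    have : (2 * NG.card) * 2 ^ K ≤ (code r m).card * 2 ^ K := by
      calc (2 * NG.card) * 2 ^ K = NG.card * 2 ^ (K + 1) := by ring
        _ ≤ _ := h3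
    exact Nat.le_of_mul_le_mul_right this hpos
  omega

open Classical in
/-- Pigeonhole over the middle gates and the moment bound give an upper bound on the moment. -/
theorem moment_le_of_circuit {r K d M : ℕ} (hr : r < m) (hd : d < 2 ^ (r + 1))
    (hK' : K + 1 < 2 ^ (m - r)) (hM : 0 < M) (C : Depth3 (Cube m))
    (hC : ∀ x, C.eval x ↔ rmMember r m x) (hs : C.size * (K + 2) ^ d ≤ 2 ^ K) (B : ℝ)
    (hU : ∀ T : TS (Cube m) K, B ≤ (∑ τ : Cube m → Fin M, (2 : ℝ) ^ (FF T d τ)) /
      (M : ℝ) ^ (Fintype.card (Cube m))) :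
    B ≤ 2 ^ ((checkSet r m).card + 1) * (C.size : ℝ) := by
  have hs' : C.numBot * (K + 2) ^ d ≤ 2 ^ K := by
    refine le_trans (Nat.mul_le_mul_right _ ?_) hs
    simp only [Depth3.size]; omega
  have hG := card_code_le_two_good hr hK' C hs'
  have hlow := card_code_lower' (m := m) r
  have hcode : 0 < (code r m).card := by
    by_contra h0
    have : (code r m).card = 0 := by omega
    rw [this, zero_mul] at hlow
    have : 0 < 2 ^ (2 ^ m) := by positivity
    omega
  set G := goodWords r K d C with hGdef
  have hGmem : ∀ x ∈ G, rmMember r m x := by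
    intro x hx
    have := (Finset.mem_filter.mp (Finset.mem_filter.mp hx).1).2
    exact this
  -- acceptance sets
  let acc : Fin C.numMid → Finset (Cube m → Bool) := fun g =>
    G.filter (fun x => ∀ b ∈ C.mid g, (C.bot b).2 = true ∨ ∃ l ∈ (C.bot b).1, x l.1 = l.2)
  have hcover : G ⊆ Finset.univ.biUnion acc := by
    intro x hx
    obtain ⟨g, hg⟩ := (hC x).mpr (hGmem x hx)
    exact Finset.mem_biUnion.mpr ⟨g, Finset.mem_univ _, Finset.mem_filter.mpr ⟨hx, hg⟩⟩
  have hGpos : 0 < G.card := by omega
  have hex : ∃ g, G.card ≤ C.numMid * (acc g).card := by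
    by_contra hall
    push Not at hall
    have h1 : G.card ≤ ∑ g, (acc g).card :=
      (Finset.card_le_card hcover).trans Finset.card_biUnion_le
    by_cases h0 : C.numMid = 0
    · have hemp : IsEmpty (Fin C.numMid) := ⟨fun i => by have := i.2; omega⟩
      have : (Finset.univ : Finset (Fin C.numMid)) = ∅ := Finset.eq_empty_of_isEmpty _
      rw [this] at hcover
      have : G = ∅ := by simpa using hcover
      rw [this] at hGpos
      simp at hGpos
    · have h2 : C.numMid * ∑ g, (acc g).card ≤ C.numMid * G.card - 0 := by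
        rw [Finset.mul_sum]
        calc ∑ g, C.numMid * (acc g).card ≤ ∑ _g : Fin C.numMid, G.card :=
              Finset.sum_le_sum (fun g _ => (hall g).le)
          _ = C.numMid * G.card := by
              rw [Finset.sum_const, Finset.card_univ, Fintype.card_fin, smul_eq_mul]
          _ = C.numMid * G.card - 0 := by simp
      have hne : (Finset.univ : Finset (Fin C.numMid)).Nonempty :=
        ⟨⟨0, Nat.pos_of_ne_zero h0⟩, Finset.mem_univ _⟩
      have h3 : ∑ g, C.numMid * (acc g).card < ∑ _g : Fin C.numMid, G.card :=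
        Finset.sum_lt_sum_of_nonempty hne (fun g _ => hall g)
      rw [Finset.sum_const, Finset.card_univ, Fintype.card_fin, smul_eq_mul, ← Finset.mul_sum] at h3
      have h4 : C.numMid * G.card ≤ C.numMid * ∑ g, (acc g).card :=
        Nat.mul_le_mul_left _ h1
      omega
  obtain ⟨g, hg⟩ := hex
  set A := acc g with hA
  -- the CNF of this gate
  let φ : Finset (Finset (Cube m × Bool)) :=
    ((C.mid g).filter (fun b => (C.bot b).2 = false)).image (fun b => (C.bot b).1)
  have hφmem : ∀ D ∈ φ, ∃ b ∈ C.mid g, (C.bot b).2 = false ∧ D = (C.bot b).1 := by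
    intro D hD
    obtain ⟨b, hb, rfl⟩ := Finset.mem_image.mp hD
    have hb' := Finset.mem_filter.mp hb
    exact ⟨b, hb'.1, hb'.2, rfl⟩
  have hsol : ∀ y : Cube m → Bool, (∀ D ∈ φ, ClauseSat D y) → rmMember r m y := by
    intro y hy
    apply (hC y).mp
    refine ⟨g, ?_⟩
    intro b hb
    by_cases hfl : (C.bot b).2 = true
    · exact Or.inl hfl
    · right
      have hfl' : (C.bot b).2 = false := by simpa using hfl
      exact hy _ (Finset.mem_image.mpr ⟨b, Finset.mem_filter.mpr ⟨hb, hfl'⟩, rfl⟩)
  have hAG : ∀ x ∈ A, x ∈ G := fun x hx => (Finset.mem_filter.mp hx).1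
  have hsat : ∀ x ∈ A, ∀ D ∈ φ, ClauseSat D x := by
    intro x hx D hD
    obtain ⟨b, hb, hfl, rfl⟩ := hφmem D hD
    rcases (Finset.mem_filter.mp hx).2 b hb with h | h
    · rw [hfl] at h; cases h
    · exact h
  have hiso : ∀ x ∈ A, ∀ Φ : List (Cube m), Φ.Nodup → Φ ≠ [] → Φ.length ≤ d →
      ∃ D ∈ φ, ¬ ClauseSat D (flipOn x Φ) := by
    intro x hx Φ _ hne hlen
    by_contra hall
    push Not at hall
    exact flip_not_mem (hGmem x (hAG x hx)) Φ hne (by omega) (hsol _ hall)
  have hwide : ∀ x ∈ A, ∀ D ∈ φ, NoCompl D → K < D.card →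
      d < (D.filter (fun l => x l.1 = l.2)).card := by
    intro x hx D hD h1 h2
    obtain ⟨b, _, _, rfl⟩ := hφmem D hD
    exact (Finset.mem_filter.mp (hAG x hx)).2 b h1 h2
  have hmom := card_mul_le_of_moment φ A K d M hM B hU hsat hiso hwide
  -- arithmetic
  have hcardV : Fintype.card (Cube m) = 2 ^ m := by
    simp [Cube]
  rw [hcardV] at hmom
  have hnumMid : C.numMid ≤ C.size := by
    simp only [Depth3.size]; omega
  have hchain : 2 ^ (2 ^ m) ≤ 2 ^ ((checkSet r m).card + 1) * (C.size * A.card) := by
    calc 2 ^ (2 ^ m) ≤ (code r m).card * 2 ^ (checkSet r m).card := hlow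
      _ ≤ (2 * G.card) * 2 ^ (checkSet r m).card := Nat.mul_le_mul_right _ hG
      _ ≤ (2 * (C.numMid * A.card)) * 2 ^ (checkSet r m).card :=
          Nat.mul_le_mul_right _ (Nat.mul_le_mul_left _ hg)
      _ ≤ (2 * (C.size * A.card)) * 2 ^ (checkSet r m).card :=
          Nat.mul_le_mul_right _ (Nat.mul_le_mul_left _ (Nat.mul_le_mul_right _ hnumMid))
      _ = 2 ^ ((checkSet r m).card + 1) * (C.size * A.card) := by ring
  have hchainR : (2 : ℝ) ^ (2 ^ m) ≤ 2 ^ ((checkSet r m).card + 1) * ((C.size : ℝ) * A.card) := by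
    exact_mod_cast hchain
  by_cases hB : B ≤ 0
  · refine hB.trans ?_
    positivity
  · push Not at hB
    have hpos : (0 : ℝ) < 2 ^ (2 ^ m) := by positivity
    have h5 : B * (2 : ℝ) ^ (2 ^ m) ≤ (2 ^ ((checkSet r m).card + 1) * (C.size : ℝ)) * 2 ^ (2 ^ m) := by
      calc B * (2 : ℝ) ^ (2 ^ m) ≤ B * (2 ^ ((checkSet r m).card + 1) * ((C.size : ℝ) * A.card)) :=
            mul_le_mul_of_nonneg_left hchainR hB.le
        _ = (2 ^ ((checkSet r m).card + 1) * (C.size : ℝ)) * ((A.card : ℝ) * B) := by ring
        _ ≤ _ := mul_le_mul_of_nonneg_left hmom (by positivity)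
    exact le_of_mul_le_mul_right h5 hpos

end Vale.Agent.Lib.P336_h66
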