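/-
P336 (helper66): the bound for circuits of bounded bottom fan-in.
-/
import Vale.Agent.Lib.P336_h66.Step

namespace Vale.Agent.Lib.P336_h66

open Finset

variable {m : ℕ}

open Classical in
/-- Pigeonhole over the middle gates and the moment bound, for bottom fan-in at most `K`. -/
theorem moment_le_of_bottom {r K d M : ℕ} (hd : d < 2 ^ (r + 1)) (hM : 0 < M)
    (C : Depth3 (Cube m)) (hC : ∀ x, C.eval x ↔ rmMember r m x)
    (hbot : ∀ b, (C.bot b).1.card ≤ K) (B : ℝ)
    (hU : ∀ T : TS (Cube m) K, B ≤ (∑ τ : Cube m → Fin M, (2 : ℝ) ^ (FF T d τ)) /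
      (M : ℝ) ^ (Fintype.card (Cube m))) :
    B ≤ 2 ^ ((checkSet r m).card) * (C.size : ℝ) := by
  have hlow := card_code_lower' (m := m) r
  have hcode : 0 < (code r m).card := by
    by_contra h0
    have : (code r m).card = 0 := by omega
    rw [this, zero_mul] at hlow
    have : 0 < 2 ^ (2 ^ m) := by positivity
    omega
  set G := code r m with hGdef
  have hGmem : ∀ x ∈ G, rmMember r m x := by
    intro x hx
    have := (Finset.mem_filter.mp hx).2
    exact this
  -- acceptance sets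
  let acc : Fin C.numMid → Finset (Cube m → Bool) := fun g =>
    G.filter (fun x => ∀ b ∈ C.mid g, (C.bot b).2 = true ∨ ∃ l ∈ (C.bot b).1, x l.1 = l.2)
  have hcover : G ⊆ Finset.univ.biUnion acc := by
    intro x hx
    obtain ⟨g, hg⟩ := (hC x).mpr (hGmem x hx)
    exact Finset.mem_biUnion.mpr ⟨g, Finset.mem_univ _, Finset.mem_filter.mpr ⟨hx, hg⟩⟩
  have hGpos : 0 < G.card := hcode
  have hex : ∃ g, G.card ≤ C.numMid * (acc g).card := by
    by_contra hall
    push Not at hall
    have h1 : G.card ≤ ∑ g, (acc g).card :=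
      (Finset.card_le_card hcover).trans Finset.card_biUnion_le
    by_cases h0 : C.numMid = 0
    · have hemp : IsEmpty (Fin C.numMid) := ⟨fun i => by have := i.2; omega⟩
      have : (Finset.univ : Finset (Fin C.numMid)) = ∅ := Finset.eq_empty_of_isEmpty _
      rw [this] at hcover
      have : G = ∅ := by simpa using hcover
      rw [this] at hGpos
      simp at hGpos
    · have h2 : C.numMid * ∑ g, (acc g).card ≤ C.numMid * G.card - 0 := by
        rw [Finset.mul_sum]
        calc ∑ g, C.numMid * (acc g).card ≤ ∑ _g : Fin C.numMid, G.card :=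
              Finset.sum_le_sum (fun g _ => (hall g).le)
          _ = C.numMid * G.card := by
              rw [Finset.sum_const, Finset.card_univ, Fintype.card_fin, smul_eq_mul]
          _ = C.numMid * G.card - 0 := by simp
      have hne : (Finset.univ : Finset (Fin C.numMid)).Nonempty :=
        ⟨⟨0, Nat.pos_of_ne_zero h0⟩, Finset.mem_univ _⟩
      have h3 : ∑ g, C.numMid * (acc g).card < ∑ _g : Fin C.numMid, G.card :=
        Finset.sum_lt_sum_of_nonempty hne (fun g _ => hall g)
      rw [Finset.sum_const, Finset.card_univ, Fintype.card_fin, smul_eq_mul, ← Finset.mul_sum] at h3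
      have h4 : C.numMid * G.card ≤ C.numMid * ∑ g, (acc g).card :=
        Nat.mul_le_mul_left _ h1
      omega
  obtain ⟨g, hg⟩ := hex
  set A := acc g with hA
  -- the CNF of this gate
  let φ : Finset (Finset (Cube m × Bool)) :=
    ((C.mid g).filter (fun b => (C.bot b).2 = false)).image (fun b => (C.bot b).1)
  have hφmem : ∀ D ∈ φ, ∃ b ∈ C.mid g, (C.bot b).2 = false ∧ D = (C.bot b).1 := by
    intro D hD
    obtain ⟨b, hb, rfl⟩ := Finset.mem_image.mp hD
    have hb' := Finset.mem_filter.mp hb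
    exact ⟨b, hb'.1, hb'.2, rfl⟩
  have hsol : ∀ y : Cube m → Bool, (∀ D ∈ φ, ClauseSat D y) → rmMember r m y := by
    intro y hy
    apply (hC y).mp
    refine ⟨g, ?_⟩
    intro b hb
    by_cases hfl : (C.bot b).2 = true
    · exact Or.inl hfl
    · right
      have hfl' : (C.bot b).2 = false := by simpa using hfl
      exact hy _ (Finset.mem_image.mpr ⟨b, Finset.mem_filter.mpr ⟨hb, hfl'⟩, rfl⟩)
  have hAG : ∀ x ∈ A, x ∈ G := fun x hx => (Finset.mem_filter.mp hx).1
  have hsat : ∀ x ∈ A, ∀ D ∈ φ, ClauseSat D x := by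
    intro x hx D hD
    obtain ⟨b, hb, hfl, rfl⟩ := hφmem D hD
    rcases (Finset.mem_filter.mp hx).2 b hb with h | h
    · rw [hfl] at h; cases h
    · exact h
  have hiso : ∀ x ∈ A, ∀ Φ : List (Cube m), Φ.Nodup → Φ ≠ [] → Φ.length ≤ d →
      ∃ D ∈ φ, ¬ ClauseSat D (flipOn x Φ) := by
    intro x hx Φ _ hne hlen
    by_contra hall
    push Not at hall
    exact flip_not_mem (hGmem x (hAG x hx)) Φ hne (by omega) (hsol _ hall)
  have hwide : ∀ x ∈ A, ∀ D ∈ φ, NoCompl D → K < D.card →
      d < (D.filter (fun l => x l.1 = l.2)).card := by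
    intro x hx D hD _ h2
    obtain ⟨b, _, _, rfl⟩ := hφmem D hD
    exact absurd (hbot b) (by omega)
  have hmom := card_mul_le_of_moment φ A K d M hM B hU hsat hiso hwide
  -- arithmetic
  have hcardV : Fintype.card (Cube m) = 2 ^ m := by
    simp [Cube]
  rw [hcardV] at hmom
  have hnumMid : C.numMid ≤ C.size := by
    simp only [Depth3.size]; omega
  have hchain : 2 ^ (2 ^ m) ≤ 2 ^ ((checkSet r m).card) * (C.size * A.card) := by
    calc 2 ^ (2 ^ m) ≤ (code r m).card * 2 ^ (checkSet r m).card := hlow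
      _ ≤ (C.numMid * A.card) * 2 ^ (checkSet r m).card := Nat.mul_le_mul_right _ hg
      _ ≤ (C.size * A.card) * 2 ^ (checkSet r m).card :=
          Nat.mul_le_mul_right _ (Nat.mul_le_mul_right _ hnumMid)
      _ = 2 ^ ((checkSet r m).card) * (C.size * A.card) := by ring
  have hchainR : (2 : ℝ) ^ (2 ^ m) ≤ 2 ^ ((checkSet r m).card) * ((C.size : ℝ) * A.card) := by
    exact_mod_cast hchain
  by_cases hB : B ≤ 0
  · refine hB.trans ?_
    positivity
  · push Not at hB
    have hpos : (0 : ℝ) < 2 ^ (2 ^ m) := by positivity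
    have h5 : B * (2 : ℝ) ^ (2 ^ m) ≤ (2 ^ ((checkSet r m).card) * (C.size : ℝ)) * 2 ^ (2 ^ m) := by
      calc B * (2 : ℝ) ^ (2 ^ m) ≤ B * (2 ^ ((checkSet r m).card) * ((C.size : ℝ) * A.card)) :=
            mul_le_mul_of_nonneg_left hchainR hB.le
        _ = (2 ^ ((checkSet r m).card) * (C.size : ℝ)) * ((A.card : ℝ) * B) := by ring
        _ ≤ _ := mul_le_mul_of_nonneg_left hmom (by positivity)
    exact le_of_mul_le_mul_right h5 hpos

/-- A universal moment bound gives a lower bound for every bottom fan-in `K`. -/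
theorem bottom_of_universal (μ : ℝ) (h : UniversalBound μ) :
    ∃ r K₀ : ℕ, ∀ K ≥ K₀, ∀ m : ℕ, ∀ C : Depth3 (Fin m → Bool),
      (∀ b, (C.bot b).1.card ≤ K) → (∀ x, C.eval x ↔ rmMember r m x) →
      (2 : ℝ) ^ (μ * (2 : ℝ) ^ m / K) ≤ 2 ^ ((m + 1) ^ r) * (C.size : ℝ) := by
  obtain ⟨K₀, d₀, hU⟩ := h
  refine ⟨d₀, K₀, ?_⟩
  intro K hK m C hbot hC
  set r := d₀ with hr
  set d := 2 ^ (r + 1) - 1 with hd
  have hdlt : d < 2 ^ (r + 1) := by
    have : 0 < 2 ^ (r + 1) := by positivity
    omega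
  have hd₀ : d₀ ≤ d := by
    have : r + 1 < 2 ^ (r + 1) := Nat.lt_two_pow_self
    have hrd : r = d₀ := rfl
    omega
  obtain ⟨N, hN, hUN⟩ := hU K hK d hd₀
  have hKpos : 0 < K ∨ K = 0 := by omega
  rcases hKpos with hKpos | hK0
  · have hM : 0 < K * N := Nat.mul_pos hKpos hN
    have hmom := moment_le_of_bottom hdlt hM C hC hbot _ (fun T => hUN (Cube m) T)
    have hcard : (Fintype.card (Cube m) : ℝ) = 2 ^ m := by
      simp [Cube]
    rw [hcard] at hmom
    refine le_trans hmom ?_
    apply mul_le_mul_of_nonneg_right _ (Nat.cast_nonneg _)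
    have h3 := card_checkSet_le r m
    exact pow_le_pow_right₀ (by norm_num) h3
  · subst hK0
    -- with `K = 0` the exponent vanishes
    have h1 : (1 : ℝ) ≤ 2 ^ ((m + 1) ^ r) * (C.size : ℝ) := by
      have h2 : (1 : ℝ) ≤ 2 ^ ((m + 1) ^ r) := one_le_pow₀ (by norm_num)
      have h3 : (1 : ℝ) ≤ (C.size : ℝ) := by
        have : 1 ≤ C.size := by simp [Depth3.size]
        exact_mod_cast this
      nlinarith
    simpa using h1

end Vale.Agent.Lib.P336_h66
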