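/-
P336 PART L9 (helper1): the limit computation for the recursion `betaSeq`.
See BLUEPRINT.md.  Main result: `calc_main`.
-/
import Vale.Agent.Lib.P336_h66.Defs

namespace Vale.Agent.Lib.P336_h66

open Finset

lemma betaSeq_succ' (r : ℝ) (K j : ℕ) :
    betaSeq r K (j + 1) = 1 - (1 - r * betaSeq r K j) ^ K := rfl

lemma betaSeq_bounds {r : ℝ} (h0 : 0 ≤ r) (h1 : r ≤ 1) (K j : ℕ) :
    0 ≤ betaSeq r K j ∧ betaSeq r K j ≤ 1 := by
  induction j with
  | zero => simp [betaSeq]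
  | succ j ih =>
    rw [betaSeq_succ']
    have h2 : r * betaSeq r K j ≤ 1 := by
      calc r * betaSeq r K j ≤ 1 * 1 := mul_le_mul h1 ih.2 ih.1 (by norm_num)
        _ = 1 := by norm_num
    have h3 : 0 ≤ r * betaSeq r K j := mul_nonneg h0 ih.1
    have h4 : 0 ≤ (1 - r * betaSeq r K j) ^ K := pow_nonneg (by linarith) K
    have h5 : (1 - r * betaSeq r K j) ^ K ≤ 1 := pow_le_one₀ (by linarith) (by linarith)
    constructor <;> linarith

lemma betaSeq_step_le {r : ℝ} (h0 : 0 ≤ r) (h1 : r ≤ 1) (K j : ℕ) :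
    betaSeq r K (j + 1) ≤ betaSeq r K j := by
  induction j with
  | zero =>
    have := (betaSeq_bounds h0 h1 K 1).2
    simpa [betaSeq] using this
  | succ j ih =>
    have hb := betaSeq_bounds h0 h1 K j
    have hb' := betaSeq_bounds h0 h1 K (j + 1)
    have h2 : r * betaSeq r K j ≤ 1 := by
      calc r * betaSeq r K j ≤ 1 * 1 := mul_le_mul h1 hb.2 hb.1 (by norm_num)
        _ = 1 := by norm_num
    have h3 : r * betaSeq r K (j + 1) ≤ r * betaSeq r K j :=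
      mul_le_mul_of_nonneg_left ih h0
    have h4 : (1 - r * betaSeq r K j) ^ K ≤ (1 - r * betaSeq r K (j + 1)) ^ K :=
      pow_le_pow_left₀ (by linarith) (by linarith) K
    calc betaSeq r K (j + 1 + 1) = 1 - (1 - r * betaSeq r K (j + 1)) ^ K := rfl
      _ ≤ 1 - (1 - r * betaSeq r K j) ^ K := by linarith
      _ = betaSeq r K (j + 1) := rfl

lemma betaSeq_antitone {r : ℝ} (h0 : 0 ≤ r) (h1 : r ≤ 1) (K : ℕ) :
    Antitone (betaSeq r K) :=
  antitone_nat_of_succ_le (betaSeq_step_le h0 h1 K)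

/-- Tangent-line bound for powers. -/
lemma pow_succ_add_ge {u t : ℝ} (hu : 0 ≤ u) (ht : 0 ≤ t) (K : ℕ) :
    u ^ (K + 1) + ((K : ℝ) + 1) * u ^ K * t ≤ (u + t) ^ (K + 1) := by
  induction K with
  | zero => simp
  | succ K ih =>
    have h1 : 0 ≤ u + t := add_nonneg hu ht
    calc u ^ (K + 1 + 1) + (((K + 1 : ℕ) : ℝ) + 1) * u ^ (K + 1) * t
        ≤ (u ^ (K + 1) + ((K : ℝ) + 1) * u ^ K * t) * (u + t) := by
          push_cast
          have : 0 ≤ u ^ (K + 1) * t := mul_nonneg (pow_nonneg hu _) ht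
          have h2 : 0 ≤ ((K : ℝ) + 1) * u ^ K * t * t := by positivity
          have h3 : (u ^ (K + 1) + ((K : ℝ) + 1) * u ^ K * t) * (u + t)
              = u ^ (K + 1 + 1) + ((K : ℝ) + 1 + 1) * u ^ (K + 1) * t
                + ((K : ℝ) + 1) * u ^ K * t * t := by
            ring
          rw [h3]; linarith
      _ ≤ (u + t) ^ (K + 1) * (u + t) := mul_le_mul_of_nonneg_right ih h1
      _ = (u + t) ^ (K + 1 + 1) := by ring

/-- The key one-step gain at the point `x̂ = 1 - u^K`. -/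
lemma gain_at_hat {r u θ : ℝ} {K : ℕ} (hK : 1 ≤ K) (hu0 : 0 < u) (hu1 : u < 1)
    (hθ0 : 0 < θ) (hθ1 : θ < 1) (hr : r * (1 - u ^ K) ≤ (1 - θ) * (1 - u)) :
    u ^ K + u ^ K * θ * (1 - u ^ K) ≤ (1 - r * (1 - u ^ K)) ^ K := by
  obtain ⟨k, rfl⟩ : ∃ k, K = k + 1 := ⟨K - 1, by omega⟩
  have ha : u + θ * (1 - u) ≤ 1 - r * (1 - u ^ (k + 1)) := by nlinarith
  have ht : 0 ≤ θ * (1 - u) := mul_nonneg hθ0.le (by linarith)
  have h1 : u ^ (k + 1) + ((k : ℝ) + 1) * u ^ k * (θ * (1 - u)) ≤ (u + θ * (1 - u)) ^ (k + 1) :=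
    pow_succ_add_ge hu0.le ht k
  have h2 : (u + θ * (1 - u)) ^ (k + 1) ≤ (1 - r * (1 - u ^ (k + 1))) ^ (k + 1) :=
    pow_le_pow_left₀ (by positivity) ha _
  have h3 : 1 - u ^ (k + 1) ≤ ((k : ℝ) + 1) * (1 - u) := by
    have := mul_neg_geom_sum u (k + 1)
    have hsum : ∑ i ∈ range (k + 1), u ^ i ≤ (k : ℝ) + 1 := by
      calc ∑ i ∈ range (k + 1), u ^ i ≤ ∑ _i ∈ range (k + 1), (1 : ℝ) :=
            sum_le_sum (fun i _ => pow_le_one₀ hu0.le hu1.le)
        _ = (k : ℝ) + 1 := by simp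
    nlinarith
  have h4 : u ^ (k + 1) ≤ u ^ k := by
    rw [pow_succ]; nlinarith [pow_pos hu0 k]
  have h5 : u ^ (k + 1) * θ * (1 - u ^ (k + 1)) ≤ ((k : ℝ) + 1) * u ^ k * (θ * (1 - u)) := by
    have hp : 0 ≤ u ^ k := (pow_pos hu0 k).le
    have h6 : u ^ (k + 1) * (1 - u ^ (k + 1)) ≤ u ^ k * (((k : ℝ) + 1) * (1 - u)) := by
      apply mul_le_mul h4 h3 _ hp
      have : u ^ (k + 1) ≤ 1 := pow_le_one₀ hu0.le hu1.le
      linarith
    nlinarith
  linarith

/-- Descent on the whole range `x ≥ x̂`. -/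
lemma gain_of_ge {r u θ x : ℝ} {K : ℕ} (hK : 1 ≤ K) (hu0 : 0 < u) (hu1 : u < 1)
    (hθ0 : 0 < θ) (hθ1 : θ < 1) (hr0 : 0 ≤ r) (hr1 : r ≤ 1)
    (hr : r * (1 - u ^ K) ≤ (1 - θ) * (1 - u))
    (hx : 1 - u ^ K ≤ x) (hx1 : x ≤ 1) :
    1 - (1 - r * x) ^ K ≤ x - u ^ K * θ * (1 - u ^ K) := by
  set w := u ^ K with hw
  have hw0 : 0 < w := pow_pos hu0 K
  have hw1 : w < 1 := pow_lt_one₀ hu0.le hu1 (by omega)
  set xh := 1 - w with hxh
  have hxh0 : 0 < xh := by simp [hxh]; linarith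
  have hx0 : 0 < x := lt_of_lt_of_le hxh0 hx
  set δ := w * θ * (1 - w) with hδ
  have hδ0 : 0 < δ := by
    have : 0 < 1 - w := by linarith
    positivity
  have hgain : w + δ ≤ (1 - r * xh) ^ K := gain_at_hat hK hu0 hu1 hθ0 hθ1 hr
  -- convexity
  set lam := xh / x with hlam
  have hlam0 : 0 < lam := div_pos hxh0 hx0
  have hlam1 : lam ≤ 1 := (div_le_one hx0).2 hx
  set b := 1 - r * x with hb
  have hb0 : 0 ≤ b := by
    have : r * x ≤ 1 * 1 := mul_le_mul hr1 hx1 hx0.le (by norm_num)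
    simp only [hb]; linarith
  have hconv := (convexOn_pow K).2 (Set.mem_Ici.2 hb0) (Set.mem_Ici.2 (zero_le_one' ℝ))
    hlam0.le (sub_nonneg.2 hlam1) (by ring)
  simp only [smul_eq_mul, one_pow, mul_one] at hconv
  have hax : lam * b + (1 - lam) = 1 - r * xh := by
    simp only [hb, hlam]
    field_simp
    ring
  rw [hax] at hconv
  have h2 : lam * b ^ K ≥ w + δ - (1 - lam) := by linarith
  -- multiply by x / xh
  have h3 : lam * x = xh := by simp only [hlam]; field_simp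
  have h4 : x * (lam * b ^ K) = xh * b ^ K := by rw [← h3]; ring
  have h5 : xh * b ^ K ≥ x * (w + δ - (1 - lam)) := by
    rw [← h4]; exact mul_le_mul_of_nonneg_left h2 hx0.le
  have h6 : x * (w + δ - (1 - lam)) = x * (δ - xh) + xh := by
    have : w = 1 - xh := by simp [hxh]
    rw [this]; nlinarith
  have h7 : xh * (b ^ K - 1 + x - δ) ≥ 0 := by
    have : xh * (b ^ K - 1 + x - δ) = xh * b ^ K - xh * (1 - x + δ) := by ring
    rw [this]
    have h8 : x * δ ≥ xh * δ := mul_le_mul_of_nonneg_right hx hδ0.le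
    nlinarith
  have h9 : b ^ K - 1 + x - δ ≥ 0 := by
    by_contra hneg
    push Not at hneg
    have : xh * (b ^ K - 1 + x - δ) < 0 := mul_neg_of_pos_of_neg hxh0 hneg
    linarith
  linarith

/-- Uniform descent: after about `1/δ` steps `betaSeq` is below `1 - u^K`. -/
lemma betaSeq_le_of_steps {r u θ : ℝ} {K : ℕ} (hK : 1 ≤ K) (hu0 : 0 < u) (hu1 : u < 1)
    (hθ0 : 0 < θ) (hθ1 : θ < 1) (hr0 : 0 ≤ r) (hr1 : r ≤ 1)
    (hr : r * (1 - u ^ K) ≤ (1 - θ) * (1 - u)) {j : ℕ}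
    (hj : 1 ≤ (j : ℝ) * (u ^ K * θ * (1 - u ^ K))) :
    betaSeq r K j ≤ 1 - u ^ K := by
  by_contra hcon
  push Not at hcon
  set δ := u ^ K * θ * (1 - u ^ K) with hδ
  have hanti := betaSeq_antitone hr0 hr1 K
  have hw0 : 0 < u ^ K := pow_pos hu0 K
  have hw1 : u ^ K < 1 := pow_lt_one₀ hu0.le hu1 (by omega)
  have key : ∀ i, i ≤ j → betaSeq r K i ≤ 1 - (i : ℝ) * δ := by
    intro i
    induction i with
    | zero => intro _; simp [betaSeq]
    | succ i ih =>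
      intro hi
      have h1 := ih (by omega)
      have h2 : betaSeq r K j ≤ betaSeq r K i := hanti (by omega)
      have h3 : 1 - u ^ K ≤ betaSeq r K i := by linarith
      have h4 := gain_of_ge hK hu0 hu1 hθ0 hθ1 hr0 hr1 hr h3 (betaSeq_bounds hr0 hr1 K i).2
      rw [betaSeq_succ']
      push_cast
      nlinarith
  have h5 := key j le_rfl
  have h6 : 0 < 1 - u ^ K := by linarith
  linarith


/-! ### The function `h` -/

/-- `h(w) = (1 - w^{1/K}) / (1 - w) = 1 / Σ_{i<K} w^{i/K}`. -/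
noncomputable def hK (K : ℕ) (w : ℝ) : ℝ :=
  1 / ∑ i ∈ range K, (w ^ ((1 : ℝ) / K)) ^ i

lemma geomsum_ge_one {K : ℕ} (hK : 1 ≤ K) {u : ℝ} (hu : 0 ≤ u) :
    1 ≤ ∑ i ∈ range K, u ^ i := by
  obtain ⟨k, rfl⟩ : ∃ k, K = k + 1 := ⟨K - 1, by omega⟩
  rw [sum_range_succ']
  simp only [pow_zero]
  have : 0 ≤ ∑ k_1 ∈ range k, u ^ (k_1 + 1) := sum_nonneg (fun i _ => pow_nonneg hu _)
  linarith

lemma hK_pos {K : ℕ} (hK' : 1 ≤ K) {w : ℝ} (hw : 0 ≤ w) : 0 < hK K w := by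
  have h := geomsum_ge_one hK' (Real.rpow_nonneg hw ((1 : ℝ) / K))
  exact one_div_pos.2 (by linarith)

lemma hK_le_one {K : ℕ} (hK' : 1 ≤ K) {w : ℝ} (hw : 0 ≤ w) : hK K w ≤ 1 := by
  have h := geomsum_ge_one hK' (Real.rpow_nonneg hw ((1 : ℝ) / K))
  unfold hK
  rw [div_le_one (by linarith)]
  exact h

lemma hK_antitone {K : ℕ} (hK' : 1 ≤ K) : AntitoneOn (hK K) (Set.Ici 0) := by
  intro a ha b hb hab
  have ha' : (0 : ℝ) ≤ a := ha
  have hb' : (0 : ℝ) ≤ b := hb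
  have h0 := Real.rpow_nonneg ha' ((1 : ℝ) / K)
  have h1 : a ^ ((1 : ℝ) / K) ≤ b ^ ((1 : ℝ) / K) :=
    Real.rpow_le_rpow ha' hab (by positivity)
  have h2 : ∑ i ∈ range K, (a ^ ((1 : ℝ) / K)) ^ i ≤ ∑ i ∈ range K, (b ^ ((1 : ℝ) / K)) ^ i :=
    sum_le_sum (fun i _ => pow_le_pow_left₀ h0 h1 i)
  have h3 := geomsum_ge_one hK' h0
  unfold hK
  exact one_div_le_one_div_of_le (by linarith) h2

lemma rpow_inv_pow {K : ℕ} (hK' : 1 ≤ K) {w : ℝ} (hw : 0 ≤ w) :
    (w ^ ((1 : ℝ) / K)) ^ K = w := by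
  have hK0 : (K : ℝ) ≠ 0 := by
    have : (0 : ℝ) < K := by exact_mod_cast hK'
    exact this.ne'
  rw [← Real.rpow_natCast, ← Real.rpow_mul hw]
  field_simp
  simp

lemma hK_mul {K : ℕ} (hK' : 1 ≤ K) {w : ℝ} (hw : 0 ≤ w) :
    hK K w * (1 - w) = 1 - w ^ ((1 : ℝ) / K) := by
  set u := w ^ ((1 : ℝ) / K) with hu
  have h0 : 0 ≤ u := Real.rpow_nonneg hw _
  have h1 := geomsum_ge_one hK' h0
  have h2 := mul_neg_geom_sum u K
  rw [rpow_inv_pow hK' hw] at h2
  unfold hK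
  rw [← hu, ← h2]
  field_simp

/-- Uniform descent in terms of `h`. -/
lemma betaSeq_le_grid {r w θ : ℝ} {K j : ℕ} (hK' : 1 ≤ K) (hw0 : 0 < w) (hw1 : w < 1)
    (hθ0 : 0 < θ) (hθ1 : θ < 1) (hr0 : 0 ≤ r) (hr1 : r ≤ 1) (hr : r ≤ (1 - θ) * hK K w)
    (hj : 1 ≤ (j : ℝ) * (w * θ * (1 - w))) :
    betaSeq r K j ≤ 1 - w := by
  set u := w ^ ((1 : ℝ) / K) with hu
  have hK0 : (0 : ℝ) < K := by exact_mod_cast hK'
  have hu0 : 0 < u := Real.rpow_pos_of_pos hw0 _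
  have hu1 : u < 1 := Real.rpow_lt_one hw0.le hw1 (by positivity)
  have huK : u ^ K = w := rpow_inv_pow hK' hw0.le
  have hm := hK_mul hK' hw0.le
  rw [← hu] at hm
  have hr' : r * (1 - u ^ K) ≤ (1 - θ) * (1 - u) := by
    rw [huK, ← hm]
    have : 0 ≤ 1 - w := by linarith
    calc r * (1 - w) ≤ ((1 - θ) * hK K w) * (1 - w) := mul_le_mul_of_nonneg_right hr this
      _ = (1 - θ) * (hK K w * (1 - w)) := by ring
  have := betaSeq_le_of_steps hK' hu0 hu1 hθ0 hθ1 hr0 hr1 hr' (j := j) (by rw [huK]; exact hj)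
  rwa [huK] at this

/-! ### Layer cake -/

lemma count_ge {c : ℝ} (hc0 : 0 ≤ c) (hc1 : c ≤ 1) {M : ℕ} (hM : 0 < M) :
    c * M - 1 ≤ (((range M).filter (fun l : ℕ => ((l : ℝ) + 1) / M ≤ c)).card : ℝ) := by
  have hM' : (0 : ℝ) < M := by exact_mod_cast hM
  set q := ⌊c * M⌋₊ with hq
  have hqM : q ≤ M := by
    have : c * M ≤ M := by nlinarith
    have h2 : (q : ℝ) ≤ c * M := Nat.floor_le (by positivity)
    exact_mod_cast h2.trans this
  have hsub : range q ⊆ (range M).filter (fun l : ℕ => ((l : ℝ) + 1) / M ≤ c) := by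
    intro l hl
    rw [mem_range] at hl
    rw [mem_filter, mem_range]
    refine ⟨by omega, ?_⟩
    rw [div_le_iff₀ hM']
    have h2 : (q : ℝ) ≤ c * M := Nat.floor_le (by positivity)
    have h3 : ((l : ℝ) + 1) ≤ q := by exact_mod_cast hl
    linarith
  have hcard := card_le_card hsub
  rw [card_range] at hcard
  have h4 : c * M < q + 1 := Nat.lt_floor_add_one _
  have h5 : (q : ℝ) ≤ _ := Nat.cast_le.2 hcard
  linarith

lemma count_le {g : ℝ} (hg : 0 ≤ g) {T : ℕ} (hT : 0 < T) :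
    (((range (T - 1)).filter (fun t : ℕ => ((t : ℝ) + 1) / T ≤ g)).card : ℝ) ≤ g * T := by
  have hT' : (0 : ℝ) < T := by exact_mod_cast hT
  set q := ⌊g * T⌋₊ with hq
  have hsub : (range (T - 1)).filter (fun t : ℕ => ((t : ℝ) + 1) / T ≤ g) ⊆ range q := by
    intro t ht
    rw [mem_filter] at ht
    rw [mem_range]
    have h := ht.2
    rw [div_le_iff₀ hT'] at h
    have : t + 1 ≤ q := Nat.le_floor (by push_cast; exact h)
    omega
  have hcard := card_le_card hsub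
  rw [card_range] at hcard
  have h2 : (q : ℝ) ≤ g * T := Nat.floor_le (by positivity)
  have h3 : (((range (T - 1)).filter (fun t : ℕ => ((t : ℝ) + 1) / T ≤ g)).card : ℝ) ≤ q :=
    Nat.cast_le.2 hcard
  linarith

lemma sum_ge_layer {M T : ℕ} (hM : 0 < M) (hT : 0 < T) (g : ℕ → ℝ)
    (hg0 : ∀ l < M, 0 ≤ g l) (c : ℕ → ℝ) (hc0 : ∀ t < T - 1, 0 ≤ c t)
    (hc1 : ∀ t < T - 1, c t ≤ 1)
    (h : ∀ t < T - 1, ∀ l < M, ((l : ℝ) + 1) / M ≤ c t → ((t : ℝ) + 1) / T ≤ g l) :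
    (∑ t ∈ range (T - 1), (c t - 1 / M)) / T ≤ (∑ l ∈ range M, g l) / M := by
  classical
  have hM' : (0 : ℝ) < M := by exact_mod_cast hM
  have hT' : (0 : ℝ) < T := by exact_mod_cast hT
  -- double counting
  have h1 : ∑ t ∈ range (T - 1), (c t * M - 1) ≤
      ∑ t ∈ range (T - 1), ∑ l ∈ range M,
        (if ((t : ℝ) + 1) / T ≤ g l then (1 : ℝ) else 0) := by
    apply sum_le_sum
    intro t ht
    have ht' := mem_range.1 ht
    have h2 := count_ge (hc0 t ht') (hc1 t ht') hM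
    refine h2.trans ?_
    rw [← sum_boole]
    apply sum_le_sum
    intro l hl
    have hl' := mem_range.1 hl
    by_cases hc : ((l : ℝ) + 1) / M ≤ c t
    · simp only [hc, if_true]
      have := h t ht' l hl' hc
      rw [if_pos this]
    · simp only [hc, if_false]
      split_ifs <;> norm_num
  have h3 : ∑ t ∈ range (T - 1), ∑ l ∈ range M,
        (if ((t : ℝ) + 1) / T ≤ g l then (1 : ℝ) else 0) ≤ ∑ l ∈ range M, g l * T := by
    rw [sum_comm]
    apply sum_le_sum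
    intro l hl
    have hl' := mem_range.1 hl
    rw [sum_boole]
    exact count_le (hg0 l hl') hT
  have h4 : ∑ t ∈ range (T - 1), (c t * M - 1) = (∑ t ∈ range (T - 1), (c t - 1 / M)) * M := by
    rw [sum_mul]
    apply sum_congr rfl
    intro t _
    field_simp
  have h5 : ∑ l ∈ range M, g l * T = (∑ l ∈ range M, g l) * T := by
    rw [sum_mul]
  rw [div_le_div_iff₀ hT' hM']
  rw [h4] at h1
  rw [h5] at h3
  linarith

/-! ### Riemann sum against integral -/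

lemma integral_le_riemann {T : ℕ} (hT : 2 ≤ T) (G : ℝ → ℝ)
    (hG : AntitoneOn G (Set.Icc (1 / (T : ℝ)) 1)) :
    ∫ w in (1 / (T : ℝ))..1, G w ≤ (∑ t ∈ range (T - 1), G (((t : ℝ) + 1) / T)) / T := by
  have hT' : (0 : ℝ) < T := by positivity
  have hTne : (T : ℝ) ≠ 0 := hT'.ne'
  set f : ℝ → ℝ := fun x => G (x / T) with hf
  have hcast : (1 : ℝ) + ((T - 1 : ℕ) : ℝ) = T := by
    have : ((T - 1 : ℕ) : ℝ) = (T : ℝ) - 1 := by
      rw [Nat.cast_sub (by omega)]; simp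
    rw [this]; ring
  have hanti : AntitoneOn f (Set.Icc (1 : ℝ) (1 + ((T - 1 : ℕ) : ℝ))) := by
    rw [hcast]
    intro a ha b hb hab
    apply hG
    · exact ⟨by rw [div_le_div_iff_of_pos_right hT']; exact ha.1,
        by rw [div_le_one hT']; exact ha.2⟩
    · exact ⟨by rw [div_le_div_iff_of_pos_right hT']; exact hb.1,
        by rw [div_le_one hT']; exact hb.2⟩
    · rw [div_le_div_iff_of_pos_right hT']; exact hab
  have h1 := AntitoneOn.integral_le_sum hanti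
  rw [hcast] at h1
  have h2 : ∫ x in (1 : ℝ)..T, f x = (T : ℝ) * ∫ w in (1 / (T : ℝ))..1, G w := by
    simp only [hf]
    rw [intervalIntegral.integral_comp_div (fun w => G w) hTne]
    simp [hTne]
  rw [h2] at h1
  rw [le_div_iff₀ hT']
  have h3 : ∑ i ∈ range (T - 1), f (1 + (i : ℝ)) = ∑ t ∈ range (T - 1), G (((t : ℝ) + 1) / T) := by
    apply sum_congr rfl
    intro t _
    simp only [hf]
    congr 2
    ring
  rw [h3] at h1
  linarith


/-! ### The integral of the truncated series -/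

/-- One term of the series. -/
lemma integral_term {T K i : ℕ} (hT : 2 ≤ T) (hK' : 1 ≤ K) :
    ∫ w in (1 / (T : ℝ))..1, (K : ℝ) * (1 - w ^ ((1 : ℝ) / K)) * w ^ i =
      (K : ℝ) * ((1 - (1 / (T : ℝ)) ^ (i + 1)) / ((i : ℝ) + 1) -
        (1 - (1 / (T : ℝ)) ^ ((i : ℝ) + (1 : ℝ) / K + 1)) / ((i : ℝ) + (1 : ℝ) / K + 1)) := by
  have hT' : (0 : ℝ) < T := by positivity
  have hK0 : (0 : ℝ) < K := by exact_mod_cast hK'
  have hε : (0 : ℝ) < 1 / (T : ℝ) := by positivity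
  have hε1 : (1 : ℝ) / T ≤ 1 := by
    rw [div_le_one hT']
    have : (2 : ℝ) ≤ T := by exact_mod_cast hT
    linarith
  have hnot : (0 : ℝ) ∉ Set.uIcc (1 / (T : ℝ)) 1 := by
    rw [Set.uIcc_of_le hε1]
    intro h
    exact absurd h.1 (not_le.2 hε)
  have hr : (-1 : ℝ) < (i : ℝ) + (1 : ℝ) / K := by
    have : (0 : ℝ) ≤ (i : ℝ) + (1 : ℝ) / K := by positivity
    linarith
  have hcongr : ∫ w in (1 / (T : ℝ))..1, (K : ℝ) * (1 - w ^ ((1 : ℝ) / K)) * w ^ i =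
      ∫ w in (1 / (T : ℝ))..1, (K : ℝ) * (w ^ i - w ^ ((i : ℝ) + (1 : ℝ) / K)) := by
    apply intervalIntegral.integral_congr
    intro w hw
    rw [Set.uIcc_of_le hε1] at hw
    have hw0 : 0 < w := lt_of_lt_of_le hε hw.1
    simp only
    rw [Real.rpow_add hw0, Real.rpow_natCast]
    ring
  rw [hcongr, intervalIntegral.integral_const_mul, intervalIntegral.integral_sub]
  · rw [integral_pow, integral_rpow (Or.inl hr)]
    simp only [one_pow, Real.one_rpow]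
  · exact (continuous_pow i).intervalIntegrable _ _
  · apply ContinuousOn.intervalIntegrable
    intro w hw
    rw [Set.uIcc_of_le hε1] at hw
    have hw0 : 0 < w := lt_of_lt_of_le hε hw.1
    exact (Real.continuousAt_rpow_const w _ (Or.inl hw0.ne')).continuousWithinAt

/-- Closed-form lower bound for one term. -/
lemma term_lower {T K i : ℕ} (hT : 2 ≤ T) (hK' : 1 ≤ K) :
    1 / ((i : ℝ) + 1) ^ 2 - 1 / (K : ℝ) - (1 / (T : ℝ)) ^ (i + 1) * (1 + Real.log T) ≤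
      (K : ℝ) * ((1 - (1 / (T : ℝ)) ^ (i + 1)) / ((i : ℝ) + 1) -
        (1 - (1 / (T : ℝ)) ^ ((i : ℝ) + (1 : ℝ) / K + 1)) / ((i : ℝ) + (1 : ℝ) / K + 1)) := by
  have hT2 : (2 : ℝ) ≤ T := by exact_mod_cast hT
  have hT' : (0 : ℝ) < T := by positivity
  have hK0 : (0 : ℝ) < K := by exact_mod_cast hK'
  have hK1 : (1 : ℝ) ≤ K := by exact_mod_cast hK'
  set a : ℝ := (i : ℝ) + 1 with ha
  have ha1 : 1 ≤ a := by simp only [ha]; have : (0 : ℝ) ≤ i := Nat.cast_nonneg i; linarith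
  have ha0 : 0 < a := by linarith
  set κ : ℝ := 1 / (K : ℝ) with hκ
  have hκ0 : 0 < κ := by positivity
  have hKκ : (K : ℝ) * κ = 1 := by simp only [hκ]; field_simp
  set ε : ℝ := 1 / (T : ℝ) with hε
  have hε0 : 0 < ε := by positivity
  have hε1 : ε ≤ 1 := by
    simp only [hε]; rw [div_le_one hT']; linarith
  have hexp : (i : ℝ) + κ + 1 = a + κ := by simp only [ha]; ring
  rw [hexp]
  have hsplit : ε ^ (a + κ) = ε ^ (i + 1) * ε ^ κ := by
    rw [Real.rpow_add hε0]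
    congr 1
    simp only [ha]
    rw [← Nat.cast_add_one, Real.rpow_natCast]
  rw [hsplit]
  set e := ε ^ (i + 1) with he
  have he0 : 0 ≤ e := by positivity
  set z := ε ^ κ with hz
  have hz0 : 0 < z := Real.rpow_pos_of_pos hε0 _
  have hz1 : z ≤ 1 := Real.rpow_le_one hε0.le hε1 hκ0.le
  have hlog : Real.log ε = - Real.log T := by
    simp only [hε]; rw [one_div, Real.log_inv]
  -- K (1 - z) ≤ log T
  have hzlow : 1 - κ * Real.log T ≤ z := by
    have h1 : z = Real.exp (Real.log ε * κ) := by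
      rw [hz, Real.rpow_def_of_pos hε0]
    have h2 := Real.add_one_le_exp (Real.log ε * κ)
    rw [← h1, hlog] at h2
    nlinarith
  have hKz : (K : ℝ) * (1 - z) ≤ Real.log T := by
    have : (K : ℝ) * (1 - z) ≤ (K : ℝ) * (κ * Real.log T) :=
      mul_le_mul_of_nonneg_left (by linarith) hK0.le
    calc (K : ℝ) * (1 - z) ≤ (K : ℝ) * (κ * Real.log T) := this
      _ = ((K : ℝ) * κ) * Real.log T := by ring
      _ = Real.log T := by rw [hKκ]; ring
  have hlogpos : 0 ≤ Real.log T := Real.log_nonneg (by linarith)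
  -- identity
  have hac : 0 < a + κ := by linarith
  have hid : (K : ℝ) * ((1 - e) / a - (1 - e * z) / (a + κ)) =
      1 / (a * (a + κ)) - e * (1 / (a * (a + κ)) + (K : ℝ) * (1 - z) / (a + κ)) := by
    have h1 : (K : ℝ) * κ = 1 := hKκ
    have h2 : (1 - e) / a - (1 - e * z) / (a + κ) =
        κ / (a * (a + κ)) - e * (κ / (a * (a + κ)) + (1 - z) / (a + κ)) := by
      field_simp
      ring
    rw [h2]
    have h3 : (K : ℝ) * (κ / (a * (a + κ))) = 1 / (a * (a + κ)) := by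
      rw [mul_div_assoc', h1]
    calc (K : ℝ) * (κ / (a * (a + κ)) - e * (κ / (a * (a + κ)) + (1 - z) / (a + κ)))
        = (K : ℝ) * (κ / (a * (a + κ))) - e * ((K : ℝ) * (κ / (a * (a + κ))) +
            (K : ℝ) * (1 - z) / (a + κ)) := by ring
      _ = _ := by rw [h3]
  rw [hid]
  -- bounds
  have hb1 : 1 / (a * (a + κ)) ≤ 1 := by
    rw [div_le_one (by positivity)]
    nlinarith
  have hb2 : (K : ℝ) * (1 - z) / (a + κ) ≤ Real.log T := by
    have h1 : 1 ≤ a + κ := by linarith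
    have h0 : 0 ≤ (K : ℝ) * (1 - z) := mul_nonneg hK0.le (by linarith)
    calc (K : ℝ) * (1 - z) / (a + κ) ≤ (K : ℝ) * (1 - z) / 1 :=
          div_le_div_of_nonneg_left h0 (by norm_num) h1
      _ = (K : ℝ) * (1 - z) := by ring
      _ ≤ Real.log T := hKz
  have hb3 : 1 / a ^ 2 - κ ≤ 1 / (a * (a + κ)) := by
    have h1 : 1 / a ^ 2 - 1 / (a * (a + κ)) = κ / (a ^ 2 * (a + κ)) := by
      field_simp
      ring
    have h2 : κ / (a ^ 2 * (a + κ)) ≤ κ := by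
      apply div_le_self hκ0.le
      have : 1 ≤ a ^ 2 := one_le_pow₀ ha1
      nlinarith
    linarith
  have hb4 : e * (1 / (a * (a + κ)) + (K : ℝ) * (1 - z) / (a + κ)) ≤ e * (1 + Real.log T) :=
    mul_le_mul_of_nonneg_left (by linarith) he0
  linarith

/-- The integral of `K h` over `[1/T, 1]` is close to the truncated sum of `ζ(2)`. -/
lemma integral_lower {T K : ℕ} (I : ℕ) (hT : 2 ≤ T) (hK' : 1 ≤ K) :
    ∑ i ∈ range I, (1 / ((i : ℝ) + 1) ^ 2) - (I : ℝ) / K - 2 * (1 + Real.log T) / T ≤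
      ∫ w in (1 / (T : ℝ))..1, (K : ℝ) * hK K w := by
  have hT2 : (2 : ℝ) ≤ T := by exact_mod_cast hT
  have hT' : (0 : ℝ) < T := by positivity
  have hK0 : (0 : ℝ) < K := by exact_mod_cast hK'
  set ε : ℝ := 1 / (T : ℝ) with hε
  have hε0 : 0 < ε := by positivity
  have hε1 : ε ≤ 1 := by
    simp only [hε]; rw [div_le_one hT']; linarith
  have hε2 : ε ≤ 1 / 2 := by
    simp only [hε]
    exact one_div_le_one_div_of_le (by norm_num) hT2
  -- pointwise lower bound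
  have hpt : ∀ w ∈ Set.Icc ε 1, ∑ i ∈ range I, (K : ℝ) * (1 - w ^ ((1 : ℝ) / K)) * w ^ i
      ≤ (K : ℝ) * hK K w := by
    intro w hw
    have hw0 : 0 < w := lt_of_lt_of_le hε0 hw.1
    rw [← mul_sum]
    by_cases hw1 : w = 1
    · subst hw1
      simp only [Real.one_rpow, sub_self, mul_zero, zero_mul]
      exact (mul_pos hK0 (hK_pos hK' zero_le_one)).le
    have hw2 : w < 1 := lt_of_le_of_ne hw.2 hw1
    have hm := hK_mul hK' hw0.le
    rw [← hm]
    have h1w : 0 < 1 - w := by linarith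
    have hgeom := mul_neg_geom_sum w I
    have hsum : (1 - w) * ∑ i ∈ range I, w ^ i ≤ 1 := by
      rw [hgeom]
      have : 0 ≤ w ^ I := by positivity
      linarith
    have hh : 0 < hK K w := hK_pos hK' hw0.le
    calc (K : ℝ) * (hK K w * (1 - w)) * ∑ i ∈ range I, w ^ i
        = (K : ℝ) * hK K w * ((1 - w) * ∑ i ∈ range I, w ^ i) := by ring
      _ ≤ (K : ℝ) * hK K w * 1 := mul_le_mul_of_nonneg_left hsum (by positivity)
      _ = (K : ℝ) * hK K w := by ring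
  have hcontterm : ∀ i : ℕ, IntervalIntegrable
      (fun w : ℝ => (K : ℝ) * (1 - w ^ ((1 : ℝ) / K)) * w ^ i) MeasureTheory.volume ε 1 := by
    intro i
    apply ContinuousOn.intervalIntegrable
    intro w hw
    rw [Set.uIcc_of_le hε1] at hw
    have hw0 : 0 < w := lt_of_lt_of_le hε0 hw.1
    have hc : ContinuousAt (fun w : ℝ => w ^ ((1 : ℝ) / K)) w :=
      Real.continuousAt_rpow_const w _ (Or.inl hw0.ne')
    exact ((continuousAt_const.mul (continuousAt_const.sub hc)).mul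
      (continuousAt_id.pow i)).continuousWithinAt
  have hanti : AntitoneOn (fun w => (K : ℝ) * hK K w) (Set.Icc ε 1) := by
    intro a ha b hb hab
    have := hK_antitone hK' (Set.mem_Ici.2 (hε0.le.trans ha.1))
      (Set.mem_Ici.2 (hε0.le.trans hb.1)) hab
    exact mul_le_mul_of_nonneg_left this hK0.le
  have hintG : IntervalIntegrable (fun w => (K : ℝ) * hK K w) MeasureTheory.volume ε 1 := by
    apply AntitoneOn.intervalIntegrable
    rwa [Set.uIcc_of_le hε1]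
  have hmono : ∫ w in ε..1, ∑ i ∈ range I, (K : ℝ) * (1 - w ^ ((1 : ℝ) / K)) * w ^ i
      ≤ ∫ w in ε..1, (K : ℝ) * hK K w := by
    apply intervalIntegral.integral_mono_on hε1
    · have h9 := IntervalIntegrable.sum (range I) (fun i _ => hcontterm i)
      have h10 : (∑ i ∈ range I, fun w : ℝ => (K : ℝ) * (1 - w ^ ((1 : ℝ) / K)) * w ^ i) =
          fun u => ∑ i ∈ range I, (K : ℝ) * (1 - u ^ ((1 : ℝ) / K)) * u ^ i := by
        ext u; simp [Finset.sum_apply]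
      rw [h10] at h9
      exact h9
    · exact hintG
    · exact hpt
  refine le_trans ?_ hmono
  rw [intervalIntegral.integral_finsetSum (fun i _ => hcontterm i)]
  have hterm : ∀ i ∈ range I, 1 / ((i : ℝ) + 1) ^ 2 - 1 / (K : ℝ) - ε ^ (i + 1) * (1 + Real.log T) ≤
      ∫ w in ε..1, (K : ℝ) * (1 - w ^ ((1 : ℝ) / K)) * w ^ i := by
    intro i _
    rw [hε, integral_term hT hK']
    exact term_lower hT hK'
  refine le_trans ?_ (sum_le_sum hterm)
  rw [sum_sub_distrib, sum_sub_distrib]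
  simp only [sum_const, card_range, nsmul_eq_mul]
  have hgeo : ∑ i ∈ range I, ε ^ (i + 1) ≤ 2 * ε := by
    have h1 : (1 - ε) * ∑ i ∈ range I, ε ^ i ≤ 1 := by
      rw [mul_neg_geom_sum]
      have : 0 ≤ ε ^ I := by positivity
      linarith
    have h2 : ∑ i ∈ range I, ε ^ (i + 1) = ε * ∑ i ∈ range I, ε ^ i := by
      rw [mul_sum]; apply sum_congr rfl; intro i _; ring
    have h3 : ∑ i ∈ range I, ε ^ i ≤ 2 := by
      have h4 : 0 ≤ ∑ i ∈ range I, ε ^ i := sum_nonneg (fun i _ => by positivity)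
      nlinarith
    rw [h2]; nlinarith
  have hlogpos : 0 ≤ Real.log T := Real.log_nonneg (by linarith)
  have h5 : ∑ i ∈ range I, ε ^ (i + 1) * (1 + Real.log T) ≤ 2 * ε * (1 + Real.log T) := by
    rw [← sum_mul]
    exact mul_le_mul_of_nonneg_right hgeo (by linarith)
  have h6 : 2 * (1 + Real.log T) / T = 2 * ε * (1 + Real.log T) := by
    simp only [hε]; ring
  have h7 : (I : ℝ) * (1 / (K : ℝ)) = (I : ℝ) / K := by ring
  rw [h6, h7]
  linarith


/-! ### The main estimate -/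

lemma exists_zeta_sum (η : ℝ) (hη : 0 < η) :
    ∃ I : ℕ, Real.pi ^ 2 / 6 - η < ∑ i ∈ range I, (1 / ((i : ℝ) + 1) ^ 2) := by
  have h := hasSum_zeta_two.tendsto_sum_nat
  have h2 : ∀ᶠ n : ℕ in Filter.atTop, Real.pi ^ 2 / 6 - η < ∑ i ∈ range n, (1 / (i : ℝ) ^ 2) :=
    h.eventually (lt_mem_nhds (by linarith))
  obtain ⟨n, hn⟩ := (h2.and (Filter.eventually_ge_atTop 1)).exists
  obtain ⟨hlt, hn1⟩ := hn
  obtain ⟨k, rfl⟩ : ∃ k, n = k + 1 := ⟨n - 1, by omega⟩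
  refine ⟨k, ?_⟩
  rw [sum_range_succ'] at hlt
  simp only [Nat.cast_add, Nat.cast_one, CharP.cast_eq_zero] at hlt
  norm_num at hlt
  have h3 : ∑ i ∈ range k, (1 / ((i : ℝ) + 1) ^ 2) = ∑ i ∈ range k, (((i : ℝ) + 1) ^ 2)⁻¹ := by
    apply sum_congr rfl; intro i _; rw [one_div]
  rw [h3]
  exact hlt

lemma exists_T (η : ℝ) (hη : 0 < η) :
    ∃ T : ℕ, 2 ≤ T ∧ 2 * (1 + Real.log T) / T ≤ η := by
  have h1 : Filter.Tendsto (fun x : ℝ => Real.log x ^ 1 / (1 * x + 0)) Filter.atTop (nhds 0) :=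
    Real.tendsto_pow_log_div_mul_add_atTop 1 0 1 one_ne_zero
  have h2 : Filter.Tendsto (fun x : ℝ => 1 / x) Filter.atTop (nhds 0) :=
    tendsto_const_nhds.div_atTop Filter.tendsto_id
  have h3 : Filter.Tendsto (fun x : ℝ => 2 * (1 / x + Real.log x ^ 1 / (1 * x + 0)))
      Filter.atTop (nhds (2 * (0 + 0))) := (h2.add h1).const_mul 2
  simp only [add_zero, mul_zero] at h3
  have h4 := h3.comp tendsto_natCast_atTop_atTop
  have h5 : ∀ᶠ n : ℕ in Filter.atTop,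
      ((fun x : ℝ => 2 * (1 / x + Real.log x ^ 1 / (1 * x))) ∘ (fun n : ℕ => (n : ℝ))) n < η :=
    h4.eventually (gt_mem_nhds hη)
  obtain ⟨n, hn, hn2⟩ := (h5.and (Filter.eventually_ge_atTop 2)).exists
  refine ⟨n, hn2, ?_⟩
  simp only [Function.comp, pow_one, one_mul] at hn
  have hn0 : (0 : ℝ) < n := by
    have : 2 ≤ n := hn2
    positivity
  have : 2 * (1 + Real.log n) / n = 2 * (1 / n + Real.log n / n) := by
    field_simp
  rw [this]
  exact hn.le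

/-- The layer-cake step with explicit parameters. -/
lemma layer_step {T K N d : ℕ} {θ : ℝ} (hT2 : 2 ≤ T) (hK1 : 1 ≤ K) (hN1 : 1 ≤ N)
    (hθ0 : 0 < θ) (hθ1 : θ < 1) (hdT : 2 * (T : ℝ) / θ ≤ d) :
    (∑ t ∈ range (T - 1), ((1 - θ) * hK K (((t : ℝ) + 1) / T) - 1 / ((K * N : ℕ) : ℝ))) / T ≤
      (∑ l ∈ range (K * N), (1 - betaSeq (((l : ℝ) + 1) / ((K * N : ℕ) : ℝ)) K d)) /
        ((K * N : ℕ) : ℝ) := by
  have hT0 : 0 < T := by omega
  have hT' : (0 : ℝ) < T := by exact_mod_cast hT0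
  have hT2' : (2 : ℝ) ≤ T := by exact_mod_cast hT2
  set M : ℕ := K * N with hM
  have hM0 : 0 < M := Nat.mul_pos hK1 hN1
  have hM' : (0 : ℝ) < M := by exact_mod_cast hM0
  set g : ℕ → ℝ := fun l => 1 - betaSeq (((l : ℝ) + 1) / (M : ℝ)) K d with hg
  set c : ℕ → ℝ := fun t => (1 - θ) * hK K (((t : ℝ) + 1) / T) with hc
  have hr0 : ∀ l : ℕ, 0 ≤ ((l : ℝ) + 1) / (M : ℝ) := fun l => by positivity
  have hr1 : ∀ l < M, ((l : ℝ) + 1) / (M : ℝ) ≤ 1 := by
    intro l hl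
    rw [div_le_one hM']
    exact_mod_cast hl
  have hg0 : ∀ l < M, 0 ≤ g l := by
    intro l hl
    have := (betaSeq_bounds (hr0 l) (hr1 l hl) K d).2
    simp only [hg]; linarith
  have hwpos : ∀ t : ℕ, 0 < ((t : ℝ) + 1) / T := fun t => by positivity
  have hc0 : ∀ t < T - 1, 0 ≤ c t := by
    intro t _
    have := hK_pos hK1 (hwpos t).le
    simp only [hc]
    exact mul_nonneg (by linarith) this.le
  have hc1 : ∀ t < T - 1, c t ≤ 1 := by
    intro t _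
    have h1 := hK_le_one hK1 (hwpos t).le
    have h2 := hK_pos hK1 (hwpos t).le
    simp only [hc]
    nlinarith
  have hstep : ∀ t < T - 1, ∀ l < M, ((l : ℝ) + 1) / M ≤ c t → ((t : ℝ) + 1) / T ≤ g l := by
    intro t ht l hl hle
    set w : ℝ := ((t : ℝ) + 1) / T with hw
    have hw0 : 0 < w := hwpos t
    have ht1 : (t : ℝ) + 1 ≤ T - 1 := by
      have : t + 1 + 1 ≤ T := by omega
      have h2 : ((t + 1 + 1 : ℕ) : ℝ) ≤ T := by exact_mod_cast this
      push_cast at h2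
      linarith
    have hw1 : w ≤ 1 - 1 / T := by
      simp only [hw]
      rw [div_le_iff₀ hT']
      have : (1 - 1 / (T : ℝ)) * T = T - 1 := by field_simp
      rw [this]; exact ht1
    have hw2 : 1 / (T : ℝ) ≤ w := by
      simp only [hw]
      rw [div_le_div_iff_of_pos_right hT']
      have : (0 : ℝ) ≤ t := Nat.cast_nonneg t
      linarith
    have hw3 : w < 1 := by
      have : 0 < 1 / (T : ℝ) := by positivity
      linarith
    have hTinv : 1 / (T : ℝ) ≤ 1 / 2 := one_div_le_one_div_of_le (by norm_num) hT2'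
    have hprod : 1 / (2 * (T : ℝ)) ≤ w * (1 - w) := by
      have h1 : (1 / (T : ℝ)) * (1 - 1 / T) ≤ w * (1 - w) := by
        have h0 : 0 < 1 / (T : ℝ) := by positivity
        nlinarith
      have h2 : 1 / (2 * (T : ℝ)) ≤ (1 / (T : ℝ)) * (1 - 1 / T) := by
        have h0 : 0 < 1 / (T : ℝ) := by positivity
        have : 1 / (2 * (T : ℝ)) = (1 / (T : ℝ)) * (1 / 2) := by field_simp
        rw [this]
        apply mul_le_mul_of_nonneg_left _ h0.le
        linarith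
      linarith
    have hj : 1 ≤ (d : ℝ) * (w * θ * (1 - w)) := by
      have h1 : 2 * (T : ℝ) / θ * (θ * (1 / (2 * (T : ℝ)))) = 1 := by
        field_simp
      have h2 : 2 * (T : ℝ) / θ * (θ * (1 / (2 * (T : ℝ)))) ≤
          (d : ℝ) * (θ * (w * (1 - w))) := by
        apply mul_le_mul hdT _ (by positivity) (by positivity)
        exact mul_le_mul_of_nonneg_left hprod hθ0.le
      have h3 : (d : ℝ) * (w * θ * (1 - w)) = (d : ℝ) * (θ * (w * (1 - w))) := by ring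
      rw [h3]; linarith
    have := betaSeq_le_grid hK1 hw0 hw3 hθ0 hθ1 (hr0 l) (hr1 l hl) hle hj
    simp only [hg]
    linarith
  exact sum_ge_layer hM0 hT0 g hg0 c hc0 hc1 hstep

/-- Riemann sum of `K h` against the truncated zeta sum. -/
lemma riemann_lower {T K : ℕ} (I : ℕ) (hT2 : 2 ≤ T) (hK1 : 1 ≤ K) :
    ∑ i ∈ range I, (1 / ((i : ℝ) + 1) ^ 2) - (I : ℝ) / K - 2 * (1 + Real.log T) / T ≤
      (∑ t ∈ range (T - 1), (K : ℝ) * hK K (((t : ℝ) + 1) / T)) / T := by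
  have hK0 : (0 : ℝ) < K := by exact_mod_cast hK1
  have hT' : (0 : ℝ) < T := by
    have : 0 < T := by omega
    exact_mod_cast this
  have hanti : AntitoneOn (fun w => (K : ℝ) * hK K w) (Set.Icc (1 / (T : ℝ)) 1) := by
    intro a ha b hb hab
    have h0 : (0 : ℝ) < 1 / T := by positivity
    have := hK_antitone hK1 (Set.mem_Ici.2 (h0.le.trans ha.1))
      (Set.mem_Ici.2 (h0.le.trans hb.1)) hab
    exact mul_le_mul_of_nonneg_left this hK0.le
  exact (integral_lower (K := K) I hT2 hK1).trans (integral_le_riemann hT2 _ hanti)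

/-- Scaling the layer-cake lower bound by `K`. -/
lemma scaled_lower {T K N : ℕ} {θ : ℝ} (hT2 : 2 ≤ T) (hK1 : 1 ≤ K) (hN1 : 1 ≤ N) :
    (1 - θ) * ((∑ t ∈ range (T - 1), (K : ℝ) * hK K (((t : ℝ) + 1) / T)) / T) - 1 / (N : ℝ) ≤
      (K : ℝ) * ((∑ t ∈ range (T - 1),
        ((1 - θ) * hK K (((t : ℝ) + 1) / T) - 1 / ((K * N : ℕ) : ℝ))) / T) := by
  have hK0 : (0 : ℝ) < K := by exact_mod_cast hK1
  have hN0 : (0 : ℝ) < N := by exact_mod_cast hN1
  have hT' : (0 : ℝ) < T := by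
    have : 0 < T := by omega
    exact_mod_cast this
  set M : ℕ := K * N with hM
  have hMcast : (M : ℝ) = K * N := by simp [hM]
  set X : ℝ := (∑ t ∈ range (T - 1), (K : ℝ) * hK K (((t : ℝ) + 1) / T)) / T with hX
  have h1 : (∑ t ∈ range (T - 1), ((1 - θ) * hK K (((t : ℝ) + 1) / T) - 1 / (M : ℝ))) =
      (∑ t ∈ range (T - 1), (1 - θ) * hK K (((t : ℝ) + 1) / T))
        - ((T - 1 : ℕ) : ℝ) * (1 / (M : ℝ)) := by
    rw [sum_sub_distrib]; simp
  have h2 : (K : ℝ) * ∑ t ∈ range (T - 1), (1 - θ) * hK K (((t : ℝ) + 1) / T) =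
      (1 - θ) * ∑ t ∈ range (T - 1), (K : ℝ) * hK K (((t : ℝ) + 1) / T) := by
    rw [mul_sum, mul_sum]
    apply sum_congr rfl
    intro t _
    ring
  have h3 : ((T - 1 : ℕ) : ℝ) ≤ T := by
    rw [Nat.cast_sub (by omega)]; simp
  have h4 : (K : ℝ) * (1 / (M : ℝ)) = 1 / N := by
    rw [hMcast]; field_simp
  have h5 : (K : ℝ) * (((T - 1 : ℕ) : ℝ) * (1 / (M : ℝ)) / T) ≤ 1 / N := by
    have h6 : (K : ℝ) * (((T - 1 : ℕ) : ℝ) * (1 / (M : ℝ)) / T) =
        (((T - 1 : ℕ) : ℝ) / T) * ((K : ℝ) * (1 / (M : ℝ))) := by ring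
    rw [h6, h4]
    have h7 : ((T - 1 : ℕ) : ℝ) / T ≤ 1 := by rw [div_le_one hT']; exact h3
    have h8 : 0 ≤ 1 / (N : ℝ) := by positivity
    nlinarith
  rw [h1, sub_div, mul_sub]
  have h9 : (K : ℝ) * ((∑ t ∈ range (T - 1), (1 - θ) * hK K (((t : ℝ) + 1) / T)) / T)
      = (1 - θ) * X := by
    rw [hX, mul_div_assoc', h2, mul_div_assoc]
  rw [h9]
  linarith

lemma numeric_final {L η θ X R n : ℝ} (hL : L ≤ 2) (hθ0 : 0 < θ) (hθ1 : θ < 1) (hθη : θ ≤ η / 8)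
    (hη : 0 < η) (hX : L - η / 2 ≤ X) (hn : n ≤ η / 8) (hR : (1 - θ) * X - n ≤ R) :
    L - η ≤ R := by
  have h2 : (1 - θ) * (L - η / 2) ≤ (1 - θ) * X :=
    mul_le_mul_of_nonneg_left hX (by linarith)
  have h3 : θ * (L - η / 2) ≤ 2 * (η / 8) := by
    have h4 : L - η / 2 ≤ 2 := by linarith
    have h5 : θ * (L - η / 2) ≤ θ * 2 := mul_le_mul_of_nonneg_left h4 hθ0.le
    nlinarith
  nlinarith

/-- PART L9 of the blueprint. -/
theorem calc_main (η : ℝ) (hη : 0 < η) : ∃ d₀ K₀ N₀ : ℕ, ∀ d ≥ d₀, ∀ K ≥ K₀, ∀ N ≥ N₀,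
    (Real.pi ^ 2 / 6 - η) / K ≤
      (∑ l ∈ Finset.range (K * N), (1 - betaSeq (((l : ℝ) + 1) / ((K * N : ℕ) : ℝ)) K d)) /
        ((K * N : ℕ) : ℝ) := by
  obtain ⟨I, hI⟩ := exists_zeta_sum (η / 4) (by positivity)
  obtain ⟨T, hT2, hTη⟩ := exists_T (η / 8) (by positivity)
  set θ : ℝ := min (1 / 2) (η / 8) with hθdef
  have hθ0 : 0 < θ := lt_min (by norm_num) (by positivity)
  have hθ1 : θ < 1 := lt_of_le_of_lt (min_le_left _ _) (by norm_num)
  have hθη : θ ≤ η / 8 := min_le_right _ _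
  refine ⟨⌈2 * (T : ℝ) / θ⌉₊, ⌈8 * (I : ℝ) / η⌉₊ + 1, ⌈8 / η⌉₊ + 1, ?_⟩
  intro d hd K hKge N hN
  have hK1 : 1 ≤ K := by omega
  have hN1 : 1 ≤ N := by omega
  have hK0 : (0 : ℝ) < K := by exact_mod_cast hK1
  have hN0 : (0 : ℝ) < N := by exact_mod_cast hN1
  have hdT : 2 * (T : ℝ) / θ ≤ d := by
    have h1 := Nat.le_ceil (2 * (T : ℝ) / θ)
    have h2 : ((⌈2 * (T : ℝ) / θ⌉₊ : ℕ) : ℝ) ≤ d := by exact_mod_cast hd
    linarith
  have hKI : (I : ℝ) / K ≤ η / 8 := by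
    have h1 := Nat.le_ceil (8 * (I : ℝ) / η)
    have h2 : ((⌈8 * (I : ℝ) / η⌉₊ + 1 : ℕ) : ℝ) ≤ K := by exact_mod_cast hKge
    push_cast at h2
    have h3 : 8 * (I : ℝ) / η ≤ K := by linarith
    rw [div_le_iff₀ hη] at h3
    rw [div_le_iff₀ hK0]
    nlinarith
  have hNη : 1 / (N : ℝ) ≤ η / 8 := by
    have h1 := Nat.le_ceil (8 / η)
    have h2 : ((⌈8 / η⌉₊ + 1 : ℕ) : ℝ) ≤ N := by exact_mod_cast hN
    push_cast at h2
    have h3 : 8 / η ≤ N := by linarith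
    rw [div_le_iff₀ hη] at h3
    rw [div_le_iff₀ hN0]
    nlinarith
  have hlayer := layer_step (T := T) (K := K) (N := N) (d := d) hT2 hK1 hN1 hθ0 hθ1 hdT
  have hR := riemann_lower (T := T) (K := K) I hT2 hK1
  have hS := scaled_lower (T := T) (K := K) (N := N) (θ := θ) hT2 hK1 hN1
  have hXlow : Real.pi ^ 2 / 6 - η / 2 ≤
      (∑ t ∈ range (T - 1), (K : ℝ) * hK K (((t : ℝ) + 1) / T)) / T := by
    linarith
  have hpi : Real.pi ^ 2 / 6 ≤ 2 := by
    have := Real.pi_lt_d2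
    have h0 := Real.pi_pos
    nlinarith
  have hmul := mul_le_mul_of_nonneg_left hlayer hK0.le
  have hfinal := numeric_final hpi hθ0 hθ1 hθη hη hXlow hNη (hS.trans hmul)
  rw [div_le_iff₀ hK0, mul_comm _ (K : ℝ)]
  exact hfinal


/-! ### Contraction at large density (optional tool for the core argument) -/

lemma betaSeq_ge_three_quarters {r : ℝ} {K : ℕ} (h0 : 0 ≤ r) (h1 : r ≤ 1)
    (hK : (1 - 3 * r / 4) ^ K ≤ 1 / 4) (j : ℕ) : 3 / 4 ≤ betaSeq r K j := by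
  induction j with
  | zero => simp [betaSeq]; norm_num
  | succ j ih =>
    rw [betaSeq_succ']
    have hb := betaSeq_bounds h0 h1 K j
    have h2 : r * betaSeq r K j ≤ 1 := by
      calc r * betaSeq r K j ≤ 1 * 1 := mul_le_mul h1 hb.2 hb.1 (by norm_num)
        _ = 1 := by norm_num
    have h3 : 3 * r / 4 ≤ r * betaSeq r K j := by nlinarith
    have h4 : (1 - r * betaSeq r K j) ^ K ≤ (1 - 3 * r / 4) ^ K :=
      pow_le_pow_left₀ (by linarith) (by linarith) K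
    linarith

lemma pow_sub_pow_le_mul {p q s : ℝ} {K : ℕ} (hp : 0 ≤ p) (hpq : p ≤ q) (hqs : q ≤ s) :
    q ^ (K + 1) - p ^ (K + 1) ≤ ((K : ℝ) + 1) * s ^ K * (q - p) := by
  have hq0 : 0 ≤ q := hp.trans hpq
  have hs0 : 0 ≤ s := hq0.trans hqs
  rw [← geom_sum₂_mul q p (K + 1)]
  apply mul_le_mul_of_nonneg_right _ (by linarith)
  have h1 : ∀ i ∈ range (K + 1), q ^ i * p ^ (K + 1 - 1 - i) ≤ s ^ K := by
    intro i hi
    have hi' := mem_range.1 hi
    have h2 : q ^ i ≤ s ^ i := pow_le_pow_left₀ hq0 hqs i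
    have h3 : p ^ (K + 1 - 1 - i) ≤ s ^ (K + 1 - 1 - i) :=
      pow_le_pow_left₀ hp (hpq.trans hqs) _
    calc q ^ i * p ^ (K + 1 - 1 - i) ≤ s ^ i * s ^ (K + 1 - 1 - i) :=
          mul_le_mul h2 h3 (by positivity) (by positivity)
      _ = s ^ K := by
          rw [← pow_add]; congr 1; omega
  calc ∑ i ∈ range (K + 1), q ^ i * p ^ (K + 1 - 1 - i)
      ≤ ∑ _i ∈ range (K + 1), s ^ K := sum_le_sum h1
    _ = ((K : ℝ) + 1) * s ^ K := by simp

/-- One-step contraction of the differences. -/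
lemma betaSeq_step_contract {r : ℝ} {k : ℕ} (h0 : 0 ≤ r) (h1 : r ≤ 1)
    (hK : (1 - 3 * r / 4) ^ (k + 1) ≤ 1 / 4) (j : ℕ) :
    betaSeq r (k + 1) (j + 1) - betaSeq r (k + 1) (j + 2) ≤
      (((k : ℝ) + 1) * r * (1 - 3 * r / 4) ^ k) *
        (betaSeq r (k + 1) j - betaSeq r (k + 1) (j + 1)) := by
  have hx := betaSeq_ge_three_quarters h0 h1 hK j
  have hy := betaSeq_ge_three_quarters h0 h1 hK (j + 1)
  have hbx := betaSeq_bounds h0 h1 (k + 1) j
  have hby := betaSeq_bounds h0 h1 (k + 1) (j + 1)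
  have hle := betaSeq_step_le h0 h1 (k + 1) j
  set x := betaSeq r (k + 1) j with hxdef
  set y := betaSeq r (k + 1) (j + 1) with hydef
  have e1 : betaSeq r (k + 1) (j + 2) = 1 - (1 - r * y) ^ (k + 1) := rfl
  have e2 : y = 1 - (1 - r * x) ^ (k + 1) := rfl
  rw [e1]
  have hrx : r * x ≤ 1 := by nlinarith
  have hp : 0 ≤ 1 - r * x := by linarith
  have hpq : 1 - r * x ≤ 1 - r * y := by nlinarith
  have hqs : 1 - r * y ≤ 1 - 3 * r / 4 := by nlinarith
  have h2 := pow_sub_pow_le_mul (K := k) hp hpq hqs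
  have h3 : y - (1 - (1 - r * y) ^ (k + 1)) =
      (1 - r * y) ^ (k + 1) - (1 - r * x) ^ (k + 1) := by
    nth_rewrite 1 [e2]; ring
  rw [h3]
  have h4 : (1 - r * y) - (1 - r * x) = r * (x - y) := by ring
  rw [h4] at h2
  calc (1 - r * y) ^ (k + 1) - (1 - r * x) ^ (k + 1)
      ≤ ((k : ℝ) + 1) * (1 - 3 * r / 4) ^ k * (r * (x - y)) := h2
    _ = _ := by ring

/-- Contraction of the recursion: `β_J - β_d ≤ 2 λ^J` for `J ≤ d`,
where `λ = K r (1 - 3r/4)^(K-1) ≤ 1/2`. -/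
theorem betaSeq_tail_le {r : ℝ} {k : ℕ} (h0 : 0 ≤ r) (h1 : r ≤ 1)
    (hK : (1 - 3 * r / 4) ^ (k + 1) ≤ 1 / 4)
    (hlam : ((k : ℝ) + 1) * r * (1 - 3 * r / 4) ^ k ≤ 1 / 2) {J d : ℕ} (hJd : J ≤ d) :
    betaSeq r (k + 1) J - betaSeq r (k + 1) d ≤
      2 * (((k : ℝ) + 1) * r * (1 - 3 * r / 4) ^ k) ^ J := by
  set lam : ℝ := ((k : ℝ) + 1) * r * (1 - 3 * r / 4) ^ k with hl
  have hlam0 : 0 ≤ lam := by
    have : 0 ≤ 1 - 3 * r / 4 := by linarith
    positivity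
  set b := betaSeq r (k + 1) with hb
  have hdiff : ∀ j, b j - b (j + 1) ≤ lam ^ j := by
    intro j
    induction j with
    | zero =>
      have h2 := (betaSeq_bounds h0 h1 (k + 1) 1).1
      have h3 : b 0 = 1 := rfl
      simp only [pow_zero]
      change b 0 - betaSeq r (k + 1) 1 ≤ 1
      rw [h3]; linarith
    | succ j ih =>
      have h2 := betaSeq_step_contract h0 h1 hK j
      have h3 : 0 ≤ b j - b (j + 1) := sub_nonneg.2 (betaSeq_step_le h0 h1 (k + 1) j)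
      calc b (j + 1) - b (j + 1 + 1) ≤ lam * (b j - b (j + 1)) := h2
        _ ≤ lam * lam ^ j := mul_le_mul_of_nonneg_left ih hlam0
        _ = lam ^ (j + 1) := by ring
  -- telescoping, by induction on the length
  have hgeo : ∀ n, b J - b (J + n) ≤ lam ^ J * (2 - 2 * (1 / 2 : ℝ) ^ n) := by
    intro n
    induction n with
    | zero => simp
    | succ n ih =>
      have h2 := hdiff (J + n)
      have h3 : lam ^ (J + n) ≤ lam ^ J * (1 / 2 : ℝ) ^ n := by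
        rw [pow_add]
        exact mul_le_mul_of_nonneg_left (pow_le_pow_left₀ hlam0 hlam n) (by positivity)
      have h4 : b J - b (J + (n + 1)) = (b J - b (J + n)) + (b (J + n) - b (J + n + 1)) := by
        rw [← add_assoc]; ring
      rw [h4]
      have h5 : lam ^ J * (2 - 2 * (1 / 2 : ℝ) ^ (n + 1)) =
          lam ^ J * (2 - 2 * (1 / 2 : ℝ) ^ n) + lam ^ J * (1 / 2 : ℝ) ^ n := by
        rw [pow_succ]; ring
      rw [h5]
      linarith
  obtain ⟨n, rfl⟩ : ∃ n, d = J + n := ⟨d - J, by omega⟩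
  have h6 := hgeo n
  have h7 : 0 ≤ lam ^ J * (2 * (1 / 2 : ℝ) ^ n) := by positivity
  calc b J - b (J + n) ≤ lam ^ J * (2 - 2 * (1 / 2 : ℝ) ^ n) := h6
    _ ≤ 2 * lam ^ J := by nlinarith

/-- Concrete bound: for `K r = a` with `100 ≤ a ≤ 102` the hypotheses of `betaSeq_tail_le` hold,
and `λ ≤ 102 e^{-50}`. -/
theorem lam_bound {r : ℝ} {k : ℕ} (hk : 2 ≤ k) (h0 : 0 ≤ r)
    (ha1 : 100 ≤ ((k : ℝ) + 1) * r) (ha2 : ((k : ℝ) + 1) * r ≤ 102) (h1 : r ≤ 1) :
    (1 - 3 * r / 4) ^ (k + 1) ≤ 1 / 4 ∧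
      ((k : ℝ) + 1) * r * (1 - 3 * r / 4) ^ k ≤ 102 * Real.exp (-50) := by
  have hk' : (2 : ℝ) ≤ k := by exact_mod_cast hk
  have hbase : 1 - 3 * r / 4 ≤ Real.exp (-(3 * r / 4)) := by
    have := Real.add_one_le_exp (-(3 * r / 4))
    linarith
  have hnn : 0 ≤ 1 - 3 * r / 4 := by linarith
  have hpow : ∀ n : ℕ, (1 - 3 * r / 4) ^ n ≤ Real.exp (-(n * (3 * r / 4))) := by
    intro n
    calc (1 - 3 * r / 4) ^ n ≤ (Real.exp (-(3 * r / 4))) ^ n := pow_le_pow_left₀ hnn hbase n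
      _ = Real.exp (-(n * (3 * r / 4))) := by
          rw [← Real.exp_nat_mul]; ring_nf
  have hk50 : 50 ≤ (k : ℝ) * (3 * r / 4) := by nlinarith
  constructor
  · refine (hpow (k + 1)).trans ?_
    have h2 : ((k + 1 : ℕ) : ℝ) * (3 * r / 4) ≥ 50 := by
      push_cast; nlinarith
    have h3 : Real.exp (-(((k + 1 : ℕ) : ℝ) * (3 * r / 4))) ≤ Real.exp (-50) :=
      Real.exp_le_exp.2 (by linarith)
    refine h3.trans ?_
    rw [Real.exp_neg]
    have h4 : (4 : ℝ) ≤ Real.exp 50 := by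
      have := Real.add_one_le_exp (50 : ℝ)
      linarith
    rw [inv_le_comm₀ (Real.exp_pos _) (by norm_num)]
    norm_num
    linarith
  · have h2 : (1 - 3 * r / 4) ^ k ≤ Real.exp (-50) :=
      (hpow k).trans (Real.exp_le_exp.2 (by linarith))
    have h3 : 0 ≤ (1 - 3 * r / 4) ^ k := by positivity
    calc ((k : ℝ) + 1) * r * (1 - 3 * r / 4) ^ k ≤ 102 * (1 - 3 * r / 4) ^ k :=
          mul_le_mul_of_nonneg_right ha2 h3
      _ ≤ 102 * Real.exp (-50) := by linarith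

end Vale.Agent.Lib.P336_h66
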