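/-
P336 PART C (helper16): the balancing of the parameters: from the universal moment bound with a
constant above `π²/6` to the circuit lower bound with a constant above `π/√6`.
-/
import Vale.Agent.Lib.P336_h66.Step

namespace Vale.Agent.Lib.P336_h66

open Filter Topology

lemma sqrt_two_pow (m : ℕ) : Real.sqrt ((2 : ℝ) ^ m) = (Real.sqrt 2) ^ m := by
  have h : ((Real.sqrt 2) ^ m) ^ 2 = (2 : ℝ) ^ m := by
    rw [← pow_mul, mul_comm, pow_mul, Real.sq_sqrt (by norm_num)]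
  rw [← h, Real.sqrt_sq (by positivity)]

/-- The numerical part: all requirements hold for large `m`. -/
lemma numeric (c μ : ℝ) (hc : 0 < c) (hcμ : c ^ 2 < μ) (r d K₀ : ℕ) :
    ∃ m₀ : ℕ, ∀ m ≥ m₀, K₀ ≤ m ∧ r < m ∧
      ((⌈c * Real.sqrt ((2 : ℝ) ^ m)⌉₊ + d * m + 1) + 1 < 2 ^ (m - r)) ∧
      (((⌈c * Real.sqrt ((2 : ℝ) ^ m)⌉₊ + d * m + 1 : ℕ) : ℝ) *
        (((m : ℝ) + 1) ^ r + 1 + c * Real.sqrt ((2 : ℝ) ^ m)) ≤ μ * 2 ^ m) := by
  set a := Real.sqrt 2 with ha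
  have ha1 : 1 < a := by
    rw [ha, show (1 : ℝ) = Real.sqrt 1 by simp]
    exact Real.sqrt_lt_sqrt (by norm_num) (by norm_num)
  have ha0 : 0 < a := by linarith
  set δ := μ - c ^ 2 with hδ
  have hδ0 : 0 < δ := by linarith
  set η := min 1 (δ / (2 * c + 2)) with hη
  have hη0 : 0 < η := lt_min one_pos (by positivity)
  have hη1 : η ≤ 1 := min_le_left _ _
  have hη2 : η * (2 * c + 2) ≤ δ := by
    have : η ≤ δ / (2 * c + 2) := min_le_right _ _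
    rwa [le_div_iff₀ (by positivity)] at this
  have hcη : (c + η) ^ 2 ≤ μ := by
    have h1 : η ^ 2 ≤ η := by nlinarith
    nlinarith
  -- polynomial against exponential
  have ht : Tendsto (fun n : ℕ => ((n : ℝ)) ^ (r + 1) / a ^ n) atTop (𝓝 0) :=
    tendsto_pow_const_div_const_pow_of_one_lt (r + 1) ha1
  have ht' : Tendsto (fun n : ℕ => ((n + 1 : ℕ) : ℝ) ^ (r + 1) / a ^ (n + 1)) atTop (𝓝 0) :=
    (tendsto_add_atTop_iff_nat (f := fun n : ℕ => ((n : ℝ)) ^ (r + 1) / a ^ n) 1).mpr ht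
  have hpos : 0 < η / (((d : ℝ) + 5) * a) := by positivity
  have ev1 := ht'.eventually (gt_mem_nhds hpos)
  have ev2 := (tendsto_pow_atTop_atTop_of_one_lt ha1).eventually_ge_atTop
    ((c + η + 1) * 2 ^ r + 2)
  obtain ⟨m₁, hm₁⟩ := eventually_atTop.mp (ev1.and ev2)
  refine ⟨max (max K₀ (r + 1)) m₁, ?_⟩
  intro m hm
  have hmK : K₀ ≤ m := le_trans (le_trans (le_max_left _ _) (le_max_left _ _)) hm
  have hmr : r < m := by
    have : r + 1 ≤ m := le_trans (le_trans (le_max_right _ _) (le_max_left _ _)) hm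
    omega
  obtain ⟨h1, h2⟩ := hm₁ m (le_trans (le_max_right _ _) hm)
  rw [sqrt_two_pow]
  set x := a ^ m with hx
  have hx1 : 1 ≤ x := by
    have : 0 ≤ (c + η + 1) * 2 ^ r := by positivity
    linarith
  have hxsq : x ^ 2 = 2 ^ m := by
    rw [hx, ← pow_mul, mul_comm, pow_mul, ha, Real.sq_sqrt (by norm_num)]
  -- the polynomial bound
  have hapow : a ^ (m + 1) = x * a := by rw [hx, pow_succ]
  have hmain : ((d : ℝ) + 5) * (((m : ℝ) + 1) ^ (r + 1)) ≤ η * x := by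
    have h3 : ((m + 1 : ℕ) : ℝ) ^ (r + 1) / a ^ (m + 1) < η / (((d : ℝ) + 5) * a) := h1
    rw [div_lt_div_iff₀ (by positivity) (by positivity), hapow] at h3
    have h4 : ((m + 1 : ℕ) : ℝ) = (m : ℝ) + 1 := by push_cast; ring
    rw [h4] at h3
    have h5 : (((m : ℝ) + 1) ^ (r + 1) * ((d : ℝ) + 5)) * a ≤ (η * x) * a := by nlinarith
    have h6 := le_of_mul_le_mul_right h5 ha0
    linarith
  have hm1 : (1 : ℝ) ≤ (m : ℝ) + 1 := by
    have : (0 : ℝ) ≤ m := Nat.cast_nonneg m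
    linarith
  have hpow1 : ((m : ℝ) + 1) ^ r ≤ ((m : ℝ) + 1) ^ (r + 1) :=
    pow_le_pow_right₀ hm1 (by omega)
  have hpow2 : (m : ℝ) + 1 ≤ ((m : ℝ) + 1) ^ (r + 1) := by
    calc (m : ℝ) + 1 = ((m : ℝ) + 1) ^ 1 := (pow_one _).symm
      _ ≤ _ := pow_le_pow_right₀ hm1 (by omega)
  have hpow3 : (1 : ℝ) ≤ ((m : ℝ) + 1) ^ (r + 1) := le_trans hm1 hpow2
  set q : ℝ := (d : ℝ) * m + ((m : ℝ) + 1) ^ r + 3 with hq
  have hqle : q ≤ η * x := by
    have hd0 : (0 : ℝ) ≤ d := Nat.cast_nonneg d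
    have h7 : (d : ℝ) * m ≤ (d : ℝ) * ((m : ℝ) + 1) ^ (r + 1) := by
      apply mul_le_mul_of_nonneg_left _ hd0
      linarith
    have h8 : ((d : ℝ) + 5) * (((m : ℝ) + 1) ^ (r + 1))
        = (d : ℝ) * ((m : ℝ) + 1) ^ (r + 1) + 5 * ((m : ℝ) + 1) ^ (r + 1) := by ring
    rw [hq]
    linarith
  have hq0 : 0 ≤ q := by
    rw [hq]; positivity
  have hcx0 : 0 ≤ c * x := by positivity
  have hceil : ((⌈c * x⌉₊ : ℕ) : ℝ) ≤ c * x + 1 := (Nat.ceil_lt_add_one hcx0).le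
  have hKle : ((⌈c * x⌉₊ + d * m + 1 : ℕ) : ℝ) ≤ c * x + q := by
    push_cast
    rw [hq]
    have : (0 : ℝ) ≤ ((m : ℝ) + 1) ^ r := by positivity
    linarith
  refine ⟨hmK, hmr, ?_, ?_⟩
  · -- size condition
    have hreal : (((⌈c * x⌉₊ + d * m + 1) + 1 : ℕ) : ℝ) * 2 ^ r < 2 ^ m := by
      have h9 : (((⌈c * x⌉₊ + d * m + 1) + 1 : ℕ) : ℝ) ≤ (c + η + 1) * x := by
        have : (((⌈c * x⌉₊ + d * m + 1) + 1 : ℕ) : ℝ) = ((⌈c * x⌉₊ + d * m + 1 : ℕ) : ℝ) + 1 := by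
          push_cast; ring
        rw [this]
        nlinarith
      have h10 : (c + η + 1) * 2 ^ r < x := by linarith
      calc (((⌈c * x⌉₊ + d * m + 1) + 1 : ℕ) : ℝ) * 2 ^ r
          ≤ ((c + η + 1) * x) * 2 ^ r := mul_le_mul_of_nonneg_right h9 (by positivity)
        _ = ((c + η + 1) * 2 ^ r) * x := by ring
        _ < x * x := mul_lt_mul_of_pos_right h10 (by linarith)
        _ = 2 ^ m := by rw [← hxsq]; ring
    have hnat : ((⌈c * x⌉₊ + d * m + 1) + 1) * 2 ^ r < 2 ^ m := by exact_mod_cast hreal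
    have hsplit : 2 ^ m = 2 ^ (m - r) * 2 ^ r := by
      rw [← pow_add]; congr 1; omega
    rw [hsplit] at hnat
    exact Nat.lt_of_mul_lt_mul_right hnat
  · -- the contradiction inequality
    have h11 : ((m : ℝ) + 1) ^ r + 1 + c * x ≤ c * x + q := by
      rw [hq]
      have : (0 : ℝ) ≤ (d : ℝ) * m := by positivity
      linarith
    have h12 : (0 : ℝ) ≤ ((m : ℝ) + 1) ^ r + 1 + c * x := by positivity
    have hcq : c * x + q ≤ (c + η) * x := by nlinarith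
    have hcq0 : 0 ≤ c * x + q := by linarith
    calc ((⌈c * x⌉₊ + d * m + 1 : ℕ) : ℝ) * (((m : ℝ) + 1) ^ r + 1 + c * x)
        ≤ (c * x + q) * (c * x + q) := mul_le_mul hKle h11 h12 hcq0
      _ ≤ ((c + η) * x) * ((c + η) * x) := mul_le_mul hcq hcq hcq0 (by positivity)
      _ = (c + η) ^ 2 * x ^ 2 := by ring
      _ ≤ μ * x ^ 2 := mul_le_mul_of_nonneg_right hcη (by positivity)
      _ = μ * 2 ^ m := by rw [hxsq]

/-- PART C of the blueprint: a universal moment bound with a constant above `π²/6` gives an explicit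
lower bound on depth-three circuits with a constant above `π/√6`. -/
theorem final_of_universal (ε₀ : ℝ) (hε₀ : 0 < ε₀) (h : UniversalBound (Real.pi ^ 2 / 6 + ε₀)) :
    ∃ ε > 0, ∃ r m₀ : ℕ, ∀ m ≥ m₀, ∀ C : Depth3 (Fin m → Bool),
      (∀ x, C.eval x ↔ rmMember r m x) →
      (2 : ℝ) ^ ((Real.pi / Real.sqrt 6 + ε) * Real.sqrt ((2 : ℝ) ^ m)) ≤ C.size := by
  obtain ⟨K₀, d₀, hU⟩ := h
  set μ := Real.pi ^ 2 / 6 + ε₀ with hμ
  set c₀ := Real.pi / Real.sqrt 6 with hc₀def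
  have hc₀ : 0 < c₀ := by
    apply div_pos Real.pi_pos
    exact Real.sqrt_pos.mpr (by norm_num)
  have hc₀2 : c₀ ^ 2 = Real.pi ^ 2 / 6 := by
    rw [hc₀def, div_pow, Real.sq_sqrt (by norm_num)]
  set ε := min 1 (ε₀ / (2 * (2 * c₀ + 1))) with hεdef
  have hε : 0 < ε := lt_min one_pos (by positivity)
  have hε1 : ε ≤ 1 := min_le_left _ _
  have hε2 : ε * (2 * (2 * c₀ + 1)) ≤ ε₀ := by
    have : ε ≤ ε₀ / (2 * (2 * c₀ + 1)) := min_le_right _ _
    rwa [le_div_iff₀ (by positivity)] at this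
  set c := c₀ + ε with hcdef
  have hc : 0 < c := by positivity
  have hcμ : c ^ 2 < μ := by
    have h1 : ε ^ 2 ≤ ε := by nlinarith
    have h2 : c ^ 2 = c₀ ^ 2 + 2 * c₀ * ε + ε ^ 2 := by rw [hcdef]; ring
    rw [h2, hc₀2, hμ]
    nlinarith
  set r := d₀ with hr
  set d := 2 ^ (r + 1) - 1 with hd
  have hdlt : d < 2 ^ (r + 1) := by
    have : 0 < 2 ^ (r + 1) := by positivity
    omega
  have hd₀ : d₀ ≤ d := by
    have : r + 1 < 2 ^ (r + 1) := Nat.lt_two_pow_self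
    have hrd : r = d₀ := rfl
    omega
  have hd1 : 1 ≤ d := by
    have : 2 ^ 1 ≤ 2 ^ (r + 1) := Nat.pow_le_pow_right (by norm_num) (by omega)
    omega
  obtain ⟨m₀, hm₀⟩ := numeric c μ hc hcμ r d K₀
  refine ⟨ε, hε, r, m₀, ?_⟩
  intro m hm C hC
  by_contra hlt
  push Not at hlt
  obtain ⟨h1, h2, h3, h4⟩ := hm₀ m hm
  set x := Real.sqrt ((2 : ℝ) ^ m) with hx
  set K := ⌈c * x⌉₊ + d * m + 1 with hK
  have hx0 : 0 ≤ x := Real.sqrt_nonneg _
  have hK0 : K₀ ≤ K := by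
    have : m ≤ d * m := Nat.le_mul_of_pos_left m (by omega)
    omega
  have hKpos : 0 < K := by omega
  obtain ⟨N, hN, hUN⟩ := hU K hK0 d hd₀
  have hM : 0 < K * N := Nat.mul_pos hKpos hN
  -- the size condition
  have hs1 : C.size < 2 ^ ⌈c * x⌉₊ := by
    have h5 : ((C.size : ℕ) : ℝ) < (2 : ℝ) ^ (⌈c * x⌉₊ : ℕ) := by
      calc ((C.size : ℕ) : ℝ) < (2 : ℝ) ^ (c * x) := hlt
        _ ≤ (2 : ℝ) ^ ((⌈c * x⌉₊ : ℕ) : ℝ) :=
            Real.rpow_le_rpow_of_exponent_le (by norm_num) (Nat.le_ceil _)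
        _ = (2 : ℝ) ^ (⌈c * x⌉₊ : ℕ) := Real.rpow_natCast _ _
    exact_mod_cast h5
  have hK2 : K + 2 ≤ 2 ^ m := by
    have : 2 ^ (m - r) ≤ 2 ^ m := Nat.pow_le_pow_right (by norm_num) (Nat.sub_le _ _)
    omega
  have hsize : C.size * (K + 2) ^ d ≤ 2 ^ K := by
    calc C.size * (K + 2) ^ d ≤ 2 ^ ⌈c * x⌉₊ * (2 ^ m) ^ d :=
          Nat.mul_le_mul hs1.le (Nat.pow_le_pow_left hK2 d)
      _ = 2 ^ (⌈c * x⌉₊ + d * m) := by
          rw [← pow_mul, ← pow_add, mul_comm m d]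
      _ ≤ 2 ^ K := Nat.pow_le_pow_right (by norm_num) (by omega)
  have hmom := moment_le_of_circuit h2 hdlt h3 hM C hC hsize _ (fun T => hUN (Cube m) T)
  have hcard : (Fintype.card (Cube m) : ℝ) = 2 ^ m := by
    simp [Cube]
  rw [hcard] at hmom
  -- contradiction
  have hρ : ((checkSet r m).card : ℝ) ≤ ((m : ℝ) + 1) ^ r := by
    exact_mod_cast card_checkSet_le r m
  have hsizepos : (0 : ℝ) < C.size := by
    have : 0 < C.size := by simp [Depth3.size]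
    exact_mod_cast this
  have hlt2 : (2 : ℝ) ^ (μ * 2 ^ m / K) < (2 : ℝ) ^ ((((checkSet r m).card + 1 : ℕ) : ℝ) + c * x) := by
    calc (2 : ℝ) ^ (μ * 2 ^ m / K) ≤ 2 ^ ((checkSet r m).card + 1) * (C.size : ℝ) := hmom
      _ < 2 ^ ((checkSet r m).card + 1) * (2 : ℝ) ^ (c * x) :=
          mul_lt_mul_of_pos_left hlt (by positivity)
      _ = (2 : ℝ) ^ ((((checkSet r m).card + 1 : ℕ) : ℝ) + c * x) := by
          rw [Real.rpow_add (by norm_num), Real.rpow_natCast]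
  have hlt3 := (Real.rpow_lt_rpow_left_iff (by norm_num : (1 : ℝ) < 2)).mp hlt2
  have hKR : (0 : ℝ) < K := by exact_mod_cast hKpos
  rw [div_lt_iff₀ hKR] at hlt3
  have hmul : (((checkSet r m).card + 1 : ℕ) + c * x) * (K : ℝ)
      ≤ (((m : ℝ) + 1) ^ r + 1 + c * x) * (K : ℝ) := by
    apply mul_le_mul_of_nonneg_right _ hKR.le
    push_cast
    linarith
  have h4' : (K : ℝ) * (((m : ℝ) + 1) ^ r + 1 + c * x) ≤ μ * 2 ^ m := h4
  nlinarith

end Vale.Agent.Lib.P336_h66
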