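/-
P336 (helper66): definitions for the window argument.
-/
import Vale.Agent.Lib.P336_h66.BQual

namespace Vale.Agent.Lib.P336_h66

set_option linter.unusedSectionVars false

open Finset

variable {V : Type} [Fintype V] [DecidableEq V] {K : ℕ}

/-- Top `ℓ` levels. -/
def hiL (M ℓ : ℕ) : Finset (Fin M) := Finset.univ.filter (fun i => M - ℓ ≤ i.val)

/-- The next `L` levels: the window. -/
def winL (M ℓ L : ℕ) : Finset (Fin M) :=
  Finset.univ.filter (fun i => M - ℓ - L ≤ i.val ∧ i.val < M - ℓ)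

/-- The variables on the top levels. -/
def SSet {M : ℕ} (τ : V → Fin M) (ℓ : ℕ) : Finset V :=
  Finset.univ.filter (fun v => τ v ∈ hiL M ℓ)

/-- The variables in the window. -/
def WSet {M : ℕ} (τ : V → Fin M) (ℓ L : ℕ) : Finset V :=
  Finset.univ.filter (fun v => τ v ∈ winL M ℓ L)

variable (T : TS V K) (j : ℕ)

/-- Coin holder `c` with witness `u` for the sets `S` (top levels) and `W` (window). -/
def Hold (c u : V) (S W : Finset V) : Prop :=
  u ∈ CC T c ∧ c ∈ W ∧ u ∈ W ∧ Asym T j c u S ∧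
    Disjoint (W \ {c, u}) (T.gam (insert u S) (j + 1) [c]) ∧
    Disjoint (W \ {c, u}) (T.gam (insert c S) (j + 1) [u]) ∧
    ∀ x ∈ W \ {c, u}, c ∉ T.gam (insert u (S ∪ (W \ {c, u}))) (j + 1) [x]

open Classical in
/-- Holder-witness pairs. -/
noncomputable def HP (S W : Finset V) : Finset (V × V) :=
  Finset.univ.filter (fun q => Hold T j q.1 q.2 S W)

open Classical in
/-- Forced-variable count, using depth `j+1` in the window and depth `d` elsewhere. -/
noncomputable def F2 (d ℓ L : ℕ) {M : ℕ} (τ : V → Fin M) : ℕ :=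
  (Finset.univ.filter (fun x =>
    if τ x ∈ winL M ℓ L then ¬ T.bad (later τ x) (j + 1) [x] else ¬ T.bad (later τ x) d [x])).card

/-- Fraction of window levels above `i`. -/
noncomputable def qL (M ℓ L : ℕ) (i : Fin M) : ℝ :=
  (((winL M ℓ L).filter (fun l => i < l)).card : ℝ) / (L : ℝ)

/-- Average over window levels of the Jensen gain `ln(1+q) - q ln 2`. -/
noncomputable def hbar (M ℓ L : ℕ) : ℝ :=
  (∑ i ∈ winL M ℓ L, (Real.log (1 + qL M ℓ L i) - qL M ℓ L i * Real.log 2)) / (L : ℝ)

end Vale.Agent.Lib.P336_h66
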