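/-
P336 (helper16, PART W1 of the blueprint of helper66): the window Jensen inequality.
-/
import Vale.Agent.Lib.P336_h66.WDefs

namespace Vale.Agent.Lib.P336_h66

set_option linter.unusedSectionVars false

open Finset

variable {V : Type} [Fintype V] [DecidableEq V] {K : ℕ}

/-! ### Levels -/

section levels

variable {M ℓ L : ℕ}

lemma mem_hiL {i : Fin M} : i ∈ hiL M ℓ ↔ M - ℓ ≤ i.val := by simp [hiL]

lemma mem_winL {i : Fin M} : i ∈ winL M ℓ L ↔ M - ℓ - L ≤ i.val ∧ i.val < M - ℓ := by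
  simp [winL]

lemma mem_SSet {τ : V → Fin M} {v : V} : v ∈ SSet τ ℓ ↔ M - ℓ ≤ (τ v).val := by
  simp [SSet, mem_hiL]

lemma mem_WSet {τ : V → Fin M} {v : V} :
    v ∈ WSet τ ℓ L ↔ M - ℓ - L ≤ (τ v).val ∧ (τ v).val < M - ℓ := by
  simp [WSet, mem_winL]

lemma mem_later' {τ : V → Fin M} {u v : V} : v ∈ later τ u ↔ v ≠ u ∧ τ u ≤ τ v := by
  simp [later]

lemma not_mem_S_of_mem_W {τ : V → Fin M} {v : V} (h : v ∈ WSet τ ℓ L) : v ∉ SSet τ ℓ := by
  rw [mem_WSet] at h
  rw [mem_SSet]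
  omega

lemma S_subset_later {τ : V → Fin M} {x : V} (hx : x ∈ WSet τ ℓ L) :
    SSet τ ℓ ⊆ later τ x := by
  intro v hv
  rw [mem_later']
  rw [mem_WSet] at hx
  rw [mem_SSet] at hv
  refine ⟨?_, ?_⟩
  · rintro rfl
    omega
  · rw [Fin.le_def]
    omega

lemma later_cases {τ : V → Fin M} {x v : V} (hx : x ∈ WSet τ ℓ L) (hv : v ∈ later τ x) :
    v ∈ SSet τ ℓ ∨ v ∈ WSet τ ℓ L := by
  rw [mem_later', Fin.le_def] at hv
  rw [mem_WSet] at hx
  rw [mem_SSet, mem_WSet]
  omega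

lemma later_sub_union {τ : V → Fin M} {a b : V} (ha : a ∈ WSet τ ℓ L) :
    later τ a ⊆ insert b (SSet τ ℓ) ∪ (WSet τ ℓ L \ {a, b}) := by
  intro v hv
  have h1 := later_cases ha hv
  have h2 := (mem_later'.mp hv).1
  rw [Finset.mem_union, Finset.mem_insert, Finset.mem_sdiff]
  by_cases hvb : v = b
  · exact Or.inl (Or.inl hvb)
  · rcases h1 with h1 | h1
    · exact Or.inl (Or.inr h1)
    · refine Or.inr ⟨h1, ?_⟩
      simp [h2, hvb]

lemma SSet_update {τ : V → Fin M} {c : V} {i : Fin M} (hc : c ∈ WSet τ ℓ L)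
    (hi : i ∈ winL M ℓ L) : SSet (Function.update τ c i) ℓ = SSet τ ℓ := by
  ext v
  rw [mem_SSet, mem_SSet]
  by_cases hv : v = c
  · subst hv
    rw [mem_WSet] at hc
    rw [mem_winL] at hi
    simp only [Function.update_self]
    omega
  · rw [Function.update_of_ne hv]

lemma WSet_update {τ : V → Fin M} {c : V} {i : Fin M} (hc : c ∈ WSet τ ℓ L)
    (hi : i ∈ winL M ℓ L) : WSet (Function.update τ c i) ℓ L = WSet τ ℓ L := by
  ext v
  rw [mem_WSet, mem_WSet]
  by_cases hv : v = c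
  · subst hv
    rw [mem_WSet] at hc
    rw [mem_winL] at hi
    simp only [Function.update_self]
    omega
  · rw [Function.update_of_ne hv]

lemma card_winL (h : ℓ + L ≤ M) : (winL M ℓ L).card = L := by
  have e : (winL M ℓ L).map Fin.valEmbedding = Finset.Ico (M - ℓ - L) (M - ℓ) := by
    ext n
    simp only [Finset.mem_map, mem_winL, Fin.valEmbedding_apply, Finset.mem_Ico]
    constructor
    · rintro ⟨i, hi, rfl⟩
      exact hi
    · intro hn
      exact ⟨⟨n, by omega⟩, hn, rfl⟩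
  rw [← Finset.card_map Fin.valEmbedding, e, Nat.card_Ico]
  omega

end levels

/-! ### Resampling -/

lemma resample {M : ℕ} (A : Finset (V → Fin M)) (I : Finset (Fin M)) (c : V)
    (h1 : ∀ τ ∈ A, τ c ∈ I) (h2 : ∀ τ ∈ A, ∀ i ∈ I, Function.update τ c i ∈ A)
    (F : (V → Fin M) → ℝ) :
    ∑ τ ∈ A, ∑ i ∈ I, F (Function.update τ c i) = (I.card : ℝ) * ∑ τ ∈ A, F τ := by
  rw [← Finset.sum_product' A I (fun τ i => F (Function.update τ c i))]
  have e : ∑ x ∈ A ×ˢ I, F (Function.update x.1 c x.2) = ∑ x ∈ A ×ˢ I, F x.1 := by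
    apply Finset.sum_nbij' (fun x => (Function.update x.1 c x.2, x.1 c))
      (fun x => (Function.update x.1 c x.2, x.1 c))
    · intro x hx
      have hx' := Finset.mem_product.mp hx
      exact Finset.mem_product.mpr ⟨h2 _ hx'.1 _ hx'.2, h1 _ hx'.1⟩
    · intro x hx
      have hx' := Finset.mem_product.mp hx
      exact Finset.mem_product.mpr ⟨h2 _ hx'.1 _ hx'.2, h1 _ hx'.1⟩
    · intro x _
      ext v
      · simp
      · simp
    · intro x _
      ext v
      · simp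
      · simp
    · intro x _
      rfl
  rw [e, Finset.sum_product]
  simp only [Finset.sum_const, nsmul_eq_mul]
  rw [Finset.mul_sum]

/-- Whether `x` counts in `F2`. -/
def stF2 (T : TS V K) (j d ℓ L : ℕ) {M : ℕ} (τ : V → Fin M) (x : V) : Prop :=
  (τ x ∈ winL M ℓ L → ¬ T.bad (later τ x) (j + 1) [x]) ∧
    (τ x ∉ winL M ℓ L → ¬ T.bad (later τ x) d [x])

/-! ### Holders -/

section holders

variable (T : TS V K) (j : ℕ)

lemma Hold.ne' {c u : V} {S W : Finset V} (h : Hold T j c u S W) : u ≠ c := by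
  have := T.disj [c] u h.1
  simpa using this

lemma hold_func {c u u' : V} {S W : Finset V} (h : Hold T j c u S W) (h' : Hold T j c u' S W) :
    u = u' := by
  by_contra hne
  have hu' : u' ≠ c := Hold.ne' T j h'
  have hmem : u' ∈ W \ {c, u} := by
    rw [Finset.mem_sdiff]
    refine ⟨h'.2.2.1, ?_⟩
    simp only [Finset.mem_insert, Finset.mem_singleton, not_or]
    exact ⟨hu', fun e => hne e.symm⟩
  have hg : u' ∈ T.gam (insert u S) (j + 1) [c] := T.ch_subset_gam _ _ _ h'.1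
  exact (Finset.disjoint_left.mp h.2.2.2.2.1) hmem hg

lemma hold_wit {c u c' : V} {S W : Finset V} (h : Hold T j c u S W) (h' : Hold T j u c' S W) :
    False := by
  by_cases hc : c' = c
  · subst hc
    exact h.2.2.2.1.2 h'.2.2.2.1.1
  · have hne : c' ≠ u := Hold.ne' T j h'
    have hmem : c' ∈ W \ {c, u} := by
      rw [Finset.mem_sdiff]
      refine ⟨h'.2.2.1, ?_⟩
      simp only [Finset.mem_insert, Finset.mem_singleton, not_or]
      exact ⟨hc, hne⟩
    have hg : c' ∈ T.gam (insert c S) (j + 1) [u] := T.ch_subset_gam _ _ _ h'.1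
    exact (Finset.disjoint_left.mp h.2.2.2.2.2.1) hmem hg

variable {M ℓ L : ℕ}

lemma hold_update {τ : V → Fin M} {c u a : V} {i : Fin M}
    (h : Hold T j c u (SSet τ ℓ) (WSet τ ℓ L)) (ha : a ∈ WSet τ ℓ L) (hi : i ∈ winL M ℓ L) :
    Hold T j c u (SSet (Function.update τ a i) ℓ) (WSet (Function.update τ a i) ℓ L) := by
  rw [SSet_update ha hi, WSet_update ha hi]
  exact h

/-- A holder is forced exactly when its witness sits below it. -/
lemma status_holder {τ : V → Fin M} {c u : V} (h : Hold T j c u (SSet τ ℓ) (WSet τ ℓ L)) :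
    ¬ T.bad (later τ c) (j + 1) [c] ↔ τ u < τ c := by
  have hc := h.2.1
  have hu := h.2.2.1
  have huc := Hold.ne' T j h
  obtain ⟨hP1, hP2⟩ := h.2.2.2.1.1
  constructor
  · intro hnb
    by_contra hlt
    apply hnb
    have hle : τ c ≤ τ u := not_lt.mp hlt
    refine T.bad_mono ?_ _ _ hP2
    intro v hv
    rcases Finset.mem_insert.mp hv with rfl | hv
    · exact mem_later'.mpr ⟨huc, hle⟩
    · exact S_subset_later hc hv
  · intro hlt hb
    apply hP1
    have h3 := T.first_contact (j + 1) [c] h.2.2.2.2.1 (later_sub_union hc) hb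
    refine T.bad_mono ?_ _ _ h3
    intro v hv
    obtain ⟨hv1, hv2⟩ := Finset.mem_inter.mp hv
    rcases Finset.mem_insert.mp hv2 with rfl | hv2
    · exact absurd (mem_later'.mp hv1).2 (not_le.mpr hlt)
    · exact hv2

/-- A witness has a status which does not depend on levels in the window. -/
lemma status_witness {τ : V → Fin M} {c u : V} (h : Hold T j c u (SSet τ ℓ) (WSet τ ℓ L)) :
    T.bad (later τ u) (j + 1) [u] ↔ T.bad (SSet τ ℓ) (j + 1) [u] := by
  have hu := h.2.2.1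
  constructor
  · intro hb
    have hsub : later τ u ⊆ insert c (SSet τ ℓ) ∪ (WSet τ ℓ L \ {c, u}) := by
      rw [Finset.pair_comm c u]
      exact later_sub_union hu
    have h3 := T.first_contact (j + 1) [u] h.2.2.2.2.2.1 hsub hb
    have h4 : T.bad (insert c (SSet τ ℓ)) (j + 1) [u] :=
      T.bad_mono Finset.inter_subset_right _ _ h3
    by_contra hn
    exact h.2.2.2.1.2 ⟨hn, h4⟩
  · exact T.bad_mono (S_subset_later hu) _ _

/-- Any other window variable does not see the level of the holder. -/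
lemma status_other {τ : V → Fin M} {c u x : V} (h : Hold T j c u (SSet τ ℓ) (WSet τ ℓ L))
    (hx : x ∈ WSet τ ℓ L) (hxc : x ≠ c) (hxu : x ≠ u) :
    T.bad (later τ x) (j + 1) [x] ↔ T.bad ((later τ x).erase c) (j + 1) [x] := by
  constructor
  · intro hb
    by_contra hn
    have hb' : T.bad (insert c ((later τ x).erase c)) (j + 1) [x] :=
      T.bad_mono (by intro v hv; by_cases hvc : v = c <;> simp [hvc, hv]) _ _ hb
    have hg := T.pivot_mem_gam (j + 1) [x] hb' hn
    have hxmem : x ∈ WSet τ ℓ L \ {c, u} := by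
      rw [Finset.mem_sdiff]
      refine ⟨hx, ?_⟩
      simp [hxc, hxu]
    refine h.2.2.2.2.2.2 x hxmem (T.gam_mono ?_ _ _ hg)
    intro v hv
    obtain ⟨hv1, hv2⟩ := Finset.mem_erase.mp hv
    have h5 := later_sub_union (b := u) hx hv2
    rw [Finset.mem_union, Finset.mem_insert, Finset.mem_sdiff] at h5
    rw [Finset.mem_insert, Finset.mem_union, Finset.mem_sdiff]
    rcases h5 with (h5 | h5) | ⟨h5, h6⟩
    · exact Or.inl h5
    · exact Or.inr (Or.inl h5)
    · by_cases hvu : v = u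
      · exact Or.inl hvu
      · refine Or.inr (Or.inr ⟨h5, ?_⟩)
        simp [hv1, hvu]
  · exact T.bad_mono (Finset.erase_subset _ _) _ _

lemma later_erase_update {τ : V → Fin M} {c x : V} {i : Fin M} (hxc : x ≠ c) :
    (later (Function.update τ c i) x).erase c = (later τ x).erase c := by
  ext v
  simp only [Finset.mem_erase, mem_later', Function.update_of_ne hxc]
  constructor
  · rintro ⟨h1, h2, h3⟩
    rw [Function.update_of_ne h1] at h3
    exact ⟨h1, h2, h3⟩
  · rintro ⟨h1, h2, h3⟩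
    refine ⟨h1, h2, ?_⟩
    rw [Function.update_of_ne h1]
    exact h3

/-- Outside the window the later set does not depend on window levels. -/
lemma later_update_of_not_win {τ : V → Fin M} {c x : V} {i : Fin M} (hc : c ∈ WSet τ ℓ L)
    (hi : i ∈ winL M ℓ L) (hxc : x ≠ c) (hx : τ x ∉ winL M ℓ L) :
    later (Function.update τ c i) x = later τ x := by
  ext v
  simp only [mem_later', Function.update_of_ne hxc]
  by_cases hv : v = c
  · subst hv
    simp only [Function.update_self, Fin.le_def]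
    rw [mem_WSet] at hc
    rw [mem_winL] at hi hx
    constructor
    · rintro ⟨h1, h2⟩
      refine ⟨h1, ?_⟩
      omega
    · rintro ⟨h1, h2⟩
      refine ⟨h1, ?_⟩
      omega
  · rw [Function.update_of_ne hv]

variable (d : ℕ)

lemma stF2_of_win {τ : V → Fin M} {x : V} (hx : x ∈ WSet τ ℓ L) :
    stF2 T j d ℓ L τ x ↔ ¬ T.bad (later τ x) (j + 1) [x] := by
  have hx' : τ x ∈ winL M ℓ L := by simpa [WSet] using hx
  constructor
  · intro h
    exact h.1 hx'
  · intro h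
    exact ⟨fun _ => h, fun h' => absurd hx' h'⟩

lemma stF2_update {τ : V → Fin M} {c u x : V} {i : Fin M}
    (h : Hold T j c u (SSet τ ℓ) (WSet τ ℓ L)) (hi : i ∈ winL M ℓ L) (hxc : x ≠ c) :
    stF2 T j d ℓ L (Function.update τ c i) x ↔ stF2 T j d ℓ L τ x := by
  have hc := h.2.1
  have h' := hold_update T j h hc hi
  by_cases hx : τ x ∈ winL M ℓ L
  · have hxW : x ∈ WSet τ ℓ L := by simp [WSet, hx]
    have hxW' : x ∈ WSet (Function.update τ c i) ℓ L := by
      rw [WSet_update hc hi]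
      exact hxW
    rw [stF2_of_win T j d hxW, stF2_of_win T j d hxW']
    apply not_congr
    by_cases hxu : x = u
    · subst hxu
      rw [status_witness T j h, status_witness T j h', SSet_update hc hi]
    · rw [status_other T j h hxW hxc hxu, status_other T j h' hxW' hxc hxu,
        later_erase_update hxc]
  · have hx' : (Function.update τ c i) x ∉ winL M ℓ L := by
      rw [Function.update_of_ne hxc]
      exact hx
    unfold stF2
    rw [later_update_of_not_win hc hi hxc hx, Function.update_of_ne hxc]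

end holders

/-! ### `FF_ge_F2` -/

theorem FF_ge_F2 (T : TS V K) (j d ℓ L : ℕ) (hjd : j + 1 ≤ d) {M : ℕ} (τ : V → Fin M) :
    F2 T j d ℓ L τ ≤ FF T d τ := by
  classical
  unfold F2 FF
  apply Finset.card_le_card
  intro x hx
  simp only [Finset.mem_filter, Finset.mem_univ, true_and] at hx ⊢
  split_ifs at hx with h
  · exact fun hb => hx (T.bad_of_le hjd _ hb)
  · exact hx

/-! ### Counting -/

section counting

variable (T : TS V K) (j d ℓ L : ℕ) {M : ℕ}

open Classical in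
lemma F2_eq_card (τ : V → Fin M) :
    F2 T j d ℓ L τ = (univ.filter (fun x => stF2 T j d ℓ L τ x)).card := by
  unfold F2
  apply congrArg Finset.card
  apply Finset.filter_congr
  intro x _
  unfold stF2
  by_cases h : τ x ∈ winL M ℓ L
  · simp only [if_pos h]
    constructor
    · intro hb
      exact ⟨fun _ => hb, fun h' => absurd h h'⟩
    · intro hb
      exact hb.1 h
  · simp only [if_neg h]
    constructor
    · intro hb
      exact ⟨fun h' => absurd h' h, fun _ => hb⟩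
    · intro hb
      exact hb.2 h

open Classical in
/-- Forced variables which are not holders. -/
noncomputable def BCnt (P : Finset (V × V)) (τ : V → Fin M) : ℕ :=
  ((univ.filter (fun x => stF2 T j d ℓ L τ x)) \ P.image Prod.fst).card

lemma mem_HP {S W : Finset V} {q : V × V} : q ∈ HP T j S W ↔ Hold T j q.1 q.2 S W := by
  classical
  simp [HP]

open Classical in
lemma F2_decomp {τ : V → Fin M} :
    F2 T j d ℓ L τ = BCnt T j d ℓ L (HP T j (SSet τ ℓ) (WSet τ ℓ L)) τ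
      + ((HP T j (SSet τ ℓ) (WSet τ ℓ L)).filter (fun q => τ q.2 < τ q.1)).card := by
  set P := HP T j (SSet τ ℓ) (WSet τ ℓ L) with hP
  rw [F2_eq_card]
  unfold BCnt
  rw [← Finset.card_sdiff_add_card_inter (univ.filter (fun x => stF2 T j d ℓ L τ x)) (P.image Prod.fst)]
  congr 1
  have hinj : Set.InjOn Prod.fst (P.filter (fun q => τ q.2 < τ q.1) : Set (V × V)) := by
    intro a ha b hb hab
    have ha' := (mem_HP T j).mp (Finset.mem_filter.mp ha).1
    have hb' := (mem_HP T j).mp (Finset.mem_filter.mp hb).1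
    have hab' : a.1 = b.1 := hab
    rw [← hab'] at hb'
    exact Prod.ext hab' (hold_func T j ha' hb')
  rw [← Finset.card_image_of_injOn hinj]
  congr 1
  ext x
  simp only [Finset.mem_inter, Finset.mem_filter, Finset.mem_univ, true_and, Finset.mem_image]
  constructor
  · rintro ⟨hst, q, hq, rfl⟩
    refine ⟨q, ⟨hq, ?_⟩, rfl⟩
    have hh := (mem_HP T j).mp hq
    exact (status_holder T j hh).mp ((stF2_of_win T j d hh.2.1).mp hst)
  · rintro ⟨q, ⟨hq, hlt⟩, rfl⟩
    refine ⟨?_, q, hq, rfl⟩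
    have hh := (mem_HP T j).mp hq
    exact (stF2_of_win T j d hh.2.1).mpr ((status_holder T j hh).mpr hlt)

lemma BCnt_update {P : Finset (V × V)} {τ : V → Fin M} {q : V × V} {i : Fin M} (hq : q ∈ P)
    (hh : Hold T j q.1 q.2 (SSet τ ℓ) (WSet τ ℓ L)) (hi : i ∈ winL M ℓ L) :
    BCnt T j d ℓ L P (Function.update τ q.1 i) = BCnt T j d ℓ L P τ := by
  classical
  unfold BCnt
  congr 1
  ext x
  simp only [Finset.mem_sdiff, Finset.mem_filter, Finset.mem_univ, true_and, Finset.mem_image,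
    not_exists, not_and]
  have key : (∀ q' ∈ P, q'.1 ≠ x) → x ≠ q.1 := fun h e => h q hq e.symm
  constructor
  · rintro ⟨h1, h2⟩
    exact ⟨(stF2_update T j d hh hi (key h2)).mp h1, h2⟩
  · rintro ⟨h1, h2⟩
    exact ⟨(stF2_update T j d hh hi (key h2)).mpr h1, h2⟩

end counting

/-- weight of one holder -/
noncomputable def pwW {M : ℕ} (a b : Fin M) : ℝ := if a < b then 2 else 1

section window

variable {M ℓ L : ℕ}

lemma qL_eq (a : Fin M) :
    qL M ℓ L a * (L : ℝ) = (((winL M ℓ L).filter (fun l => a < l)).card : ℝ) ∨ L = 0 := by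
  by_cases hL : L = 0
  · exact Or.inr hL
  · left
    have : (L : ℝ) ≠ 0 := by exact_mod_cast hL
    unfold qL
    field_simp

lemma qL_nonneg (a : Fin M) : 0 ≤ qL M ℓ L a := by
  unfold qL
  positivity

lemma sum_ind_win (hL : 0 < L) (a : Fin M) :
    ∑ i ∈ winL M ℓ L, (if a < i then (1 : ℝ) else 0) = (L : ℝ) * qL M ℓ L a := by
  have hL' : (L : ℝ) ≠ 0 := by exact_mod_cast hL.ne'
  rw [Finset.sum_boole]
  unfold qL
  field_simp

lemma sum_pw (hℓ : ℓ + L ≤ M) (hL : 0 < L) (a : Fin M) :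
    ∑ i ∈ winL M ℓ L, pwW a i = (L : ℝ) * (1 + qL M ℓ L a) := by
  have h1 : ∀ i ∈ winL M ℓ L, pwW a i = 1 + (if a < i then (1 : ℝ) else 0) := by
    intro i _
    unfold pwW
    split_ifs <;> norm_num
  rw [Finset.sum_congr rfl h1, Finset.sum_add_distrib, sum_ind_win hL]
  simp only [Finset.sum_const, nsmul_eq_mul, mul_one, card_winL hℓ]
  ring

end window

/-! ### The sum over a class of level maps -/

section fiber

variable (T : TS V K) (j d ℓ L : ℕ) {M : ℕ}

/-- Level maps with prescribed top set and window set. -/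
def fibW (S0 W0 : Finset V) : Finset (V → Fin M) :=
  univ.filter (fun τ => SSet τ ℓ = S0 ∧ WSet τ ℓ L = W0)

lemma mem_fibW {S0 W0 : Finset V} {τ : V → Fin M} :
    τ ∈ fibW ℓ L S0 W0 ↔ SSet τ ℓ = S0 ∧ WSet τ ℓ L = W0 := by
  simp [fibW]

/-- Interpolation between `2^{F2}` and its integrated form. -/
noncomputable def GGw (P A : Finset (V × V)) (τ : V → Fin M) : ℝ :=
  (2 : ℝ) ^ (BCnt T j d ℓ L P τ) *
    ((∏ q ∈ A, (1 + qL M ℓ L (τ q.2))) * ∏ q ∈ P \ A, pwW (τ q.2) (τ q.1))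

lemma GGw_step (hℓ : ℓ + L ≤ M) (hL : 0 < L) {S0 W0 : Finset V} {A : Finset (V × V)} {q : V × V}
    (hA : A ⊆ HP T j S0 W0) (hq : q ∈ HP T j S0 W0) (hqA : q ∉ A) {τ : V → Fin M}
    (hτ : τ ∈ fibW ℓ L S0 W0) :
    ∑ i ∈ winL M ℓ L, GGw T j d ℓ L (HP T j S0 W0) A (Function.update τ q.1 i)
      = (L : ℝ) * GGw T j d ℓ L (HP T j S0 W0) (insert q A) τ := by
  obtain ⟨hS, hW⟩ := (mem_fibW ℓ L).mp hτ
  set P := HP T j S0 W0 with hP
  have hhq : Hold T j q.1 q.2 S0 W0 := (mem_HP T j).mp hq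
  have hh : Hold T j q.1 q.2 (SSet τ ℓ) (WSet τ ℓ L) := by rw [hS, hW]; exact hhq
  have hwit : ∀ q' ∈ P, q'.2 ≠ q.1 := by
    intro q' hq' e
    have h1 : Hold T j q'.1 q'.2 S0 W0 := (mem_HP T j).mp hq'
    rw [e] at h1
    exact hold_wit T j h1 hhq
  have huc : q.2 ≠ q.1 := Hold.ne' T j hhq
  have hsplit : P \ A = insert q (P \ insert q A) := by
    ext x
    simp only [Finset.mem_sdiff, Finset.mem_insert, not_or]
    constructor
    · rintro ⟨h1, h2⟩
      by_cases hx : x = q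
      · exact Or.inl hx
      · exact Or.inr ⟨h1, hx, h2⟩
    · rintro (h | ⟨h1, _, h3⟩)
      · subst h
        exact ⟨hq, hqA⟩
      · exact ⟨h1, h3⟩
  have hnot : q ∉ P \ insert q A := by simp
  have hterm : ∀ i ∈ winL M ℓ L, GGw T j d ℓ L P A (Function.update τ q.1 i)
      = pwW (τ q.2) i * ((2 : ℝ) ^ (BCnt T j d ℓ L P τ) *
        ((∏ q' ∈ A, (1 + qL M ℓ L (τ q'.2))) * ∏ q' ∈ P \ insert q A, pwW (τ q'.2) (τ q'.1))) := by
    intro i hi
    unfold GGw
    rw [BCnt_update T j d ℓ L hq hh hi, hsplit, Finset.prod_insert hnot]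
    have e1 : ∀ q' ∈ A, (1 + qL M ℓ L ((Function.update τ q.1 i) q'.2))
        = 1 + qL M ℓ L (τ q'.2) := by
      intro q' hq'
      rw [Function.update_of_ne (hwit q' (hA hq'))]
    have e2 : ∀ q' ∈ P \ insert q A,
        pwW ((Function.update τ q.1 i) q'.2) ((Function.update τ q.1 i) q'.1)
          = pwW (τ q'.2) (τ q'.1) := by
      intro q' hq'
      obtain ⟨h1, h2⟩ := Finset.mem_sdiff.mp hq'
      have hne : q' ≠ q := fun e => h2 (Finset.mem_insert.mpr (Or.inl e))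
      rw [Function.update_of_ne (hwit q' h1)]
      have h3 : q'.1 ≠ q.1 := by
        intro e
        apply hne
        have h4 : Hold T j q'.1 q'.2 S0 W0 := (mem_HP T j).mp h1
        rw [e] at h4
        exact Prod.ext e (hold_func T j h4 hhq)
      rw [Function.update_of_ne h3]
    rw [Finset.prod_congr rfl e1, Finset.prod_congr rfl e2, Function.update_self,
      Function.update_of_ne huc]
    ring
  rw [Finset.sum_congr rfl hterm, ← Finset.sum_mul, sum_pw hℓ hL]
  unfold GGw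
  rw [Finset.prod_insert hqA]
  ring

lemma GGw_sum_step (hℓ : ℓ + L ≤ M) (hL : 0 < L) {S0 W0 : Finset V} {A : Finset (V × V)} {q : V × V}
    (hA : A ⊆ HP T j S0 W0) (hq : q ∈ HP T j S0 W0) (hqA : q ∉ A) :
    ∑ τ ∈ fibW (M := M) ℓ L S0 W0, GGw T j d ℓ L (HP T j S0 W0) (insert q A) τ
      = ∑ τ ∈ fibW (M := M) ℓ L S0 W0, GGw T j d ℓ L (HP T j S0 W0) A τ := by
  have hLpos : (L : ℝ) ≠ 0 := by exact_mod_cast hL.ne'
  have hhq : Hold T j q.1 q.2 S0 W0 := (mem_HP T j).mp hq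
  have h1 : ∀ τ ∈ fibW (M := M) ℓ L S0 W0, τ q.1 ∈ winL M ℓ L := by
    intro τ hτ
    obtain ⟨_, hW⟩ := (mem_fibW ℓ L).mp hτ
    have : q.1 ∈ WSet τ ℓ L := by rw [hW]; exact hhq.2.1
    simpa [WSet] using this
  have h2 : ∀ τ ∈ fibW (M := M) ℓ L S0 W0, ∀ i ∈ winL M ℓ L,
      Function.update τ q.1 i ∈ fibW (M := M) ℓ L S0 W0 := by
    intro τ hτ i hi
    obtain ⟨hS, hW⟩ := (mem_fibW ℓ L).mp hτ
    have hmem : q.1 ∈ WSet τ ℓ L := by rw [hW]; exact hhq.2.1
    exact (mem_fibW ℓ L).mpr ⟨by rw [SSet_update hmem hi, hS], by rw [WSet_update hmem hi, hW]⟩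
  have h3 := resample (fibW (M := M) ℓ L S0 W0) (winL M ℓ L) q.1 h1 h2
    (GGw T j d ℓ L (HP T j S0 W0) A)
  rw [card_winL hℓ] at h3
  have h4 : ∑ τ ∈ fibW (M := M) ℓ L S0 W0, ∑ i ∈ winL M ℓ L,
        GGw T j d ℓ L (HP T j S0 W0) A (Function.update τ q.1 i)
      = (L : ℝ) * ∑ τ ∈ fibW (M := M) ℓ L S0 W0, GGw T j d ℓ L (HP T j S0 W0) (insert q A) τ := by
    rw [Finset.mul_sum]
    exact Finset.sum_congr rfl (fun τ hτ => GGw_step T j d ℓ L hℓ hL hA hq hqA hτ)
  rw [h4] at h3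
  exact mul_left_cancel₀ hLpos h3

lemma GGw_sum_all (hℓ : ℓ + L ≤ M) (hL : 0 < L) (S0 W0 : Finset V) :
    ∀ A : Finset (V × V), A ⊆ HP T j S0 W0 →
    ∑ τ ∈ fibW (M := M) ℓ L S0 W0, GGw T j d ℓ L (HP T j S0 W0) A τ
      = ∑ τ ∈ fibW (M := M) ℓ L S0 W0, GGw T j d ℓ L (HP T j S0 W0) ∅ τ := by
  intro A
  induction A using Finset.induction_on with
  | empty => intro _; rfl
  | insert q A hqA ih =>
    intro hsub
    have hA : A ⊆ HP T j S0 W0 := fun x hx => hsub (Finset.mem_insert_of_mem hx)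
    have hq : q ∈ HP T j S0 W0 := hsub (Finset.mem_insert_self _ _)
    rw [GGw_sum_step T j d ℓ L hℓ hL hA hq hqA, ih hA]

open Classical in
lemma GGw_empty {S0 W0 : Finset V} {τ : V → Fin M} (hτ : τ ∈ fibW (M := M) ℓ L S0 W0) :
    GGw T j d ℓ L (HP T j S0 W0) ∅ τ = (2 : ℝ) ^ (F2 T j d ℓ L τ) := by
  obtain ⟨hS, hW⟩ := (mem_fibW ℓ L).mp hτ
  unfold GGw
  rw [F2_decomp T j d ℓ L, hS, hW, pow_add]
  simp only [Finset.prod_empty, one_mul, Finset.sdiff_empty]
  congr 1
  unfold pwW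
  rw [Finset.prod_ite]
  simp

lemma GGw_full {S0 W0 : Finset V} {τ : V → Fin M} :
    GGw T j d ℓ L (HP T j S0 W0) (HP T j S0 W0) τ
      = (2 : ℝ) ^ (BCnt T j d ℓ L (HP T j S0 W0) τ) *
        ∏ q ∈ HP T j S0 W0, (1 + qL M ℓ L (τ q.2)) := by
  unfold GGw
  simp

/-- The function whose exponential has the same total as `2^{F2}`. -/
noncomputable def XF (τ : V → Fin M) : ℝ :=
  Real.log 2 * (BCnt T j d ℓ L (HP T j (SSet τ ℓ) (WSet τ ℓ L)) τ : ℝ)
    + ∑ q ∈ HP T j (SSet τ ℓ) (WSet τ ℓ L), Real.log (1 + qL M ℓ L (τ q.2))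

lemma exp_XF (τ : V → Fin M) :
    Real.exp (XF T j d ℓ L τ) = (2 : ℝ) ^ (BCnt T j d ℓ L (HP T j (SSet τ ℓ) (WSet τ ℓ L)) τ) *
        ∏ q ∈ HP T j (SSet τ ℓ) (WSet τ ℓ L), (1 + qL M ℓ L (τ q.2)) := by
  unfold XF
  rw [Real.exp_add, Real.exp_sum]
  congr 1
  · rw [mul_comm, Real.exp_nat_mul, Real.exp_log (by norm_num)]
  · apply Finset.prod_congr rfl
    intro q _
    have := qL_nonneg (ℓ := ℓ) (L := L) (τ q.2)
    rw [Real.exp_log (by linarith)]

lemma sum_exp_XF (hℓ : ℓ + L ≤ M) (hL : 0 < L) :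
    ∑ τ : V → Fin M, Real.exp (XF T j d ℓ L τ) = ∑ τ : V → Fin M, (2 : ℝ) ^ (F2 T j d ℓ L τ) := by
  classical
  rw [← Finset.sum_fiberwise (Finset.univ : Finset (V → Fin M))
      (fun τ => (SSet τ ℓ, WSet τ ℓ L)) (fun τ => Real.exp (XF T j d ℓ L τ)),
    ← Finset.sum_fiberwise (Finset.univ : Finset (V → Fin M))
      (fun τ => (SSet τ ℓ, WSet τ ℓ L)) (fun τ => (2 : ℝ) ^ (F2 T j d ℓ L τ))]
  apply Finset.sum_congr rfl
  rintro ⟨S0, W0⟩ _
  have hfib : (Finset.univ.filter (fun τ : V → Fin M => (SSet τ ℓ, WSet τ ℓ L) = (S0, W0)))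
      = fibW (M := M) ℓ L S0 W0 := by
    ext τ
    simp [fibW, Prod.ext_iff]
  rw [hfib]
  have h1 := GGw_sum_all T j d ℓ L (M := M) hℓ hL S0 W0 _ (Finset.Subset.refl _)
  calc ∑ τ ∈ fibW (M := M) ℓ L S0 W0, Real.exp (XF T j d ℓ L τ)
      = ∑ τ ∈ fibW (M := M) ℓ L S0 W0, GGw T j d ℓ L (HP T j S0 W0) (HP T j S0 W0) τ := by
        apply Finset.sum_congr rfl
        intro τ hτ
        obtain ⟨hS, hW⟩ := (mem_fibW ℓ L).mp hτ
        rw [exp_XF, GGw_full, hS, hW]
    _ = ∑ τ ∈ fibW (M := M) ℓ L S0 W0, GGw T j d ℓ L (HP T j S0 W0) ∅ τ := h1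
    _ = ∑ τ ∈ fibW (M := M) ℓ L S0 W0, (2 : ℝ) ^ (F2 T j d ℓ L τ) :=
        Finset.sum_congr rfl (fun τ hτ => GGw_empty T j d ℓ L hτ)

/-- The average over the pair of levels of holder and witness. -/
lemma sum_window_avg (hℓ : ℓ + L ≤ M) (hL : 0 < L) {A : Finset (V → Fin M)} {c u : V}
    (huc : u ≠ c) (h1c : ∀ τ ∈ A, τ c ∈ winL M ℓ L) (h1u : ∀ τ ∈ A, τ u ∈ winL M ℓ L)
    (h2c : ∀ τ ∈ A, ∀ i ∈ winL M ℓ L, Function.update τ c i ∈ A)
    (h2u : ∀ τ ∈ A, ∀ i ∈ winL M ℓ L, Function.update τ u i ∈ A) :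
    ∑ τ ∈ A, (Real.log (1 + qL M ℓ L (τ u)) - Real.log 2 * (if τ u < τ c then (1 : ℝ) else 0))
      = hbar M ℓ L * (A.card : ℝ) := by
  have hLne : (L : ℝ) ≠ 0 := by exact_mod_cast hL.ne'
  -- step one: integrate out the holder
  have s1 := resample A (winL M ℓ L) c h1c h2c
    (fun τ => Real.log (1 + qL M ℓ L (τ u)) - Real.log 2 * (if τ u < τ c then (1 : ℝ) else 0))
  rw [card_winL hℓ] at s1
  have s1' : ∀ τ ∈ A, ∑ i ∈ winL M ℓ L,
      (Real.log (1 + qL M ℓ L ((Function.update τ c i) u))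
        - Real.log 2 * (if (Function.update τ c i) u < (Function.update τ c i) c
            then (1 : ℝ) else 0))
      = (L : ℝ) * (Real.log (1 + qL M ℓ L (τ u)) - qL M ℓ L (τ u) * Real.log 2) := by
    intro τ _
    have e : ∀ i ∈ winL M ℓ L,
        (Real.log (1 + qL M ℓ L ((Function.update τ c i) u))
        - Real.log 2 * (if (Function.update τ c i) u < (Function.update τ c i) c
            then (1 : ℝ) else 0))
        = Real.log (1 + qL M ℓ L (τ u)) - Real.log 2 * (if τ u < i then (1 : ℝ) else 0) := by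
      intro i _
      rw [Function.update_of_ne huc, Function.update_self]
    rw [Finset.sum_congr rfl e, Finset.sum_sub_distrib, ← Finset.mul_sum, sum_ind_win hL]
    simp only [Finset.sum_const, nsmul_eq_mul, card_winL hℓ]
    ring
  rw [Finset.sum_congr rfl s1', ← Finset.mul_sum] at s1
  have s2 := mul_left_cancel₀ hLne s1
  rw [← s2]
  -- step two: integrate out the witness
  have s3 := resample A (winL M ℓ L) u h1u h2u
    (fun τ => Real.log (1 + qL M ℓ L (τ u)) - qL M ℓ L (τ u) * Real.log 2)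
  rw [card_winL hℓ] at s3
  have s3' : ∀ τ ∈ A, ∑ i ∈ winL M ℓ L,
      (Real.log (1 + qL M ℓ L ((Function.update τ u i) u))
        - qL M ℓ L ((Function.update τ u i) u) * Real.log 2)
      = (L : ℝ) * hbar M ℓ L := by
    intro τ _
    simp only [Function.update_self]
    unfold hbar
    rw [mul_div_cancel₀ _ hLne]
  rw [Finset.sum_congr rfl s3'] at s3
  simp only [Finset.sum_const, nsmul_eq_mul] at s3
  have s4 : (L : ℝ) * (∑ τ ∈ A, (Real.log (1 + qL M ℓ L (τ u)) - qL M ℓ L (τ u) * Real.log 2))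
      = (L : ℝ) * (hbar M ℓ L * (A.card : ℝ)) := by
    rw [← s3]
    ring
  exact mul_left_cancel₀ hLne s4

/-- Pointwise relation between `XF` and `F2`. -/
lemma XF_eq (τ : V → Fin M) :
    XF T j d ℓ L τ = Real.log 2 * (F2 T j d ℓ L τ : ℝ)
      + ∑ q ∈ HP T j (SSet τ ℓ) (WSet τ ℓ L),
          (Real.log (1 + qL M ℓ L (τ q.2))
            - Real.log 2 * (if τ q.2 < τ q.1 then (1 : ℝ) else 0)) := by
  classical
  unfold XF
  rw [F2_decomp T j d ℓ L, Finset.sum_sub_distrib, ← Finset.mul_sum, Finset.sum_boole]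
  push_cast
  ring

lemma sum_XF (hℓ : ℓ + L ≤ M) (hL : 0 < L) :
    ∑ τ : V → Fin M, XF T j d ℓ L τ = Real.log 2 * ∑ τ : V → Fin M, (F2 T j d ℓ L τ : ℝ)
      + hbar M ℓ L * ∑ τ : V → Fin M, ((HP T j (SSet τ ℓ) (WSet τ ℓ L)).card : ℝ) := by
  classical
  simp only [XF_eq T j d ℓ L]
  rw [Finset.sum_add_distrib, ← Finset.mul_sum]
  congr 1
  -- exchange the sums
  have ex : ∀ f : (V → Fin M) → V × V → ℝ,
      ∑ τ : V → Fin M, ∑ q ∈ HP T j (SSet τ ℓ) (WSet τ ℓ L), f τ q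
        = ∑ q : V × V, ∑ τ ∈ Finset.univ.filter
            (fun τ : V → Fin M => q ∈ HP T j (SSet τ ℓ) (WSet τ ℓ L)), f τ q := by
    intro f
    apply Finset.sum_comm'
    intro τ q
    simp
  rw [ex]
  have ex2 : ∑ τ : V → Fin M, ((HP T j (SSet τ ℓ) (WSet τ ℓ L)).card : ℝ)
      = ∑ τ : V → Fin M, ∑ q ∈ HP T j (SSet τ ℓ) (WSet τ ℓ L), (1 : ℝ) := by
    simp
  rw [ex2, ex, Finset.mul_sum]
  apply Finset.sum_congr rfl
  intro q _
  set A := Finset.univ.filter (fun τ : V → Fin M => q ∈ HP T j (SSet τ ℓ) (WSet τ ℓ L)) with hA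
  have hmem : ∀ τ, τ ∈ A ↔ Hold T j q.1 q.2 (SSet τ ℓ) (WSet τ ℓ L) := by
    intro τ
    rw [hA, Finset.mem_filter, mem_HP T j]
    simp
  have hc : ∀ τ ∈ A, τ q.1 ∈ winL M ℓ L := by
    intro τ hτ
    have := ((hmem τ).mp hτ).2.1
    simpa [WSet] using this
  have hu : ∀ τ ∈ A, τ q.2 ∈ winL M ℓ L := by
    intro τ hτ
    have := ((hmem τ).mp hτ).2.2.1
    simpa [WSet] using this
  have h2c : ∀ τ ∈ A, ∀ i ∈ winL M ℓ L, Function.update τ q.1 i ∈ A := by
    intro τ hτ i hi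
    have hh := (hmem τ).mp hτ
    exact (hmem _).mpr (hold_update T j hh hh.2.1 hi)
  have h2u : ∀ τ ∈ A, ∀ i ∈ winL M ℓ L, Function.update τ q.2 i ∈ A := by
    intro τ hτ i hi
    have hh := (hmem τ).mp hτ
    exact (hmem _).mpr (hold_update T j hh hh.2.2.1 hi)
  by_cases hne : q.2 = q.1
  · -- no level map has this pair
    have hemp : A = ∅ := by
      apply Finset.eq_empty_of_forall_notMem
      intro τ hτ
      exact Hold.ne' T j ((hmem τ).mp hτ) hne
    rw [hemp]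
    simp
  · rw [sum_window_avg ℓ L hℓ hL hne hc hu h2c h2u]
    simp

end fiber

/-! ### The main inequality -/

theorem window_jensen (T : TS V K) (j d ℓ L M : ℕ) (hL : 2 ≤ L) (hℓ : ℓ + L ≤ M) :
    Real.log 2 * ((∑ τ : V → Fin M, (F2 T j d ℓ L τ : ℝ)) / (M : ℝ) ^ (Fintype.card V))
      + hbar M ℓ L * ((∑ τ : V → Fin M, ((HP T j (SSet τ ℓ) (WSet τ ℓ L)).card : ℝ)) /
          (M : ℝ) ^ (Fintype.card V))
    ≤ Real.log ((∑ τ : V → Fin M, (2 : ℝ) ^ (F2 T j d ℓ L τ)) / (M : ℝ) ^ (Fintype.card V)) := by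
  have hLpos : 0 < L := by omega
  have hMpos : 0 < M := by omega
  have hN : (0 : ℝ) < (M : ℝ) ^ (Fintype.card V) := by positivity
  set N : ℝ := (M : ℝ) ^ (Fintype.card V) with hNdef
  have hcard : (Finset.univ : Finset (V → Fin M)).card = M ^ (Fintype.card V) := by
    simp [Finset.card_univ]
  have hne : (Finset.univ : Finset (V → Fin M)).Nonempty := by
    have : Nonempty (Fin M) := ⟨⟨0, hMpos⟩⟩
    exact Finset.univ_nonempty
  have hsum := sum_XF T j d ℓ L (M := M) hℓ hLpos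
  have hsumexp := sum_exp_XF T j d ℓ L (M := M) hℓ hLpos
  rw [← hsumexp]
  have hpos : 0 < (∑ τ : V → Fin M, Real.exp (XF T j d ℓ L τ)) / N := by
    apply div_pos _ hN
    exact Finset.sum_pos (fun τ _ => Real.exp_pos _) hne
  rw [Real.le_log_iff_exp_le hpos]
  -- Jensen
  have hJ := convexOn_exp.map_sum_le (t := (Finset.univ : Finset (V → Fin M)))
    (w := fun _ => 1 / N) (p := fun τ => XF T j d ℓ L τ)
    (fun _ _ => by positivity)
    (by
      simp only [Finset.sum_const, hcard, nsmul_eq_mul]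
      rw [hNdef]
      push_cast
      field_simp)
    (fun _ _ => Set.mem_univ _)
  simp only [smul_eq_mul] at hJ
  rw [← Finset.mul_sum, ← Finset.mul_sum] at hJ
  have e1 : Real.log 2 * ((∑ τ : V → Fin M, (F2 T j d ℓ L τ : ℝ)) / N)
      + hbar M ℓ L * ((∑ τ : V → Fin M, ((HP T j (SSet τ ℓ) (WSet τ ℓ L)).card : ℝ)) / N)
      = 1 / N * ∑ τ : V → Fin M, XF T j d ℓ L τ := by
    rw [hsum]
    ring
  rw [e1]
  refine le_trans hJ (le_of_eq ?_)
  ring

/-! ### Positivity of the gain -/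

/-- explicit lower bound for the Jensen gain -/
noncomputable def h0c : ℝ := (Real.log (3 / 2) - Real.log 2 / 2) / 4

lemma h0c_pos : 0 < h0c := by
  unfold h0c
  have h1 : Real.log 2 < 2 * Real.log (3 / 2) := by
    have : 2 * Real.log (3 / 2) = Real.log ((3 / 2) ^ 2) := by
      rw [Real.log_pow]
      norm_num
    rw [this]
    apply Real.log_lt_log (by norm_num)
    norm_num
  linarith

lemma gain_lower {q : ℝ} (h0c' : 0 ≤ q) (h1 : q ≤ 1) :
    2 * (Real.log (3 / 2) - Real.log 2 / 2) * (q * (1 - q))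
      ≤ Real.log (1 + q) - q * Real.log 2 := by
  have hc := strictConcaveOn_log_Ioi.concaveOn
  have hh : 0 ≤ Real.log (3 / 2) - Real.log 2 / 2 := by
    have := h0c_pos
    unfold h0c at this
    linarith
  rcases le_total q (1 / 2) with hq | hq
  · have h2 := hc.2 (show (1 : ℝ) ∈ Set.Ioi 0 by norm_num) (show (3 / 2 : ℝ) ∈ Set.Ioi 0 by norm_num)
      (show 0 ≤ 1 - 2 * q by linarith) (show 0 ≤ 2 * q by linarith) (by ring)
    simp only [smul_eq_mul, Real.log_one, mul_zero, zero_add] at h2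
    have e : (1 - 2 * q) * 1 + 2 * q * (3 / 2) = 1 + q := by ring
    rw [e] at h2
    have h3 : q * (1 - q) ≤ q := by nlinarith
    have h4 := mul_le_mul_of_nonneg_left h3 (by linarith : 0 ≤ 2 * (Real.log (3 / 2) - Real.log 2 / 2))
    nlinarith
  · have h2 := hc.2 (show (3 / 2 : ℝ) ∈ Set.Ioi 0 by norm_num) (show (2 : ℝ) ∈ Set.Ioi 0 by norm_num)
      (show 0 ≤ 2 - 2 * q by linarith) (show 0 ≤ 2 * q - 1 by linarith) (by ring)
    simp only [smul_eq_mul] at h2
    have e : (2 - 2 * q) * (3 / 2) + (2 * q - 1) * 2 = 1 + q := by ring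
    rw [e] at h2
    have h3 : q * (1 - q) ≤ 1 - q := by nlinarith
    have h4 := mul_le_mul_of_nonneg_left h3 (by linarith : 0 ≤ 2 * (Real.log (3 / 2) - Real.log 2 / 2))
    nlinarith

lemma sum_range_id_real (n : ℕ) : ∑ t ∈ Finset.range n, (t : ℝ) = (n : ℝ) * (n - 1) / 2 := by
  induction n with
  | zero => simp
  | succ n ih =>
    rw [Finset.sum_range_succ, ih]
    push_cast
    ring

lemma sum_range_sq_real (n : ℕ) :
    ∑ t ∈ Finset.range n, (t : ℝ) ^ 2 = (n : ℝ) * (n - 1) * (2 * n - 1) / 6 := by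
  induction n with
  | zero => simp
  | succ n ih =>
    rw [Finset.sum_range_succ, ih]
    push_cast
    ring

section gain

variable {M ℓ L : ℕ}

lemma card_above (hℓ : ℓ + L ≤ M) {a : Fin M} (ha : a ∈ winL M ℓ L) :
    ((winL M ℓ L).filter (fun l => a < l)).card = M - ℓ - 1 - a.val := by
  have hM := (mem_winL.mp ha)
  have e : ((winL M ℓ L).filter (fun l => a < l)).map Fin.valEmbedding
      = Finset.Ico (a.val + 1) (M - ℓ) := by
    ext n
    simp only [Finset.mem_map, Finset.mem_filter, mem_winL, Fin.valEmbedding_apply, Finset.mem_Ico,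
      Fin.lt_def]
    constructor
    · rintro ⟨i, ⟨⟨h1, h2⟩, h3⟩, rfl⟩
      omega
    · intro hn
      exact ⟨⟨n, by omega⟩, ⟨⟨by simp only []; omega, by simp only []; omega⟩, by simp only []; omega⟩, rfl⟩
  rw [← Finset.card_map Fin.valEmbedding, e, Nat.card_Ico]
  omega

theorem hbar_ge (hL : 2 ≤ L) (hℓ : ℓ + L ≤ M) : h0c ≤ hbar M ℓ L := by
  have hLpos : (0 : ℝ) < L := by
    have : 0 < L := by omega
    exact_mod_cast this
  have hh : 0 ≤ Real.log (3 / 2) - Real.log 2 / 2 := by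
    have := h0c_pos
    unfold h0c at this
    linarith
  -- reindex the window by the number of levels above
  have hre : ∀ g : ℕ → ℝ, ∑ i ∈ winL M ℓ L, g (M - ℓ - 1 - i.val) = ∑ t ∈ Finset.range L, g t := by
    intro g
    apply Finset.sum_nbij' (fun i => M - ℓ - 1 - i.val)
      (fun t => (⟨M - ℓ - 1 - t, by omega⟩ : Fin M)) (t := Finset.range L) (s := winL M ℓ L)
    · intro i hi
      have := mem_winL.mp hi
      rw [Finset.mem_range]
      omega
    · intro t ht
      have := Finset.mem_range.mp ht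
      rw [mem_winL]
      simp only []
      omega
    · intro i hi
      have := mem_winL.mp hi
      apply Fin.ext
      simp only []
      omega
    · intro t ht
      have := Finset.mem_range.mp ht
      simp only []
      omega
    · intro i _
      rfl
  have hq : ∀ i ∈ winL M ℓ L, qL M ℓ L i = ((M - ℓ - 1 - i.val : ℕ) : ℝ) / L := by
    intro i hi
    unfold qL
    rw [card_above hℓ hi]
  have hq1 : ∀ i ∈ winL M ℓ L, qL M ℓ L i ≤ 1 := by
    intro i hi
    rw [hq i hi, div_le_one hLpos]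
    have := mem_winL.mp hi
    have h3 : M - ℓ - 1 - i.val ≤ L := by omega
    exact_mod_cast h3
  have hsum : ∑ i ∈ winL M ℓ L, (2 * (Real.log (3 / 2) - Real.log 2 / 2) *
        (qL M ℓ L i * (1 - qL M ℓ L i)))
      ≤ ∑ i ∈ winL M ℓ L, (Real.log (1 + qL M ℓ L i) - qL M ℓ L i * Real.log 2) :=
    Finset.sum_le_sum (fun i hi => gain_lower (qL_nonneg i) (hq1 i hi))
  have hval : ∑ i ∈ winL M ℓ L, (qL M ℓ L i * (1 - qL M ℓ L i))
      = ((L : ℝ) ^ 2 - 1) / (6 * L) := by
    have e1 : ∀ i ∈ winL M ℓ L, (qL M ℓ L i * (1 - qL M ℓ L i))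
        = (fun t : ℕ => ((t : ℝ) / L) * (1 - (t : ℝ) / L)) (M - ℓ - 1 - i.val) := by
      intro i hi
      simp only []
      rw [hq i hi]
    rw [Finset.sum_congr rfl e1, hre (fun t : ℕ => ((t : ℝ) / L) * (1 - (t : ℝ) / L))]
    have e2 : ∀ t ∈ Finset.range L, ((t : ℝ) / L) * (1 - (t : ℝ) / L)
        = (t : ℝ) * (1 / L) - (t : ℝ) ^ 2 * (1 / L ^ 2) := by
      intro t _
      field_simp
    rw [Finset.sum_congr rfl e2, Finset.sum_sub_distrib, ← Finset.sum_mul, ← Finset.sum_mul,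
      sum_range_id_real, sum_range_sq_real]
    field_simp
    ring
  unfold hbar h0c
  rw [le_div_iff₀ hLpos]
  refine le_trans ?_ hsum
  rw [← Finset.mul_sum, hval]
  have hL2 : (2 : ℝ) ≤ L := by exact_mod_cast hL
  -- arithmetic: (L²-1)/(6L) ≥ L/8
  have h5 : (L : ℝ) / 8 ≤ ((L : ℝ) ^ 2 - 1) / (6 * L) := by
    rw [div_le_div_iff₀ (by norm_num) (by positivity)]
    nlinarith
  have h6 := mul_le_mul_of_nonneg_left h5 (by linarith : 0 ≤ 2 * (Real.log (3 / 2) - Real.log 2 / 2))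
  nlinarith

/-- Explicit lower bound for the gain, in the form used by the assembly. -/
theorem hbar_pos (M ℓ L : ℕ) (hL : 2 ≤ L) (hℓ : ℓ + L ≤ M) : h0c ≤ hbar M ℓ L :=
  hbar_ge hL hℓ

end gain

end Vale.Agent.Lib.P336_h66
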