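/-
P336 (helper1, PART W2 of the blueprint of helper66): averages over the level maps `τ`.
-/
import Vale.Agent.Lib.P336_h66.WJensen

namespace Vale.Agent.Lib.P336_h66

set_option linter.unusedSectionVars false

open Finset

variable {V : Type} [Fintype V] [DecidableEq V] {K : ℕ}

/-! ### Real indicators -/

/-- Real indicator of a proposition. -/
noncomputable def oneP (P : Prop) : ℝ := by classical exact if P then 1 else 0

lemma oneP_of {P : Prop} (h : P) : oneP P = 1 := by simp [oneP, h]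

lemma oneP_not {P : Prop} (h : ¬ P) : oneP P = 0 := by simp [oneP, h]

lemma oneP_nonneg (P : Prop) : 0 ≤ oneP P := by
  by_cases h : P
  · rw [oneP_of h]; norm_num
  · rw [oneP_not h]

lemma oneP_le_one (P : Prop) : oneP P ≤ 1 := by
  by_cases h : P
  · rw [oneP_of h]
  · rw [oneP_not h]; norm_num

lemma oneP_congr {P Q : Prop} (h : P ↔ Q) : oneP P = oneP Q := by
  rw [propext h]

lemma oneP_mono {P Q : Prop} (h : P → Q) : oneP P ≤ oneP Q := by
  by_cases hP : P
  · rw [oneP_of hP, oneP_of (h hP)]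
  · rw [oneP_not hP]; exact oneP_nonneg Q

lemma ind_eq_oneP (P : Finset V → Prop) (S : Finset V) : ind P S = oneP (P S) := by
  by_cases h : P S
  · rw [ind_apply_of h, oneP_of h]
  · rw [ind_apply_not h, oneP_not h]

lemma Pr_eq_oneP (p : ℝ) (P : Finset V → Prop) : Pr p P = Ep p (fun S => oneP (P S)) := by
  have : ind P = fun S => oneP (P S) := funext (ind_eq_oneP P)
  rw [Pr, this]

lemma card_filter_eq_sum_oneP {ι : Type} (s : Finset ι) (P : ι → Prop) [DecidablePred P] :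
    ((s.filter P).card : ℝ) = ∑ x ∈ s, oneP (P x) := by
  rw [Finset.card_filter, Nat.cast_sum]
  apply Finset.sum_congr rfl
  intro x _
  by_cases h : P x
  · rw [oneP_of h]; simp [h]
  · rw [oneP_not h]; simp [h]

lemma card_eq_sum_oneP_mem (X : Finset V) : (X.card : ℝ) = ∑ z : V, oneP (z ∈ X) := by
  have h := card_filter_eq_sum_oneP (Finset.univ : Finset V) (fun z => z ∈ X)
  have e : (Finset.univ.filter (fun z => z ∈ X)) = X := by ext z; simp
  rw [e] at h
  exact h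

/-! ### The level-map average -/

/-- Preimage of a set of levels. -/
def preL {M : ℕ} (H : Finset (Fin M)) (τ : V → Fin M) : Finset V :=
  Finset.univ.filter (fun v => τ v ∈ H)

lemma mem_preL {M : ℕ} {H : Finset (Fin M)} {τ : V → Fin M} {v : V} :
    v ∈ preL H τ ↔ τ v ∈ H := by
  simp [preL]

lemma card_preL_fiber {M : ℕ} (H : Finset (Fin M)) (A : Finset V) :
    ((Finset.univ.filter (fun τ : V → Fin M => preL H τ = A)).card : ℝ)
      = (H.card : ℝ) ^ A.card * ((M : ℝ) - H.card) ^ (Fintype.card V - A.card) := by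
  classical
  have e : Finset.univ.filter (fun τ : V → Fin M => preL H τ = A)
      = Fintype.piFinset (fun v => if v ∈ A then H else Hᶜ) := by
    ext τ
    simp only [Finset.mem_filter, Finset.mem_univ, true_and, Fintype.mem_piFinset]
    constructor
    · rintro rfl v
      by_cases hv : τ v ∈ H
      · have : v ∈ preL H τ := mem_preL.mpr hv
        simp [this, hv]
      · have : v ∉ preL H τ := fun h => hv (mem_preL.mp h)
        simp [this, hv]
    · intro h
      ext v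
      rw [mem_preL]
      have hv := h v
      by_cases hA : v ∈ A
      · simp only [hA, if_true] at hv
        simp [hA, hv]
      · simp only [hA, if_false, Finset.mem_compl] at hv
        simp [hA, hv]
  rw [e, Fintype.card_piFinset, Nat.cast_prod]
  have h1 : ∀ v : V, (((if v ∈ A then H else Hᶜ).card : ℕ) : ℝ)
      = if v ∈ A then (H.card : ℝ) else ((M : ℝ) - H.card) := by
    intro v
    by_cases hA : v ∈ A
    · simp [hA]
    · have hc : H.card ≤ M := by
        have := Finset.card_le_univ H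
        simpa using this
      simp only [hA, if_false, Finset.card_compl, Fintype.card_fin]
      rw [Nat.cast_sub hc]
  simp only [h1]
  rw [Finset.prod_ite, Finset.prod_const, Finset.prod_const]
  have e1 : (Finset.univ.filter (fun v => v ∈ A)) = A := by ext z; simp
  have e2 : (Finset.univ.filter (fun v => ¬ v ∈ A)).card = Fintype.card V - A.card := by
    have : (Finset.univ.filter (fun v => ¬ v ∈ A)) = Aᶜ := by ext z; simp
    rw [this, Finset.card_compl]
  rw [e1, e2]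

lemma sum_preL_eq {M : ℕ} (hM : 0 < M) (H : Finset (Fin M)) (f : Finset V → ℝ) :
    ∑ τ : V → Fin M, f (preL H τ)
      = (M : ℝ) ^ (Fintype.card V) * Ep ((H.card : ℝ) / M) f := by
  classical
  have hM' : (M : ℝ) ≠ 0 := by positivity
  unfold Ep EA
  rw [← Finset.sum_fiberwise (s := Finset.univ) (g := preL H)
    (f := fun τ : V → Fin M => f (preL H τ))]
  rw [Finset.powerset_univ, Finset.mul_sum]
  apply Finset.sum_congr rfl
  intro A _
  have h1 : ∑ τ ∈ Finset.univ.filter (fun τ : V → Fin M => preL H τ = A), f (preL H τ)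
      = ((Finset.univ.filter (fun τ : V → Fin M => preL H τ = A)).card : ℝ) * f A := by
    rw [Finset.sum_congr rfl (g := fun _ => f A)
      (fun τ hτ => by rw [(Finset.mem_filter.mp hτ).2])]
    simp
  rw [h1, card_preL_fiber]
  have hA : A.card ≤ Fintype.card V := Finset.card_le_univ A
  have e : (M : ℝ) ^ (Fintype.card V) = (M : ℝ) ^ A.card * (M : ℝ) ^ (Fintype.card V - A.card) := by
    rw [← pow_add]; congr 1; omega
  have e2 : (Finset.univ : Finset V).card = Fintype.card V := rfl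
  rw [e2, e]
  have e3 : (1 - (H.card : ℝ) / M) = ((M : ℝ) - H.card) / M := by field_simp
  rw [e3, div_pow, div_pow]
  field_simp

lemma sum_coord {M : ℕ} (hM : 0 < M) (c : V) (a : Fin M → ℝ) (G : (V → Fin M) → ℝ)
    (hG : ∀ τ i, G (Function.update τ c i) = G τ) :
    ∑ τ : V → Fin M, a (τ c) * G τ = ((∑ i, a i) / M) * ∑ τ, G τ := by
  have hM' : (M : ℝ) ≠ 0 := by positivity
  have h := resample (Finset.univ : Finset (V → Fin M)) (Finset.univ : Finset (Fin M)) c
    (by simp) (by simp) (fun τ => a (τ c) * G τ)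
  simp only [Function.update_self, hG, Finset.card_univ, Fintype.card_fin] at h
  have h2 : ∑ τ : V → Fin M, ∑ i : Fin M, a i * G τ = (∑ i, a i) * ∑ τ, G τ := by
    rw [Finset.sum_mul_sum]
    rw [Finset.sum_comm]
  rw [h2] at h
  field_simp
  linarith

lemma sum_world_aux {M : ℕ} (hM : 0 < M) (Wn : Finset (Fin M)) (F : (V → Fin M) → ℝ)
    (D : Finset V) (hF : ∀ v ∈ D, ∀ τ i, F (Function.update τ v i) = F τ) :
    ∑ τ : V → Fin M, (∏ v ∈ D, if τ v ∈ Wn then (1 : ℝ) else 0) * F τ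
      = ((Wn.card : ℝ) / M) ^ D.card * ∑ τ, F τ := by
  induction D using Finset.induction_on with
  | empty => simp
  | insert v D hv ih =>
    have h1 := ih (fun w hw => hF w (Finset.mem_insert_of_mem hw))
    rw [Finset.card_insert_of_notMem hv, pow_succ]
    simp_rw [Finset.prod_insert hv, mul_assoc]
    rw [sum_coord hM v (fun i => if i ∈ Wn then (1 : ℝ) else 0)
      (fun τ => (∏ w ∈ D, if τ w ∈ Wn then (1 : ℝ) else 0) * F τ)]
    · rw [h1]
      have e : ∑ i : Fin M, (if i ∈ Wn then (1 : ℝ) else 0) = (Wn.card : ℝ) := by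
        simp
      rw [e]
      ring
    · intro τ i
      rw [hF v (Finset.mem_insert_self _ _)]
      congr 1
      apply Finset.prod_congr rfl
      intro w hw
      have : w ≠ v := fun e => hv (e ▸ hw)
      rw [Function.update_of_ne this]

/-- The basic level-map average. -/
theorem avg_tau_world {M : ℕ} (hM : 0 < M) (H' Wn : Finset (Fin M)) (D : Finset V)
    (Ψ : Finset V → ℝ) :
    (∑ τ : V → Fin M, (∏ v ∈ D, if τ v ∈ Wn then (1 : ℝ) else 0) * Ψ (preL H' τ \ D))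
        / (M : ℝ) ^ (Fintype.card V)
      = ((Wn.card : ℝ) / M) ^ D.card * Ep ((H'.card : ℝ) / M) (fun S => Ψ (S \ D)) := by
  have hM' : (M : ℝ) ≠ 0 := by positivity
  have hF : ∀ v ∈ D, ∀ (τ : V → Fin M) (i : Fin M),
      Ψ (preL H' (Function.update τ v i) \ D) = Ψ (preL H' τ \ D) := by
    intro v hv τ i
    congr 1
    ext x
    simp only [Finset.mem_sdiff, mem_preL]
    by_cases hx : x = v
    · subst hx
      simp [hv]
    · rw [Function.update_of_ne hx]
  rw [sum_world_aux hM Wn (fun τ => Ψ (preL H' τ \ D)) D hF]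
  rw [sum_preL_eq hM H' (fun S => Ψ (S \ D))]
  field_simp

lemma prod_ite_eq_oneP {M : ℕ} (Wn : Finset (Fin M)) (D : Finset V) (τ : V → Fin M) :
    (∏ v ∈ D, if τ v ∈ Wn then (1 : ℝ) else 0) = oneP (∀ w ∈ D, τ w ∈ Wn) := by
  by_cases h : ∀ w ∈ D, τ w ∈ Wn
  · rw [oneP_of h]
    apply Finset.prod_eq_one
    intro v hv
    simp [h v hv]
  · rw [oneP_not h]
    push Not at h
    obtain ⟨w, hw, hw2⟩ := h
    apply Finset.prod_eq_zero hw
    simp [hw2]

/-- Average of an event on which the levels of `D` are in `Wn`. -/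
lemma avg_event {M : ℕ} (hM : 0 < M) (H' Wn : Finset (Fin M)) (D : Finset V)
    (P : Finset V → Prop) :
    (∑ τ : V → Fin M, oneP ((∀ w ∈ D, τ w ∈ Wn) ∧ P (preL H' τ \ D)))
        / (M : ℝ) ^ (Fintype.card V)
      = ((Wn.card : ℝ) / M) ^ D.card * Pr ((H'.card : ℝ) / M) (fun S => P (S \ D)) := by
  have h := avg_tau_world hM H' Wn D (fun X => oneP (P X))
  rw [Pr_eq_oneP, ← h]
  congr 1
  apply Finset.sum_congr rfl
  intro τ _
  rw [prod_ite_eq_oneP]
  by_cases h1 : ∀ w ∈ D, τ w ∈ Wn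
  · rw [oneP_of h1, one_mul]
    apply oneP_congr
    exact ⟨fun h2 => h2.2, fun h2 => ⟨h1, h2⟩⟩
  · rw [oneP_not h1, zero_mul]
    apply oneP_not
    exact fun h2 => h1 h2.1

/-! ### Forced variables -/

lemma card_levels_ge {M : ℕ} (i : Fin M) :
    (((Finset.univ.filter (fun l : Fin M => i ≤ l)).card : ℕ) : ℝ) = (M : ℝ) - (i.val : ℝ) := by
  have e : Finset.univ.filter (fun l : Fin M => i ≤ l) = Finset.Ici i := by
    ext l; simp
  rw [e, Fin.card_Ici, Nat.cast_sub (le_of_lt i.isLt)]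

lemma avg_bad_count (T : TS V K) {M : ℕ} (hM : 0 < M) (dd : Fin M → ℕ) :
    (∑ τ : V → Fin M, ∑ x : V, oneP (¬ T.bad (later τ x) (dd (τ x)) [x]))
        / (M : ℝ) ^ (Fintype.card V)
      = (1 / (M : ℝ)) * ∑ i : Fin M, ∑ x : V,
          Pr (((M : ℝ) - (i.val : ℝ)) / (M : ℝ)) (fun S => ¬ T.bad S (dd i) [x]) := by
  have key : ∀ (x : V) (τ : V → Fin M), oneP (¬ T.bad (later τ x) (dd (τ x)) [x])
      = ∑ i : Fin M, oneP ((∀ w ∈ ({x} : Finset V), τ w ∈ ({i} : Finset (Fin M))) ∧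
          ¬ T.bad (preL (Finset.univ.filter (fun l : Fin M => i ≤ l)) τ \ {x}) (dd i) [x]) := by
    intro x τ
    rw [Finset.sum_eq_single (τ x)]
    · apply oneP_congr
      have e : preL (Finset.univ.filter (fun l : Fin M => τ x ≤ l)) τ \ {x} = later τ x := by
        ext v
        simp only [Finset.mem_sdiff, mem_preL, Finset.mem_filter, Finset.mem_univ, true_and,
          Finset.mem_singleton, mem_later']
        tauto
      rw [e]
      simp
    · intro i _ hi
      apply oneP_not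
      rintro ⟨h, _⟩
      have := h x (Finset.mem_singleton_self x)
      rw [Finset.mem_singleton] at this
      exact hi this.symm
    · intro h
      exact absurd (Finset.mem_univ _) h
  simp_rw [key]
  have e1 : (∑ τ : V → Fin M, ∑ x : V, ∑ i : Fin M,
      oneP ((∀ w ∈ ({x} : Finset V), τ w ∈ ({i} : Finset (Fin M))) ∧
        ¬ T.bad (preL (Finset.univ.filter (fun l : Fin M => i ≤ l)) τ \ {x}) (dd i) [x]))
      = ∑ i : Fin M, ∑ x : V, ∑ τ : V → Fin M,
      oneP ((∀ w ∈ ({x} : Finset V), τ w ∈ ({i} : Finset (Fin M))) ∧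
        ¬ T.bad (preL (Finset.univ.filter (fun l : Fin M => i ≤ l)) τ \ {x}) (dd i) [x]) := by
    have e2 : ∀ τ : V → Fin M, ∑ x : V, ∑ i : Fin M,
        oneP ((∀ w ∈ ({x} : Finset V), τ w ∈ ({i} : Finset (Fin M))) ∧
          ¬ T.bad (preL (Finset.univ.filter (fun l : Fin M => i ≤ l)) τ \ {x}) (dd i) [x])
        = ∑ i : Fin M, ∑ x : V,
        oneP ((∀ w ∈ ({x} : Finset V), τ w ∈ ({i} : Finset (Fin M))) ∧
          ¬ T.bad (preL (Finset.univ.filter (fun l : Fin M => i ≤ l)) τ \ {x}) (dd i) [x]) :=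
      fun τ => Finset.sum_comm
    simp_rw [e2]
    rw [Finset.sum_comm]
    apply Finset.sum_congr rfl
    intro i _
    rw [Finset.sum_comm]
  rw [e1, Finset.sum_div, Finset.mul_sum]
  apply Finset.sum_congr rfl
  intro i _
  rw [Finset.sum_div, Finset.mul_sum]
  apply Finset.sum_congr rfl
  intro x _
  rw [avg_event hM (Finset.univ.filter (fun l : Fin M => i ≤ l)) {i} {x}
    (fun X => ¬ T.bad X (dd i) [x])]
  rw [card_levels_ge]
  simp only [Finset.card_singleton, Nat.cast_one, pow_one]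
  congr 2
  funext S
  have : T.bad (S \ {x}) (dd i) [x] ↔ T.bad S (dd i) [x] := by
    apply T.bad_congr
    intro v hv
    have hvx : v ≠ x := by simpa using hv
    simp [hvx]
  rw [this]

theorem avg_FF_eq (T : TS V K) (d : ℕ) {M : ℕ} (hM : 0 < M) :
    (∑ τ : V → Fin M, (FF T d τ : ℝ)) / (M : ℝ) ^ (Fintype.card V)
      = (1 / (M : ℝ)) * ∑ i : Fin M, ∑ x : V,
          Pr (((M : ℝ) - (i.val : ℝ)) / (M : ℝ)) (fun S => ¬ T.bad S d [x]) := by
  have h := avg_bad_count T hM (fun _ => d)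
  rw [← h]
  congr 1
  apply Finset.sum_congr rfl
  intro τ _
  unfold FF
  rw [card_filter_eq_sum_oneP]

theorem avg_F2_eq (T : TS V K) (j d ℓ L : ℕ) {M : ℕ} (hM : 0 < M) :
    (∑ τ : V → Fin M, (F2 T j d ℓ L τ : ℝ)) / (M : ℝ) ^ (Fintype.card V)
      = (1 / (M : ℝ)) * ∑ i : Fin M, ∑ x : V,
          Pr (((M : ℝ) - (i.val : ℝ)) / (M : ℝ))
            (fun S => ¬ T.bad S (if i ∈ winL M ℓ L then j + 1 else d) [x]) := by
  have h := avg_bad_count T hM (fun i => if i ∈ winL M ℓ L then j + 1 else d)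
  rw [← h]
  congr 1
  apply Finset.sum_congr rfl
  intro τ _
  unfold F2
  rw [card_filter_eq_sum_oneP]
  apply Finset.sum_congr rfl
  intro x _
  apply oneP_congr
  by_cases hx : τ x ∈ winL M ℓ L <;> simp [hx]

theorem sum_fin_reindex (M : ℕ) (g : ℝ → ℝ) :
    ∑ i : Fin M, g (((M : ℝ) - (i.val : ℝ)) / (M : ℝ))
      = ∑ l ∈ Finset.range M, g (((l : ℝ) + 1) / (M : ℝ)) := by
  rw [Finset.sum_range]
  rw [← Equiv.sum_comp Fin.revPerm]
  apply Finset.sum_congr rfl
  intro i _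
  congr 2
  simp only [Fin.revPerm_apply, Fin.val_rev]
  have : ((M - (i.val + 1) : ℕ) : ℝ) = (M : ℝ) - ((i.val : ℝ) + 1) := by
    rw [Nat.cast_sub (by omega)]
    push_cast
    ring
  rw [this]
  ring

/-! ### Holder pairs -/

lemma card_hiL {M ℓ : ℕ} (h : ℓ ≤ M) : (hiL M ℓ).card = ℓ := by
  have e : (hiL M ℓ).map Fin.valEmbedding = Finset.Ico (M - ℓ) M := by
    ext n
    simp only [Finset.mem_map, mem_hiL, Fin.valEmbedding_apply, Finset.mem_Ico]
    constructor
    · rintro ⟨i, hi, rfl⟩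
      exact ⟨hi, i.isLt⟩
    · intro hn
      exact ⟨⟨n, hn.2⟩, hn.1, rfl⟩
  rw [← Finset.card_map Fin.valEmbedding, e, Nat.card_Ico]
  omega

section HPsec

variable (T : TS V K) (j : ℕ)

/-- The main event. -/
def EvT (c u : V) (S W : Finset V) : Prop := c ∈ W ∧ u ∈ W ∧ Asym T j c u S

/-- First error event. -/
def Ev1 (c u v : V) (S W : Finset V) : Prop :=
  c ∈ W ∧ u ∈ W ∧ v ∈ W ∧ v ∈ T.gam (insert u S) (j + 1) [c]

/-- Second error event. -/
def Ev2 (c u v : V) (S W : Finset V) : Prop :=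
  c ∈ W ∧ u ∈ W ∧ v ∈ W ∧ v ∈ T.gam (insert c S) (j + 1) [u]

/-- Third error event. -/
def Ev3 (c u v : V) (S W : Finset V) : Prop :=
  c ∈ W ∧ u ∈ W ∧ v ∈ W ∧ c ∈ T.gam (insert u (S ∪ (W \ {c, u}))) (j + 1) [v]

lemma HP_card_eq (S W : Finset V) :
    ((HP T j S W).card : ℝ) = ∑ c : V, ∑ u ∈ CC T c, oneP (Hold T j c u S W) := by
  unfold HP
  rw [card_filter_eq_sum_oneP, Fintype.sum_prod_type]
  apply Finset.sum_congr rfl
  intro c _
  symm
  apply Finset.sum_subset (Finset.subset_univ _)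
  intro u _ hu
  apply oneP_not
  exact fun h => hu h.1

lemma hold_ge {c u : V} (hu : u ∈ CC T c) (S W : Finset V) :
    oneP (EvT T j c u S W)
        - ∑ v ∈ Finset.univ \ ({c, u} : Finset V),
            (oneP (Ev1 T j c u v S W) + oneP (Ev2 T j c u v S W) + oneP (Ev3 T j c u v S W))
      ≤ oneP (Hold T j c u S W) := by
  have hnn : ∀ v ∈ Finset.univ \ ({c, u} : Finset V),
      0 ≤ oneP (Ev1 T j c u v S W) + oneP (Ev2 T j c u v S W) + oneP (Ev3 T j c u v S W) := by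
    intro v _
    have h1 := oneP_nonneg (Ev1 T j c u v S W)
    have h2 := oneP_nonneg (Ev2 T j c u v S W)
    have h3 := oneP_nonneg (Ev3 T j c u v S W)
    linarith
  have hS := Finset.sum_nonneg hnn
  have hH := oneP_nonneg (Hold T j c u S W)
  by_cases hE : EvT T j c u S W
  · by_cases hHo : Hold T j c u S W
    · rw [oneP_of hHo]
      have := oneP_le_one (EvT T j c u S W)
      linarith
    · -- some error event fires
      have hfire : ∃ v ∈ Finset.univ \ ({c, u} : Finset V),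
          Ev1 T j c u v S W ∨ Ev2 T j c u v S W ∨ Ev3 T j c u v S W := by
        by_contra hno
        push Not at hno
        apply hHo
        obtain ⟨hc, hu', hA⟩ := hE
        refine ⟨hu, hc, hu', hA, ?_, ?_, ?_⟩
        · rw [Finset.disjoint_left]
          intro v hv hv2
          have hv' : v ∈ Finset.univ \ ({c, u} : Finset V) := by
            simp only [Finset.mem_sdiff, Finset.mem_univ, true_and]
            exact (Finset.mem_sdiff.mp hv).2
          exact (hno v hv').1 ⟨hc, hu', (Finset.mem_sdiff.mp hv).1, hv2⟩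
        · rw [Finset.disjoint_left]
          intro v hv hv2
          have hv' : v ∈ Finset.univ \ ({c, u} : Finset V) := by
            simp only [Finset.mem_sdiff, Finset.mem_univ, true_and]
            exact (Finset.mem_sdiff.mp hv).2
          exact (hno v hv').2.1 ⟨hc, hu', (Finset.mem_sdiff.mp hv).1, hv2⟩
        · intro v hv hv2
          have hv' : v ∈ Finset.univ \ ({c, u} : Finset V) := by
            simp only [Finset.mem_sdiff, Finset.mem_univ, true_and]
            exact (Finset.mem_sdiff.mp hv).2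
          exact (hno v hv').2.2 ⟨hc, hu', (Finset.mem_sdiff.mp hv).1, hv2⟩
      obtain ⟨v, hv, hfire⟩ := hfire
      have h1 : 1 ≤ oneP (Ev1 T j c u v S W) + oneP (Ev2 T j c u v S W) + oneP (Ev3 T j c u v S W) := by
        have h1 := oneP_nonneg (Ev1 T j c u v S W)
        have h2 := oneP_nonneg (Ev2 T j c u v S W)
        have h3 := oneP_nonneg (Ev3 T j c u v S W)
        rcases hfire with h | h | h
        · rw [oneP_of h]; linarith
        · rw [oneP_of h]; linarith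
        · rw [oneP_of h]; linarith
      have h2 := Finset.single_le_sum hnn hv
      have := oneP_le_one (EvT T j c u S W)
      linarith
  · rw [oneP_not hE]
    linarith

/-- A level in the window is not on the top levels. -/
lemma sdiff_of_window {M ℓ L : ℕ} {τ : V → Fin M} {D : Finset V}
    (h : ∀ w ∈ D, τ w ∈ winL M ℓ L) :
    SSet τ ℓ \ D = SSet τ ℓ := by
  apply Finset.sdiff_eq_self_of_disjoint
  rw [Finset.disjoint_left]
  intro v hv hvD
  have h1 : v ∈ WSet τ ℓ L := by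
    simp only [WSet, Finset.mem_filter, Finset.mem_univ, true_and]
    exact h v hvD
  exact not_mem_S_of_mem_W h1 hv

lemma preL_hiL_eq {M ℓ : ℕ} (τ : V → Fin M) : preL (hiL M ℓ) τ = SSet τ ℓ := rfl

lemma avg_EvT {M ℓ L : ℕ} (hM : 0 < M) (h : ℓ + L ≤ M) {c u : V} (hcu : c ≠ u) :
    (∑ τ : V → Fin M, oneP (EvT T j c u (SSet τ ℓ) (WSet τ ℓ L))) / (M : ℝ) ^ (Fintype.card V)
      = ((L : ℝ) / M) ^ 2 * aa T j ((ℓ : ℝ) / M) c u := by
  have h1 := avg_event hM (hiL M ℓ) (winL M ℓ L) ({c, u} : Finset V)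
    (fun X => Asym T j c u X)
  rw [card_hiL (by omega), card_winL h, Finset.card_pair hcu] at h1
  unfold aa
  rw [← h1]
  congr 1
  apply Finset.sum_congr rfl
  intro τ _
  apply oneP_congr
  rw [preL_hiL_eq]
  constructor
  · rintro ⟨hc, hu, hA⟩
    have hD : ∀ w ∈ ({c, u} : Finset V), τ w ∈ winL M ℓ L := by
      intro w hw
      rcases Finset.mem_insert.mp hw with rfl | hw
      · simpa [WSet] using hc
      · rw [Finset.mem_singleton] at hw
        subst hw
        simpa [WSet] using hu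
    refine ⟨hD, ?_⟩
    rw [sdiff_of_window hD]
    exact hA
  · rintro ⟨hD, hA⟩
    rw [sdiff_of_window hD] at hA
    refine ⟨?_, ?_, hA⟩
    · simpa [WSet] using hD c (by simp)
    · simpa [WSet] using hD u (by simp)

lemma window_triple {M ℓ L : ℕ} {τ : V → Fin M} {c u v : V} :
    (c ∈ WSet τ ℓ L ∧ u ∈ WSet τ ℓ L ∧ v ∈ WSet τ ℓ L) ↔
      ∀ w ∈ ({c, u, v} : Finset V), τ w ∈ winL M ℓ L := by
  simp [WSet]

lemma avg_Ev1 {M ℓ L : ℕ} (hM : 0 < M) (h : ℓ + L ≤ M) {c u v : V} (hcu : c ≠ u)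
    (hvc : v ≠ c) (hvu : v ≠ u) :
    (∑ τ : V → Fin M, oneP (Ev1 T j c u v (SSet τ ℓ) (WSet τ ℓ L))) / (M : ℝ) ^ (Fintype.card V)
      ≤ ((L : ℝ) / M) ^ 3 * Pr ((ℓ : ℝ) / M) (fun S => v ∈ T.gam (insert u S) (j + 1) [c]) := by
  have hD3 : ({c, u, v} : Finset V).card = 3 := by
    rw [Finset.card_insert_of_notMem, Finset.card_pair]
    · exact hvu.symm
    · simp only [Finset.mem_insert, Finset.mem_singleton, not_or]
      exact ⟨hcu, hvc.symm⟩
  have h1 := avg_event hM (hiL M ℓ) (winL M ℓ L) ({c, u, v} : Finset V)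
    (fun X => v ∈ T.gam (insert u X) (j + 1) [c])
  rw [card_hiL (by omega), card_winL h, hD3] at h1
  have e : (∑ τ : V → Fin M, oneP (Ev1 T j c u v (SSet τ ℓ) (WSet τ ℓ L)))
      = ∑ τ : V → Fin M, oneP ((∀ w ∈ ({c, u, v} : Finset V), τ w ∈ winL M ℓ L) ∧
          v ∈ T.gam (insert u (preL (hiL M ℓ) τ \ {c, u, v})) (j + 1) [c]) := by
    apply Finset.sum_congr rfl
    intro τ _
    apply oneP_congr
    rw [preL_hiL_eq, ← window_triple]
    unfold Ev1
    constructor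
    · rintro ⟨h1, h2, h3, h4⟩
      refine ⟨⟨h1, h2, h3⟩, ?_⟩
      rw [sdiff_of_window (window_triple.mp ⟨h1, h2, h3⟩)]
      exact h4
    · rintro ⟨⟨h1, h2, h3⟩, h4⟩
      rw [sdiff_of_window (window_triple.mp ⟨h1, h2, h3⟩)] at h4
      exact ⟨h1, h2, h3, h4⟩
  rw [e, h1]
  have hp0 : (0 : ℝ) ≤ (ℓ : ℝ) / M := by positivity
  have hp1 : (ℓ : ℝ) / M ≤ 1 := by
    rw [div_le_one (by positivity)]
    have : ℓ ≤ M := by omega
    exact_mod_cast this
  apply mul_le_mul_of_nonneg_left _ (by positivity)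
  rw [Pr_eq_oneP, Pr_eq_oneP]
  apply Ep_mono hp0 hp1
  intro S
  apply oneP_mono
  intro hv
  exact T.gam_mono (Finset.insert_subset_insert _ Finset.sdiff_subset) _ _ hv

lemma avg_Ev2 {M ℓ L : ℕ} (hM : 0 < M) (h : ℓ + L ≤ M) {c u v : V} (hcu : c ≠ u)
    (hvc : v ≠ c) (hvu : v ≠ u) :
    (∑ τ : V → Fin M, oneP (Ev2 T j c u v (SSet τ ℓ) (WSet τ ℓ L))) / (M : ℝ) ^ (Fintype.card V)
      ≤ ((L : ℝ) / M) ^ 3 * Pr ((ℓ : ℝ) / M) (fun S => v ∈ T.gam (insert c S) (j + 1) [u]) := by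
  have hD3 : ({c, u, v} : Finset V).card = 3 := by
    rw [Finset.card_insert_of_notMem, Finset.card_pair]
    · exact hvu.symm
    · simp only [Finset.mem_insert, Finset.mem_singleton, not_or]
      exact ⟨hcu, hvc.symm⟩
  have h1 := avg_event hM (hiL M ℓ) (winL M ℓ L) ({c, u, v} : Finset V)
    (fun X => v ∈ T.gam (insert c X) (j + 1) [u])
  rw [card_hiL (by omega), card_winL h, hD3] at h1
  have e : (∑ τ : V → Fin M, oneP (Ev2 T j c u v (SSet τ ℓ) (WSet τ ℓ L)))
      = ∑ τ : V → Fin M, oneP ((∀ w ∈ ({c, u, v} : Finset V), τ w ∈ winL M ℓ L) ∧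
          v ∈ T.gam (insert c (preL (hiL M ℓ) τ \ {c, u, v})) (j + 1) [u]) := by
    apply Finset.sum_congr rfl
    intro τ _
    apply oneP_congr
    rw [preL_hiL_eq, ← window_triple]
    unfold Ev2
    constructor
    · rintro ⟨h1, h2, h3, h4⟩
      refine ⟨⟨h1, h2, h3⟩, ?_⟩
      rw [sdiff_of_window (window_triple.mp ⟨h1, h2, h3⟩)]
      exact h4
    · rintro ⟨⟨h1, h2, h3⟩, h4⟩
      rw [sdiff_of_window (window_triple.mp ⟨h1, h2, h3⟩)] at h4
      exact ⟨h1, h2, h3, h4⟩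
  rw [e, h1]
  have hp0 : (0 : ℝ) ≤ (ℓ : ℝ) / M := by positivity
  have hp1 : (ℓ : ℝ) / M ≤ 1 := by
    rw [div_le_one (by positivity)]
    have : ℓ ≤ M := by omega
    exact_mod_cast this
  apply mul_le_mul_of_nonneg_left _ (by positivity)
  rw [Pr_eq_oneP, Pr_eq_oneP]
  apply Ep_mono hp0 hp1
  intro S
  apply oneP_mono
  intro hv
  exact T.gam_mono (Finset.insert_subset_insert _ Finset.sdiff_subset) _ _ hv

lemma avg_Ev3 {M ℓ L : ℕ} (hM : 0 < M) (h : ℓ + L ≤ M) {c u v : V} (hcu : c ≠ u)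
    (hvc : v ≠ c) (hvu : v ≠ u) :
    (∑ τ : V → Fin M, oneP (Ev3 T j c u v (SSet τ ℓ) (WSet τ ℓ L))) / (M : ℝ) ^ (Fintype.card V)
      ≤ ((L : ℝ) / M) ^ 3 *
          Pr (((ℓ : ℝ) + L) / M) (fun S => c ∈ T.gam (insert u S) (j + 1) [v]) := by
  have hD3 : ({c, u, v} : Finset V).card = 3 := by
    rw [Finset.card_insert_of_notMem, Finset.card_pair]
    · exact hvu.symm
    · simp only [Finset.mem_insert, Finset.mem_singleton, not_or]
      exact ⟨hcu, hvc.symm⟩
  have h1 := avg_event hM (hiL M (ℓ + L)) (winL M ℓ L) ({c, u, v} : Finset V)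
    (fun X => c ∈ T.gam (insert u X) (j + 1) [v])
  rw [card_hiL h, card_winL h, hD3] at h1
  have e : (∑ τ : V → Fin M, oneP (Ev3 T j c u v (SSet τ ℓ) (WSet τ ℓ L)))
      = ∑ τ : V → Fin M, oneP ((∀ w ∈ ({c, u, v} : Finset V), τ w ∈ winL M ℓ L) ∧
          c ∈ T.gam (insert u (preL (hiL M (ℓ + L)) τ \ {c, u, v})) (j + 1) [v]) := by
    apply Finset.sum_congr rfl
    intro τ _
    apply oneP_congr
    rw [← window_triple]
    have key : ∀ (h1 : c ∈ WSet τ ℓ L) (h2 : u ∈ WSet τ ℓ L) (h3 : v ∈ WSet τ ℓ L),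
        T.gam (insert u (SSet τ ℓ ∪ (WSet τ ℓ L \ {c, u}))) (j + 1) [v]
          = T.gam (insert u (preL (hiL M (ℓ + L)) τ \ {c, u, v})) (j + 1) [v] := by
      intro h1 h2 h3
      apply T.gam_congr
      intro x hx
      have hxv : x ≠ v := by simpa using hx
      simp only [Finset.mem_insert, Finset.mem_union, Finset.mem_sdiff, mem_preL,
        Finset.mem_singleton, not_or, mem_hiL, mem_SSet, mem_WSet]
      rw [mem_WSet] at h1 h2
      by_cases hxu : x = u
      · simp [hxu]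
      · by_cases hxc : x = c
        · subst hxc
          have : ¬ (M - ℓ ≤ (τ x).val) := by omega
          simp [this]
        · simp only [hxu, hxc, hxv, false_or, not_false_eq_true, and_true, and_self]
          have := (τ x).isLt
          omega
    unfold Ev3
    constructor
    · rintro ⟨h1, h2, h3, h4⟩
      refine ⟨⟨h1, h2, h3⟩, ?_⟩
      rw [← key h1 h2 h3]
      exact h4
    · rintro ⟨⟨h1, h2, h3⟩, h4⟩
      rw [← key h1 h2 h3] at h4
      exact ⟨h1, h2, h3, h4⟩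
  rw [e, h1]
  have hp0 : (0 : ℝ) ≤ (((ℓ + L : ℕ) : ℝ)) / M := by positivity
  have hp1 : (((ℓ + L : ℕ) : ℝ)) / M ≤ 1 := by
    rw [div_le_one (by positivity)]
    exact_mod_cast h
  apply mul_le_mul_of_nonneg_left _ (by positivity)
  have ecast : (((ℓ + L : ℕ) : ℝ)) = (ℓ : ℝ) + L := by push_cast; ring
  rw [Pr_eq_oneP, Pr_eq_oneP]
  rw [← ecast]
  apply Ep_mono hp0 hp1
  intro S
  apply oneP_mono
  intro hv
  exact T.gam_mono (Finset.insert_subset_insert _ Finset.sdiff_subset) _ _ hv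

/-! ### First-moment sums -/

lemma sum_Pr_mem (p : ℝ) (X : Finset V → Finset V) :
    ∑ z : V, Pr p (fun S => z ∈ X S) = Ep p (fun S => ((X S).card : ℝ)) := by
  simp_rw [card_eq_sum_oneP_mem, Pr_eq_oneP]
  rw [Ep_sum]

lemma Pr_mono_le {p : ℝ} (h0 : 0 ≤ p) (h1 : p ≤ 1) {P Q : Finset V → Prop}
    (h : ∀ S, P S → Q S) : Pr p P ≤ Pr p Q := by
  rw [Pr_eq_oneP, Pr_eq_oneP]
  exact Ep_mono h0 h1 (fun S => oneP_mono (h S))

lemma Pr_or_le {p : ℝ} (h0 : 0 ≤ p) (h1 : p ≤ 1) (P Q : Finset V → Prop) :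
    Pr p (fun S => P S ∨ Q S) ≤ Pr p P + Pr p Q := by
  rw [Pr_eq_oneP, Pr_eq_oneP, Pr_eq_oneP, ← Ep_add]
  apply Ep_mono h0 h1
  intro S
  have h3 := oneP_nonneg (P S)
  have h4 := oneP_nonneg (Q S)
  by_cases hP : P S
  · rw [oneP_of hP, oneP_of (Or.inl hP : P S ∨ Q S)]; linarith
  · by_cases hQ : Q S
    · rw [oneP_of hQ, oneP_of (Or.inr hQ : P S ∨ Q S)]; linarith
    · rw [oneP_not (by tauto : ¬ (P S ∨ Q S))]; linarith

/-- Splitting `gam (insert w S)` into `gam S` and the extra labels. -/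
lemma Pr_gam_insert_le {p : ℝ} (h0 : 0 ≤ p) (h1 : p ≤ 1) (w z : V) (J : ℕ) (Φ : List V) :
    Pr p (fun S => z ∈ T.gam (insert w S) J Φ)
      ≤ Pr p (fun S => z ∈ T.gam S J Φ) + Pr p (fun S => z ∈ T.gamX S w J Φ) := by
  refine le_trans (Pr_mono_le h0 h1 ?_) (Pr_or_le h0 h1 _ _)
  intro S hz
  by_cases h : z ∈ T.gam S J Φ
  · exact Or.inl h
  · exact Or.inr (Finset.mem_sdiff.mpr ⟨hz, h⟩)

lemma card_CC_real (x : V) : ((CC T x).card : ℝ) ≤ K := by
  exact_mod_cast card_CC_le T x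

/-- The first sum. -/
lemma sum1_le {p a : ℝ} (h0 : 0 ≤ p) (h1 : p ≤ 1) (ha : p * K ≤ a) (J : ℕ) :
    ∑ c : V, ∑ u ∈ CC T c, ∑ v : V, Pr p (fun S => v ∈ T.gam (insert u S) J [c])
      ≤ (Fintype.card V : ℝ) * ((K : ℝ) ^ 2 * (Rseq a J + R2seq a J)) := by
  have ha0 : 0 ≤ a := le_trans (by positivity) ha
  have hR := Rseq_nonneg ha0 J
  have hc : ∀ c : V, ∑ u ∈ CC T c, ∑ v : V, Pr p (fun S => v ∈ T.gam (insert u S) J [c])
      ≤ (K : ℝ) ^ 2 * (Rseq a J + R2seq a J) := by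
    intro c
    have h2 : ∀ u ∈ CC T c, ∑ v : V, Pr p (fun S => v ∈ T.gam (insert u S) J [c])
        ≤ (K : ℝ) * Rseq a J + Ep p (fun S => ((T.gamX S u J [c]).card : ℝ)) := by
      intro u _
      have h3 : ∑ v : V, Pr p (fun S => v ∈ T.gam (insert u S) J [c])
          ≤ ∑ v : V, (Pr p (fun S => v ∈ T.gam S J [c]) + Pr p (fun S => v ∈ T.gamX S u J [c])) :=
        Finset.sum_le_sum (fun v _ => Pr_gam_insert_le T h0 h1 u v J [c])
      rw [Finset.sum_add_distrib, sum_Pr_mem p (fun S => T.gam S J [c]),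
        sum_Pr_mem p (fun S => T.gamX S u J [c])] at h3
      have h4 := T.gam_moment h0 h1 ha J [c]
      linarith
    have h5 := Finset.sum_le_sum h2
    rw [Finset.sum_add_distrib, Finset.sum_const, nsmul_eq_mul] at h5
    have h6 : ∑ u ∈ CC T c, Ep p (fun S => ((T.gamX S u J [c]).card : ℝ))
        ≤ ∑ u : V, Ep p (fun S => ((T.gamX S u J [c]).card : ℝ)) := by
      apply Finset.sum_le_sum_of_subset_of_nonneg (Finset.subset_univ _)
      intro u _ _
      exact Ep_nonneg h0 h1 (fun S => by positivity)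
    have h7 := T.gamX_moment h0 h1 ha J [c]
    have hK : (0 : ℝ) ≤ K := by positivity
    have h8 : ((CC T c).card : ℝ) * ((K : ℝ) * Rseq a J) ≤ (K : ℝ) * ((K : ℝ) * Rseq a J) :=
      mul_le_mul_of_nonneg_right (card_CC_real T c) (by positivity)
    nlinarith
  have h9 := Finset.sum_le_sum (fun c (_ : c ∈ (Finset.univ : Finset V)) => hc c)
  rw [Finset.sum_const, nsmul_eq_mul] at h9
  exact h9

/-- The second sum. -/
lemma sum2_le {p a : ℝ} (h0 : 0 ≤ p) (h1 : p ≤ 1) (ha : p * K ≤ a) (J : ℕ) :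
    ∑ c : V, ∑ u ∈ CC T c, ∑ v : V, Pr p (fun S => v ∈ T.gam (insert c S) J [u])
      ≤ (Fintype.card V : ℝ) * ((K : ℝ) ^ 2 * (Rseq a J + R2seq a J)) := by
  have ha0 : 0 ≤ a := le_trans (by positivity) ha
  have hR := Rseq_nonneg ha0 J
  have hK : (0 : ℝ) ≤ K := by positivity
  have h2 : ∀ c : V, ∀ u ∈ CC T c, ∑ v : V, Pr p (fun S => v ∈ T.gam (insert c S) J [u])
      ≤ (K : ℝ) * Rseq a J + Ep p (fun S => ((T.gamX S c J [u]).card : ℝ)) := by
    intro c u _
    have h3 : ∑ v : V, Pr p (fun S => v ∈ T.gam (insert c S) J [u])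
        ≤ ∑ v : V, (Pr p (fun S => v ∈ T.gam S J [u]) + Pr p (fun S => v ∈ T.gamX S c J [u])) :=
      Finset.sum_le_sum (fun v _ => Pr_gam_insert_le T h0 h1 c v J [u])
    rw [Finset.sum_add_distrib, sum_Pr_mem p (fun S => T.gam S J [u]),
      sum_Pr_mem p (fun S => T.gamX S c J [u])] at h3
    have h4 := T.gam_moment h0 h1 ha J [u]
    linarith
  have h5 : ∀ c : V, ∑ u ∈ CC T c, ∑ v : V, Pr p (fun S => v ∈ T.gam (insert c S) J [u])
      ≤ (K : ℝ) * ((K : ℝ) * Rseq a J) + ∑ u : V, Ep p (fun S => ((T.gamX S c J [u]).card : ℝ)) := by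
    intro c
    have h6 := Finset.sum_le_sum (h2 c)
    rw [Finset.sum_add_distrib, Finset.sum_const, nsmul_eq_mul] at h6
    have h7 : ∑ u ∈ CC T c, Ep p (fun S => ((T.gamX S c J [u]).card : ℝ))
        ≤ ∑ u : V, Ep p (fun S => ((T.gamX S c J [u]).card : ℝ)) := by
      apply Finset.sum_le_sum_of_subset_of_nonneg (Finset.subset_univ _)
      intro u _ _
      exact Ep_nonneg h0 h1 (fun S => by positivity)
    have h8 : ((CC T c).card : ℝ) * ((K : ℝ) * Rseq a J) ≤ (K : ℝ) * ((K : ℝ) * Rseq a J) :=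
      mul_le_mul_of_nonneg_right (card_CC_real T c) (by positivity)
    linarith
  have h9 := Finset.sum_le_sum (fun c (_ : c ∈ (Finset.univ : Finset V)) => h5 c)
  refine le_trans h9 ?_
  rw [Finset.sum_add_distrib, Finset.sum_const, nsmul_eq_mul, Finset.sum_comm]
  have h10 : ∑ u : V, ∑ c : V, Ep p (fun S => ((T.gamX S c J [u]).card : ℝ))
      ≤ ∑ _u : V, (K : ℝ) ^ 2 * R2seq a J :=
    Finset.sum_le_sum (fun u _ => T.gamX_moment h0 h1 ha J [u])
  rw [Finset.sum_const, nsmul_eq_mul] at h10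
  have e : (Finset.univ : Finset V).card = Fintype.card V := rfl
  rw [e] at h10 ⊢
  have e2 : (Fintype.card V : ℝ) * ((K : ℝ) ^ 2 * (Rseq a J + R2seq a J))
      = (Fintype.card V : ℝ) * ((K : ℝ) * ((K : ℝ) * Rseq a J))
        + (Fintype.card V : ℝ) * ((K : ℝ) ^ 2 * R2seq a J) := by ring
  rw [e2]
  linarith

/-- The third sum. -/
lemma sum3_le {p a : ℝ} (h0 : 0 ≤ p) (h1 : p ≤ 1) (ha : p * K ≤ a) (J : ℕ) :
    ∑ c : V, ∑ u ∈ CC T c, ∑ v : V, Pr p (fun S => c ∈ T.gam (insert u S) J [v])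
      ≤ (Fintype.card V : ℝ) * ((K : ℝ) ^ 2 * (Rseq a J + R2seq a J)) := by
  have ha0 : 0 ≤ a := le_trans (by positivity) ha
  have hR := Rseq_nonneg ha0 J
  have hK : (0 : ℝ) ≤ K := by positivity
  have hPr : ∀ (P : Finset V → Prop), 0 ≤ Pr p P := fun P => Pr_nonneg h0 h1 P
  -- split
  have h2 : ∀ c : V, ∑ u ∈ CC T c, ∑ v : V, Pr p (fun S => c ∈ T.gam (insert u S) J [v])
      ≤ (K : ℝ) * ∑ v : V, Pr p (fun S => c ∈ T.gam S J [v])
        + ∑ u : V, ∑ v : V, Pr p (fun S => c ∈ T.gamX S u J [v]) := by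
    intro c
    have h3 : ∀ u ∈ CC T c, ∑ v : V, Pr p (fun S => c ∈ T.gam (insert u S) J [v])
        ≤ ∑ v : V, Pr p (fun S => c ∈ T.gam S J [v])
          + ∑ v : V, Pr p (fun S => c ∈ T.gamX S u J [v]) := by
      intro u _
      rw [← Finset.sum_add_distrib]
      exact Finset.sum_le_sum (fun v _ => Pr_gam_insert_le T h0 h1 u c J [v])
    have h4 := Finset.sum_le_sum h3
    rw [Finset.sum_add_distrib, Finset.sum_const, nsmul_eq_mul] at h4
    have h5 : ((CC T c).card : ℝ) * ∑ v : V, Pr p (fun S => c ∈ T.gam S J [v])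
        ≤ (K : ℝ) * ∑ v : V, Pr p (fun S => c ∈ T.gam S J [v]) :=
      mul_le_mul_of_nonneg_right (card_CC_real T c) (Finset.sum_nonneg (fun v _ => hPr _))
    have h6 : ∑ u ∈ CC T c, ∑ v : V, Pr p (fun S => c ∈ T.gamX S u J [v])
        ≤ ∑ u : V, ∑ v : V, Pr p (fun S => c ∈ T.gamX S u J [v]) := by
      apply Finset.sum_le_sum_of_subset_of_nonneg (Finset.subset_univ _)
      intro u _ _
      exact Finset.sum_nonneg (fun v _ => hPr _)
    linarith
  have h7 := Finset.sum_le_sum (fun c (_ : c ∈ (Finset.univ : Finset V)) => h2 c)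
  refine le_trans h7 ?_
  rw [Finset.sum_add_distrib, ← Finset.mul_sum]
  -- first part
  have h8 : ∑ c : V, ∑ v : V, Pr p (fun S => c ∈ T.gam S J [v])
      ≤ (Fintype.card V : ℝ) * ((K : ℝ) * Rseq a J) := by
    rw [Finset.sum_comm]
    have h9 : ∀ v : V, ∑ c : V, Pr p (fun S => c ∈ T.gam S J [v]) ≤ (K : ℝ) * Rseq a J := by
      intro v
      rw [sum_Pr_mem]
      exact T.gam_moment h0 h1 ha J [v]
    have h10 := Finset.sum_le_sum (fun v (_ : v ∈ (Finset.univ : Finset V)) => h9 v)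
    rw [Finset.sum_const, nsmul_eq_mul] at h10
    exact h10
  -- second part
  have h11 : ∑ c : V, ∑ u : V, ∑ v : V, Pr p (fun S => c ∈ T.gamX S u J [v])
      ≤ (Fintype.card V : ℝ) * ((K : ℝ) ^ 2 * R2seq a J) := by
    have e : ∑ c : V, ∑ u : V, ∑ v : V, Pr p (fun S => c ∈ T.gamX S u J [v])
        = ∑ v : V, ∑ u : V, ∑ c : V, Pr p (fun S => c ∈ T.gamX S u J [v]) := by
      calc ∑ c : V, ∑ u : V, ∑ v : V, Pr p (fun S => c ∈ T.gamX S u J [v])
          = ∑ c : V, ∑ v : V, ∑ u : V, Pr p (fun S => c ∈ T.gamX S u J [v]) :=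
            Finset.sum_congr rfl (fun c _ => Finset.sum_comm)
        _ = ∑ v : V, ∑ c : V, ∑ u : V, Pr p (fun S => c ∈ T.gamX S u J [v]) := Finset.sum_comm
        _ = ∑ v : V, ∑ u : V, ∑ c : V, Pr p (fun S => c ∈ T.gamX S u J [v]) :=
            Finset.sum_congr rfl (fun v _ => Finset.sum_comm)
    rw [e]
    have h12 : ∀ v : V, ∑ u : V, ∑ c : V, Pr p (fun S => c ∈ T.gamX S u J [v])
        ≤ (K : ℝ) ^ 2 * R2seq a J := by
      intro v
      simp_rw [sum_Pr_mem]
      exact T.gamX_moment h0 h1 ha J [v]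
    have h13 := Finset.sum_le_sum (fun v (_ : v ∈ (Finset.univ : Finset V)) => h12 v)
    rw [Finset.sum_const, nsmul_eq_mul] at h13
    exact h13
  have h14 : (K : ℝ) * ∑ c : V, ∑ v : V, Pr p (fun S => c ∈ T.gam S J [v])
      ≤ (K : ℝ) * ((Fintype.card V : ℝ) * ((K : ℝ) * Rseq a J)) :=
    mul_le_mul_of_nonneg_left h8 hK
  have e2 : (Fintype.card V : ℝ) * ((K : ℝ) ^ 2 * (Rseq a J + R2seq a J))
      = (K : ℝ) * ((Fintype.card V : ℝ) * ((K : ℝ) * Rseq a J))
        + (Fintype.card V : ℝ) * ((K : ℝ) ^ 2 * R2seq a J) := by ring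
  rw [e2]
  linarith

end HPsec

theorem avg_HP_ge (T : TS V K) (j ℓ L : ℕ) {M : ℕ} (hM : 0 < M) (hℓ : ℓ + L ≤ M) {a' : ℝ}
    (ha' : ((ℓ : ℝ) + L) / M * K ≤ a') :
    ((L : ℝ) / M) ^ 2 * (∑ c, ∑ u ∈ CC T c, aa T j ((ℓ : ℝ) / M) c u
        - 3 * ((L : ℝ) / M) * (Fintype.card V : ℝ) * (K : ℝ) ^ 2 *
          (Rseq a' (j + 1) + R2seq a' (j + 1)))
      ≤ (∑ τ : V → Fin M, ((HP T j (SSet τ ℓ) (WSet τ ℓ L)).card : ℝ))
          / (M : ℝ) ^ (Fintype.card V) := by
  have hMpos : (0 : ℝ) < M := by exact_mod_cast hM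
  set n := Fintype.card V with hn
  set ρ : ℝ := (L : ℝ) / M with hρ
  set p : ℝ := (ℓ : ℝ) / M with hp
  set q : ℝ := ((ℓ : ℝ) + L) / M with hq
  have hρ0 : 0 ≤ ρ := by positivity
  have hp0 : 0 ≤ p := by positivity
  have hq0 : 0 ≤ q := by positivity
  have hq1 : q ≤ 1 := by
    rw [hq, div_le_one hMpos]
    exact_mod_cast hℓ
  have hpq : p ≤ q := by
    rw [hp, hq]
    apply div_le_div_of_nonneg_right _ hMpos.le
    have : (0 : ℝ) ≤ L := by positivity
    linarith
  have hp1 : p ≤ 1 := le_trans hpq hq1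
  have hK : (0 : ℝ) ≤ K := by positivity
  have hpa : p * K ≤ a' := le_trans (mul_le_mul_of_nonneg_right hpq hK) ha'
  -- pointwise lower bound
  have hpt : ∀ τ : V → Fin M,
      ∑ c : V, ∑ u ∈ CC T c, (oneP (EvT T j c u (SSet τ ℓ) (WSet τ ℓ L))
        - ∑ v ∈ Finset.univ \ ({c, u} : Finset V),
            (oneP (Ev1 T j c u v (SSet τ ℓ) (WSet τ ℓ L))
              + oneP (Ev2 T j c u v (SSet τ ℓ) (WSet τ ℓ L))
              + oneP (Ev3 T j c u v (SSet τ ℓ) (WSet τ ℓ L))))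
      ≤ ((HP T j (SSet τ ℓ) (WSet τ ℓ L)).card : ℝ) := by
    intro τ
    rw [HP_card_eq]
    apply Finset.sum_le_sum
    intro c _
    apply Finset.sum_le_sum
    intro u hu
    exact hold_ge T j hu _ _
  have hMn : (0 : ℝ) < (M : ℝ) ^ n := by positivity
  refine le_trans ?_ (div_le_div_of_nonneg_right (Finset.sum_le_sum (fun τ _ => hpt τ)) hMn.le)
  -- average of the lower bound
  have hswap : (∑ τ : V → Fin M, ∑ c : V, ∑ u ∈ CC T c,
        (oneP (EvT T j c u (SSet τ ℓ) (WSet τ ℓ L))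
        - ∑ v ∈ Finset.univ \ ({c, u} : Finset V),
            (oneP (Ev1 T j c u v (SSet τ ℓ) (WSet τ ℓ L))
              + oneP (Ev2 T j c u v (SSet τ ℓ) (WSet τ ℓ L))
              + oneP (Ev3 T j c u v (SSet τ ℓ) (WSet τ ℓ L))))) / (M : ℝ) ^ n
      = ∑ c : V, ∑ u ∈ CC T c,
        ((∑ τ : V → Fin M, oneP (EvT T j c u (SSet τ ℓ) (WSet τ ℓ L))) / (M : ℝ) ^ n
        - ∑ v ∈ Finset.univ \ ({c, u} : Finset V),
            ((∑ τ : V → Fin M, oneP (Ev1 T j c u v (SSet τ ℓ) (WSet τ ℓ L))) / (M : ℝ) ^ n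
              + (∑ τ : V → Fin M, oneP (Ev2 T j c u v (SSet τ ℓ) (WSet τ ℓ L))) / (M : ℝ) ^ n
              + (∑ τ : V → Fin M, oneP (Ev3 T j c u v (SSet τ ℓ) (WSet τ ℓ L))) / (M : ℝ) ^ n)) := by
    rw [Finset.sum_comm, Finset.sum_div]
    apply Finset.sum_congr rfl
    intro c _
    rw [Finset.sum_comm, Finset.sum_div]
    apply Finset.sum_congr rfl
    intro u _
    rw [Finset.sum_sub_distrib, sub_div]
    congr 1
    rw [Finset.sum_comm, Finset.sum_div]
    apply Finset.sum_congr rfl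
    intro v _
    rw [Finset.sum_add_distrib, Finset.sum_add_distrib, add_div, add_div]
  rw [hswap]
  -- termwise bound
  have hterm : ∀ c : V, ∀ u ∈ CC T c,
      ρ ^ 2 * aa T j p c u
        - ρ ^ 3 * ∑ v : V, (Pr p (fun S => v ∈ T.gam (insert u S) (j + 1) [c])
            + Pr p (fun S => v ∈ T.gam (insert c S) (j + 1) [u])
            + Pr q (fun S => c ∈ T.gam (insert u S) (j + 1) [v]))
      ≤ (∑ τ : V → Fin M, oneP (EvT T j c u (SSet τ ℓ) (WSet τ ℓ L))) / (M : ℝ) ^ n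
        - ∑ v ∈ Finset.univ \ ({c, u} : Finset V),
            ((∑ τ : V → Fin M, oneP (Ev1 T j c u v (SSet τ ℓ) (WSet τ ℓ L))) / (M : ℝ) ^ n
              + (∑ τ : V → Fin M, oneP (Ev2 T j c u v (SSet τ ℓ) (WSet τ ℓ L))) / (M : ℝ) ^ n
              + (∑ τ : V → Fin M, oneP (Ev3 T j c u v (SSet τ ℓ) (WSet τ ℓ L))) / (M : ℝ) ^ n) := by
    intro c u hu
    have hcu : c ≠ u := by
      rintro rfl
      exact not_mem_CC T c hu
    rw [avg_EvT T j hM hℓ hcu]
    apply sub_le_sub_left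
    have h1 : ∑ v ∈ Finset.univ \ ({c, u} : Finset V),
        ((∑ τ : V → Fin M, oneP (Ev1 T j c u v (SSet τ ℓ) (WSet τ ℓ L))) / (M : ℝ) ^ n
          + (∑ τ : V → Fin M, oneP (Ev2 T j c u v (SSet τ ℓ) (WSet τ ℓ L))) / (M : ℝ) ^ n
          + (∑ τ : V → Fin M, oneP (Ev3 T j c u v (SSet τ ℓ) (WSet τ ℓ L))) / (M : ℝ) ^ n)
        ≤ ∑ v ∈ Finset.univ \ ({c, u} : Finset V),
          ρ ^ 3 * (Pr p (fun S => v ∈ T.gam (insert u S) (j + 1) [c])
            + Pr p (fun S => v ∈ T.gam (insert c S) (j + 1) [u])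
            + Pr q (fun S => c ∈ T.gam (insert u S) (j + 1) [v])) := by
      apply Finset.sum_le_sum
      intro v hv
      have hv' : v ≠ c ∧ v ≠ u := by
        simpa using hv
      have a1 := avg_Ev1 T j hM hℓ hcu hv'.1 hv'.2
      have a2 := avg_Ev2 T j hM hℓ hcu hv'.1 hv'.2
      have a3 := avg_Ev3 T j hM hℓ hcu hv'.1 hv'.2
      rw [mul_add, mul_add]
      exact add_le_add (add_le_add a1 a2) a3
    refine le_trans h1 ?_
    rw [← Finset.mul_sum]
    apply mul_le_mul_of_nonneg_left _ (by positivity)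
    apply Finset.sum_le_sum_of_subset_of_nonneg (Finset.subset_univ _)
    intro v _ _
    exact add_nonneg (add_nonneg (Pr_nonneg hp0 hp1 _) (Pr_nonneg hp0 hp1 _)) (Pr_nonneg hq0 hq1 _)
  have hsum := Finset.sum_le_sum (fun c (_ : c ∈ (Finset.univ : Finset V)) =>
    Finset.sum_le_sum (hterm c))
  refine le_trans ?_ hsum
  -- the error sums
  have s1 := sum1_le T hp0 hp1 hpa (j + 1)
  have s2 := sum2_le T hp0 hp1 hpa (j + 1)
  have s3 := sum3_le T hq0 hq1 ha' (j + 1)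
  set E : ℝ := (Fintype.card V : ℝ) * ((K : ℝ) ^ 2 * (Rseq a' (j + 1) + R2seq a' (j + 1))) with hE
  have e1 : ∑ c : V, ∑ u ∈ CC T c,
      (ρ ^ 2 * aa T j p c u
        - ρ ^ 3 * ∑ v : V, (Pr p (fun S => v ∈ T.gam (insert u S) (j + 1) [c])
            + Pr p (fun S => v ∈ T.gam (insert c S) (j + 1) [u])
            + Pr q (fun S => c ∈ T.gam (insert u S) (j + 1) [v])))
      = ρ ^ 2 * (∑ c : V, ∑ u ∈ CC T c, aa T j p c u)
        - ρ ^ 3 * ((∑ c : V, ∑ u ∈ CC T c, ∑ v : V,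
              Pr p (fun S => v ∈ T.gam (insert u S) (j + 1) [c]))
            + (∑ c : V, ∑ u ∈ CC T c, ∑ v : V,
              Pr p (fun S => v ∈ T.gam (insert c S) (j + 1) [u]))
            + (∑ c : V, ∑ u ∈ CC T c, ∑ v : V,
              Pr q (fun S => c ∈ T.gam (insert u S) (j + 1) [v]))) := by
    rw [Finset.mul_sum, ← Finset.sum_add_distrib, ← Finset.sum_add_distrib, Finset.mul_sum,
      ← Finset.sum_sub_distrib]
    apply Finset.sum_congr rfl
    intro c _
    rw [Finset.mul_sum, ← Finset.sum_add_distrib, ← Finset.sum_add_distrib, Finset.mul_sum,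
      ← Finset.sum_sub_distrib]
    apply Finset.sum_congr rfl
    intro u _
    rw [Finset.sum_add_distrib, Finset.sum_add_distrib]
  rw [e1]
  have hρ3 : 0 ≤ ρ ^ 3 := by positivity
  have h5 : ρ ^ 3 * ((∑ c : V, ∑ u ∈ CC T c, ∑ v : V,
              Pr p (fun S => v ∈ T.gam (insert u S) (j + 1) [c]))
            + (∑ c : V, ∑ u ∈ CC T c, ∑ v : V,
              Pr p (fun S => v ∈ T.gam (insert c S) (j + 1) [u]))
            + (∑ c : V, ∑ u ∈ CC T c, ∑ v : V,
              Pr q (fun S => c ∈ T.gam (insert u S) (j + 1) [v])))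
      ≤ ρ ^ 3 * (E + E + E) := by
    apply mul_le_mul_of_nonneg_left _ hρ3
    exact add_le_add (add_le_add s1 s2) s3
  have e2 : ρ ^ 2 * (∑ c : V, ∑ u ∈ CC T c, aa T j p c u
        - 3 * ρ * (Fintype.card V : ℝ) * (K : ℝ) ^ 2 * (Rseq a' (j + 1) + R2seq a' (j + 1)))
      = ρ ^ 2 * (∑ c : V, ∑ u ∈ CC T c, aa T j p c u) - ρ ^ 3 * (E + E + E) := by
    rw [hE]; ring
  rw [e2]
  linarith

end Vale.Agent.Lib.P336_h66
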