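/-
P336 (helper66): the universal bound with a constant strictly above `π²/6`.
-/
import Vale.Agent.Lib.P336_h66.BAssemble
import Vale.Agent.Lib.P336_h66.Calc
import Vale.Agent.Lib.P336_h66.WMoments

namespace Vale.Agent.Lib.P336_h66

set_option linter.unusedSectionVars false

open Finset

/-! ### Numerics -/

/-- Contraction rate of the recursion in our range of densities. -/
noncomputable def lamB : ℝ := 102 * Real.exp (-50)

/-- A lower bound for the weight of all worlds. -/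
noncomputable def piC : ℝ := Real.exp (-816)

lemma piC_pos : 0 < piC := Real.exp_pos _

lemma lamB_pos : 0 < lamB := by unfold lamB; positivity

lemma exp_neg50_le : Real.exp (-50) ≤ (1 / 2 : ℝ) ^ 50 := by
  have h1 : (2 : ℝ) ≤ Real.exp 1 := by
    have := Real.add_one_le_exp (1 : ℝ)
    linarith
  have h2 : Real.exp (-1) ≤ 1 / 2 := by
    rw [Real.exp_neg, one_div]
    exact inv_anti₀ (by norm_num) h1
  have e : Real.exp (-50) = Real.exp (-1) ^ 50 := by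
    rw [← Real.exp_nat_mul]
    norm_num
  rw [e]
  exact pow_le_pow_left₀ (Real.exp_pos _).le h2 50

lemma lamB_mul_lt : (103 : ℝ) ^ 6 * lamB < 1 := by
  unfold lamB
  have h := exp_neg50_le
  have : (103 : ℝ) ^ 6 * (102 * (1 / 2 : ℝ) ^ 50) < 1 := by norm_num
  have h2 : (103 : ℝ) ^ 6 * (102 * Real.exp (-50)) ≤ (103 : ℝ) ^ 6 * (102 * (1 / 2 : ℝ) ^ 50) := by
    apply mul_le_mul_of_nonneg_left _ (by positivity)
    exact mul_le_mul_of_nonneg_left h (by norm_num)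
  linarith

lemma lamB_mul_lt2 : (206 : ℝ) * lamB < 1 := by
  have h := lamB_mul_lt
  have h0 := lamB_pos
  have : (206 : ℝ) * lamB ≤ (103 : ℝ) ^ 6 * lamB := mul_le_mul_of_nonneg_right (by norm_num) h0.le
  linarith

lemma Rseq_le (j : ℕ) : Rseq 102 j ≤ (103 : ℝ) ^ j := by
  induction j with
  | zero => simp [Rseq]
  | succ j ih =>
    simp only [Rseq]
    have h1 : (1 : ℝ) ≤ 103 ^ j := one_le_pow₀ (by norm_num)
    rw [pow_succ]
    linarith

lemma R2seq_le (j : ℕ) : R2seq 102 j ≤ (j : ℝ) * (103 : ℝ) ^ j := by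
  induction j with
  | zero => simp [R2seq]
  | succ j ih =>
    simp only [R2seq]
    have h1 : (1 : ℝ) ≤ 103 ^ j := one_le_pow₀ (by norm_num)
    have h2 := Rseq_le j
    have hj : (0 : ℝ) ≤ j := Nat.cast_nonneg _
    push_cast
    rw [pow_succ]
    nlinarith [mul_nonneg hj (by linarith : (0 : ℝ) ≤ 103 ^ j)]

lemma exists_J {c₀ κ : ℝ} (hc₀ : 0 < c₀) (hκ : 0 < κ) :
    ∃ j : ℕ, 1 ≤ j ∧ 4 * lamB ^ (j + 1) * (1 + Rseq 102 (j + 1)) ^ 6 ≤ c₀ ∧
      lamB ^ (j + 1) * (1 + (Rseq 102 (j + 1) + R2seq 102 (j + 1))) ≤ κ := by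
  have h0 := lamB_pos
  have hA : Filter.Tendsto (fun j : ℕ => ((103 : ℝ) ^ 6 * lamB) ^ j) Filter.atTop (nhds 0) :=
    tendsto_pow_atTop_nhds_zero_of_lt_one (by positivity) lamB_mul_lt
  have hB : Filter.Tendsto (fun j : ℕ => ((206 : ℝ) * lamB) ^ j) Filter.atTop (nhds 0) :=
    tendsto_pow_atTop_nhds_zero_of_lt_one (by positivity) lamB_mul_lt2
  have hA' : ∀ᶠ j : ℕ in Filter.atTop, ((103 : ℝ) ^ 6 * lamB) ^ j < c₀ / 256 :=
    hA.eventually (gt_mem_nhds (by positivity))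
  have hB' : ∀ᶠ j : ℕ in Filter.atTop, ((206 : ℝ) * lamB) ^ j < κ / 2 :=
    hB.eventually (gt_mem_nhds (by positivity))
  obtain ⟨J, hJ1, hJ2, hJ3⟩ := (hA'.and (hB'.and (Filter.eventually_ge_atTop 2))).exists
  obtain ⟨j, rfl⟩ : ∃ j, J = j + 1 := ⟨J - 1, by omega⟩
  refine ⟨j, by omega, ?_, ?_⟩
  · have hR := Rseq_le (j + 1)
    have hR0 := Rseq_nonneg (a := 102) (by norm_num) (j + 1)
    have h1 : (1 : ℝ) ≤ 103 ^ (j + 1) := one_le_pow₀ (by norm_num)
    have h2 : 1 + Rseq 102 (j + 1) ≤ 2 * 103 ^ (j + 1) := by linarith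
    have h3 : (1 + Rseq 102 (j + 1)) ^ 6 ≤ (2 * 103 ^ (j + 1)) ^ 6 :=
      pow_le_pow_left₀ (by linarith) h2 6
    have e : 4 * lamB ^ (j + 1) * (2 * (103 : ℝ) ^ (j + 1)) ^ 6 = 256 * ((103 : ℝ) ^ 6 * lamB) ^ (j + 1) := by
      rw [mul_pow, mul_pow, ← pow_mul, ← pow_mul, mul_comm (j + 1) 6]
      ring
    have h4 : 4 * lamB ^ (j + 1) * (1 + Rseq 102 (j + 1)) ^ 6 ≤ 4 * lamB ^ (j + 1) * (2 * (103 : ℝ) ^ (j + 1)) ^ 6 :=
      mul_le_mul_of_nonneg_left h3 (by positivity)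
    rw [e] at h4
    refine le_trans h4 ?_
    have h5 := (lt_div_iff₀ (by norm_num : (0 : ℝ) < 256)).mp hJ1
    rw [mul_comm]
    exact h5.le
  · have hR := Rseq_le (j + 1)
    have hR2 := R2seq_le (j + 1)
    have h1 : (1 : ℝ) ≤ 103 ^ (j + 1) := one_le_pow₀ (by norm_num)
    have h2 : ((j + 1 : ℕ) : ℝ) + 2 ≤ 2 * 2 ^ (j + 1) := by
      have h3 : ((j + 1 : ℕ) : ℝ) + 1 ≤ 2 ^ (j + 1) := by
        have := one_add_mul_le_pow (a := (1 : ℝ)) (by norm_num) (j + 1)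
        have e2 : (1 + 1 : ℝ) = 2 := by norm_num
        rw [e2] at this
        push_cast at this ⊢
        linarith
      have h4 : (1 : ℝ) ≤ 2 ^ (j + 1) := one_le_pow₀ (by norm_num)
      linarith
    have h5 : 1 + (Rseq 102 (j + 1) + R2seq 102 (j + 1)) ≤ 2 * (206 : ℝ) ^ (j + 1) := by
      have e : (206 : ℝ) ^ (j + 1) = 2 ^ (j + 1) * 103 ^ (j + 1) := by
        rw [← mul_pow]; norm_num
      rw [e]
      have h6 : 1 + (Rseq 102 (j + 1) + R2seq 102 (j + 1)) ≤ (((j + 1 : ℕ) : ℝ) + 2) * 103 ^ (j + 1) := by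
        nlinarith
      have h7 : (((j + 1 : ℕ) : ℝ) + 2) * 103 ^ (j + 1) ≤ (2 * 2 ^ (j + 1)) * 103 ^ (j + 1) :=
        mul_le_mul_of_nonneg_right h2 (by positivity)
      linarith
    have h8 : lamB ^ (j + 1) * (1 + (Rseq 102 (j + 1) + R2seq 102 (j + 1)))
        ≤ lamB ^ (j + 1) * (2 * (206 : ℝ) ^ (j + 1)) :=
      mul_le_mul_of_nonneg_left h5 (by positivity)
    have e : lamB ^ (j + 1) * (2 * (206 : ℝ) ^ (j + 1)) = 2 * ((206 : ℝ) * lamB) ^ (j + 1) := by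
      rw [mul_pow]; ring
    rw [e] at h8
    linarith

/-! ### Densities in the critical range -/

lemma one_sub_ge_exp {x : ℝ} (h0 : 0 ≤ x) (h1 : x ≤ 1 / 2) : Real.exp (-(2 * x)) ≤ 1 - x := by
  have h2 : 1 + 2 * x ≤ Real.exp (2 * x) := by
    have := Real.add_one_le_exp (2 * x)
    linarith
  rw [Real.exp_neg]
  have h3 : 0 < 1 - x := by linarith
  rw [inv_le_comm₀ (Real.exp_pos _) h3]
  refine le_trans ?_ h2
  rw [inv_le_iff_one_le_mul₀ h3]
  nlinarith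

lemma piC_le {K : ℕ} {r : ℝ} (hK : 408 ≤ K) (h0 : 0 ≤ r) (h2 : r * K ≤ 102) :
    piC ≤ (1 - r) ^ (3 * K + 3) := by
  have hKR : (408 : ℝ) ≤ K := by exact_mod_cast hK
  have hr : r ≤ 1 / 4 := by
    by_contra hc
    push Not at hc
    nlinarith
  have h1 := one_sub_ge_exp h0 (by linarith : r ≤ 1 / 2)
  have h3 : Real.exp (-(2 * r)) ^ (3 * K + 3) ≤ (1 - r) ^ (3 * K + 3) :=
    pow_le_pow_left₀ (Real.exp_pos _).le h1 _
  refine le_trans ?_ h3
  rw [← Real.exp_nat_mul]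
  unfold piC
  apply Real.exp_le_exp.mpr
  push_cast
  nlinarith

/-- The parameters for a density in the critical range. -/
lemma par_of_density {K j : ℕ} {r : ℝ} (hK : 408 ≤ K) (hj : 1 ≤ j) (h1 : 100 ≤ r * K) (h2 : r * K ≤ 102) :
    Par r 102 piC K j := by
  have hKR : (408 : ℝ) ≤ K := by exact_mod_cast hK
  have h0 : 0 ≤ r := by
    by_contra hc
    push Not at hc
    nlinarith
  have hr : r ≤ 1 / 4 := by
    by_contra hc
    push Not at hc
    nlinarith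
  have hr1 : r ≤ 1 := by linarith
  obtain ⟨k, rfl⟩ : ∃ k, K = k + 1 := ⟨K - 1, by omega⟩
  have hk : 2 ≤ k := by omega
  have hlam := lam_bound hk h0 (by push_cast at h1; linarith) (by push_cast at h2; linarith) hr1
  have hβ := betaSeq_ge_three_quarters h0 hr1 hlam.1 j
  have hπ := piC_le hK h0 h2
  refine ⟨by omega, h0, hr, by linarith, h2, by linarith, ?_, piC_pos, hπ⟩
  obtain ⟨j', rfl⟩ : ∃ j', j = j' + 1 := ⟨j - 1, by omega⟩
  rw [betaSeq_succ]
  have hm := betaSeq_mem h0 hr1 (k + 1) j'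
  have h3 : (1 - r) ^ (3 * (k + 1) + 3) ≤ (1 - r) ^ (k + 1) :=
    pow_le_pow_of_le_one (by linarith) (by linarith) (by omega)
  have h5 : r * betaSeq r (k + 1) j' ≤ r * 1 := mul_le_mul_of_nonneg_left hm.2 h0
  have h4 : (1 - r) ^ (k + 1) ≤ (1 - r * betaSeq r (k + 1) j') ^ (k + 1) :=
    pow_le_pow_left₀ (by linarith) (by linarith) _
  linarith

lemma tail_of_density {K J d : ℕ} {r : ℝ} (hK : 408 ≤ K) (h1 : 100 ≤ r * K) (h2 : r * K ≤ 102) (hJd : J ≤ d) :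
    betaSeq r K J - betaSeq r K d ≤ 2 * lamB ^ J := by
  have hKR : (408 : ℝ) ≤ K := by exact_mod_cast hK
  have h0 : 0 ≤ r := by
    by_contra hc
    push Not at hc
    nlinarith
  have hr : r ≤ 1 / 4 := by
    by_contra hc
    push Not at hc
    nlinarith
  have hr1 : r ≤ 1 := by linarith
  obtain ⟨k, rfl⟩ : ∃ k, K = k + 1 := ⟨K - 1, by omega⟩
  have hk : 2 ≤ k := by omega
  have hlam := lam_bound hk h0 (by push_cast at h1; linarith) (by push_cast at h2; linarith) hr1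
  have hsmall : ((k : ℝ) + 1) * r * (1 - 3 * r / 4) ^ k ≤ 1 / 2 := by
    have h3 : lamB ≤ 1 / 2 := by
      have h5 := lamB_mul_lt
      have h4 := lamB_pos
      have h6 : (2 : ℝ) * lamB ≤ (103 : ℝ) ^ 6 * lamB := mul_le_mul_of_nonneg_right (by norm_num) h4.le
      linarith
    exact le_trans hlam.2 h3
  have h3 := betaSeq_tail_le h0 hr1 hlam.1 hsmall hJd
  refine le_trans h3 ?_
  apply mul_le_mul_of_nonneg_left _ (by norm_num)
  apply pow_le_pow_left₀ _ hlam.2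
  have : 0 ≤ 1 - 3 * r / 4 := by linarith
  positivity

/-! ### Averages -/

section avg

variable {V : Type} [Fintype V] [DecidableEq V] {K : ℕ}

lemma Pr_not (p : ℝ) (Q : Finset V → Prop) : Pr p (fun S => ¬ Q S) = 1 - Pr p Q := by
  unfold Pr
  have e : ind (fun S => ¬ Q S) = fun S => 1 - ind Q S := by
    funext S
    by_cases hb : Q S
    · rw [ind_apply_not (not_not.mpr hb), ind_apply_of hb]; ring
    · rw [ind_apply_of hb, ind_apply_not hb]; ring
  rw [e, Ep_sub, Ep_const]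

lemma Pr_notbad_ge (T : TS V K) {r : ℝ} (h0 : 0 ≤ r) (h1 : r ≤ 1) (d : ℕ) (Φ : List V) :
    1 - betaSeq r K d ≤ Pr r (fun S => ¬ T.bad S d Φ) := by
  rw [Pr_not]
  have := T.Pr_bad_le h0 h1 d Φ
  linarith

lemma exp_avg_le {ι : Type} [Fintype ι] [Nonempty ι] (F : ι → ℕ) :
    Real.exp (Real.log 2 * ((∑ i, (F i : ℝ)) / (Fintype.card ι : ℝ)))
      ≤ (∑ i, (2 : ℝ) ^ (F i)) / (Fintype.card ι : ℝ) := by
  have hc : (0 : ℝ) < Fintype.card ι := by exact_mod_cast Fintype.card_pos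
  have h := convexOn_exp.map_sum_le (t := (Finset.univ : Finset ι)) (w := fun _ => (1 : ℝ) / Fintype.card ι)
    (p := fun i => Real.log 2 * (F i : ℝ)) (fun _ _ => by positivity)
    (by
      rw [Finset.sum_const, Finset.card_univ, nsmul_eq_mul]
      field_simp) (fun _ _ => Set.mem_univ _)
  simp only [smul_eq_mul] at h
  have e1 : ∑ i, (1 : ℝ) / Fintype.card ι * (Real.log 2 * (F i : ℝ))
      = Real.log 2 * ((∑ i, (F i : ℝ)) / (Fintype.card ι : ℝ)) := by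
    rw [← Finset.mul_sum, ← Finset.mul_sum]
    field_simp
  have e2 : ∑ i, (1 : ℝ) / Fintype.card ι * Real.exp (Real.log 2 * (F i : ℝ))
      = (∑ i, (2 : ℝ) ^ (F i)) / (Fintype.card ι : ℝ) := by
    rw [← Finset.mul_sum, one_div, inv_mul_eq_div]
    congr 1
    apply Finset.sum_congr rfl
    intro i _
    rw [← Real.rpow_natCast 2 (F i), Real.rpow_def_of_pos (by norm_num : (0 : ℝ) < 2)]
  rw [e1, e2] at h
  exact h

lemma goal_of_log {x A : ℝ} (hA : 0 < A) (h : Real.log 2 * x ≤ Real.log A) : (2 : ℝ) ^ x ≤ A := by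
  rw [Real.rpow_def_of_pos (by norm_num : (0 : ℝ) < 2)]
  calc Real.exp (Real.log 2 * x) ≤ Real.exp (Real.log A) := Real.exp_le_exp.mpr h
    _ = A := Real.exp_log hA

/-- Average of `2^F`. -/
noncomputable def avgExp (T : TS V K) (d M : ℕ) : ℝ :=
  (∑ τ : V → Fin M, (2 : ℝ) ^ (FF T d τ)) / (M : ℝ) ^ (Fintype.card V)

lemma avgExp_pos (T : TS V K) (d : ℕ) {M : ℕ} (hM : 0 < M) : 0 < avgExp T d M := by
  have : Nonempty (Fin M) := ⟨⟨0, hM⟩⟩
  have hMR : (0 : ℝ) < M := by exact_mod_cast hM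
  unfold avgExp
  apply div_pos _ (by positivity)
  apply Finset.sum_pos (fun _ _ => by positivity) Finset.univ_nonempty

lemma log_avg_ge_FF (T : TS V K) (d : ℕ) {M : ℕ} (hM : 0 < M) :
    Real.log 2 * ((∑ τ : V → Fin M, (FF T d τ : ℝ)) / (M : ℝ) ^ (Fintype.card V))
      ≤ Real.log (avgExp T d M) := by
  have : Nonempty (Fin M) := ⟨⟨0, hM⟩⟩
  rw [Real.le_log_iff_exp_le (avgExp_pos T d hM)]
  have h := exp_avg_le (ι := V → Fin M) (fun τ => FF T d τ)
  have e : ((Fintype.card (V → Fin M) : ℕ) : ℝ) = (M : ℝ) ^ (Fintype.card V) := by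
    rw [Fintype.card_fun, Fintype.card_fin]
    push_cast
    rfl
  rw [e] at h
  exact h

lemma log_avg_ge_F2 (T : TS V K) {j d ℓ L : ℕ} (hjd : j + 1 ≤ d) {M : ℕ} (hM : 0 < M)
    (hL : 2 ≤ L) (hℓ : ℓ + L ≤ M) :
    Real.log 2 * ((∑ τ : V → Fin M, (F2 T j d ℓ L τ : ℝ)) / (M : ℝ) ^ (Fintype.card V))
      + hbar M ℓ L * ((∑ τ : V → Fin M, ((HP T j (SSet τ ℓ) (WSet τ ℓ L)).card : ℝ)) / (M : ℝ) ^ (Fintype.card V))
      ≤ Real.log (avgExp T d M) := by
  have hMR : (0 : ℝ) < M := by exact_mod_cast hM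
  have : Nonempty (Fin M) := ⟨⟨0, hM⟩⟩
  refine le_trans (window_jensen T j d ℓ L M hL hℓ) ?_
  apply Real.log_le_log
  · apply div_pos _ (by positivity)
    apply Finset.sum_pos (fun _ _ => by positivity) Finset.univ_nonempty
  · unfold avgExp
    apply div_le_div_of_nonneg_right _ (by positivity)
    apply Finset.sum_le_sum
    intro τ _
    exact pow_le_pow_right₀ (by norm_num) (FF_ge_F2 T j d ℓ L hjd τ)

/-- Levels of the window: a count. -/
lemma card_winL_le (M ℓ L : ℕ) : (winL M ℓ L).card ≤ L := by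
  classical
  have h : (winL M ℓ L).card ≤ (Finset.Ico (M - ℓ - L) (M - ℓ)).card := by
    apply Finset.card_le_card_of_injOn (fun i => i.val)
    · intro i hi
      have := Finset.mem_filter.mp hi
      exact Finset.mem_coe.mpr (Finset.mem_Ico.mpr this.2)
    · intro a _ b _ hab
      exact Fin.ext hab
  rw [Nat.card_Ico] at h
  omega

/-- Lower bound for the average of `F2`. -/
lemma avg_F2_lower (T : TS V K) {j d ℓ L N : ℕ} (hK : 408 ≤ K) (hjd : j + 1 ≤ d) (hN : 0 < N)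
    (hℓ1 : 100 * N ≤ ℓ) (hℓ2 : ℓ + L ≤ 102 * N) :
    (Fintype.card V : ℝ) * ((∑ l ∈ Finset.range (K * N), (1 - betaSeq (((l : ℝ) + 1) / ((K * N : ℕ) : ℝ)) K d))
        / ((K * N : ℕ) : ℝ))
      - (Fintype.card V : ℝ) * ((L : ℝ) / ((K * N : ℕ) : ℝ)) * (2 * lamB ^ (j + 1))
      ≤ (∑ τ : V → Fin (K * N), (F2 T j d ℓ L τ : ℝ)) / ((K * N : ℕ) : ℝ) ^ (Fintype.card V) := by
  set M := K * N with hMdef
  have hMpos : 0 < M := Nat.mul_pos (by omega) hN
  have hMR : (0 : ℝ) < M := by exact_mod_cast hMpos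
  have hKR : (0 : ℝ) < K := by exact_mod_cast (by omega : 0 < K)
  have hNR : (0 : ℝ) < N := by exact_mod_cast hN
  have hMe : (M : ℝ) = K * N := by rw [hMdef]; push_cast; ring
  rw [avg_F2_eq T j d ℓ L hMpos]
  set n : ℝ := (Fintype.card V : ℝ) with hn
  have hn0 : 0 ≤ n := Nat.cast_nonneg _
  have hlam : 0 ≤ 2 * lamB ^ (j + 1) := by have := lamB_pos; positivity
  -- termwise
  have hterm : ∀ i : Fin M, ∀ x : V,
      (1 - betaSeq (((M : ℝ) - (i.val : ℝ)) / (M : ℝ)) K d)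
        - (if i ∈ winL M ℓ L then 2 * lamB ^ (j + 1) else 0)
      ≤ Pr (((M : ℝ) - (i.val : ℝ)) / (M : ℝ))
          (fun S => ¬ T.bad S (if i ∈ winL M ℓ L then j + 1 else d) [x]) := by
    intro i x
    have hi : (i.val : ℝ) < M := by exact_mod_cast i.isLt
    have hi0 : (0 : ℝ) ≤ i.val := Nat.cast_nonneg _
    have hr0 : 0 ≤ ((M : ℝ) - (i.val : ℝ)) / (M : ℝ) := div_nonneg (by linarith) hMR.le
    have hr1 : ((M : ℝ) - (i.val : ℝ)) / (M : ℝ) ≤ 1 := by
      rw [div_le_one hMR]; linarith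
    by_cases hw : i ∈ winL M ℓ L
    · simp only [hw, if_true]
      have h1 := Pr_notbad_ge T hr0 hr1 (j + 1) [x]
      obtain ⟨hw1, hw2⟩ := (Finset.mem_filter.mp hw).2
      have hle : ℓ + L ≤ M := by
        have : 102 * N ≤ K * N := Nat.mul_le_mul_right N (by omega)
        omega
      have hi1 : ((M : ℝ) - (i.val : ℝ)) ≤ (ℓ : ℝ) + L := by
        have : M ≤ i.val + ℓ + L := by omega
        have h2 : (M : ℝ) ≤ (i.val : ℝ) + ℓ + L := by exact_mod_cast this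
        linarith
      have hi2 : (ℓ : ℝ) ≤ (M : ℝ) - (i.val : ℝ) := by
        have : i.val + ℓ ≤ M := by omega
        have h2 : (i.val : ℝ) + ℓ ≤ M := by exact_mod_cast this
        linarith
      have e : ((M : ℝ) - (i.val : ℝ)) / (M : ℝ) * K = ((M : ℝ) - (i.val : ℝ)) / N := by
        rw [hMe]; field_simp
      have h3 : (100 : ℝ) * N ≤ ℓ := by exact_mod_cast hℓ1
      have h4 : (ℓ : ℝ) + L ≤ 102 * N := by exact_mod_cast hℓ2
      have ht := tail_of_density (J := j + 1) (d := d) (r := ((M : ℝ) - (i.val : ℝ)) / (M : ℝ)) hK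
        (by rw [e, le_div_iff₀ hNR]; linarith) (by rw [e, div_le_iff₀ hNR]; linarith) hjd
      linarith
    · simp only [hw, if_false, sub_zero]
      exact Pr_notbad_ge T hr0 hr1 d [x]
  -- sum
  have hsum : ∑ i : Fin M, ((1 - betaSeq (((M : ℝ) - (i.val : ℝ)) / (M : ℝ)) K d)
        - (if i ∈ winL M ℓ L then 2 * lamB ^ (j + 1) else 0))
      ≥ (∑ l ∈ Finset.range M, (1 - betaSeq (((l : ℝ) + 1) / (M : ℝ)) K d)) - L * (2 * lamB ^ (j + 1)) := by
    rw [Finset.sum_sub_distrib]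
    have e := sum_fin_reindex M (fun r => 1 - betaSeq r K d)
    rw [e]
    have h2 : ∑ i : Fin M, (if i ∈ winL M ℓ L then 2 * lamB ^ (j + 1) else 0)
        ≤ (L : ℝ) * (2 * lamB ^ (j + 1)) := by
      rw [Finset.sum_ite_mem, Finset.univ_inter, Finset.sum_const, nsmul_eq_mul]
      apply mul_le_mul_of_nonneg_right _ hlam
      exact_mod_cast card_winL_le M ℓ L
    linarith
  have hsum2 : n * ((∑ l ∈ Finset.range M, (1 - betaSeq (((l : ℝ) + 1) / (M : ℝ)) K d)) - L * (2 * lamB ^ (j + 1)))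
      ≤ ∑ i : Fin M, ∑ x : V, Pr (((M : ℝ) - (i.val : ℝ)) / (M : ℝ))
          (fun S => ¬ T.bad S (if i ∈ winL M ℓ L then j + 1 else d) [x]) := by
    have h2 : n * ((∑ l ∈ Finset.range M, (1 - betaSeq (((l : ℝ) + 1) / (M : ℝ)) K d)) - L * (2 * lamB ^ (j + 1)))
        ≤ n * ∑ i : Fin M, ((1 - betaSeq (((M : ℝ) - (i.val : ℝ)) / (M : ℝ)) K d)
        - (if i ∈ winL M ℓ L then 2 * lamB ^ (j + 1) else 0)) :=
      mul_le_mul_of_nonneg_left hsum hn0
    refine le_trans h2 ?_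
    rw [Finset.mul_sum]
    apply Finset.sum_le_sum
    intro i _
    have h3 := Finset.sum_le_sum (fun x (_ : x ∈ (Finset.univ : Finset V)) => hterm i x)
    rw [Finset.sum_const, Finset.card_univ, nsmul_eq_mul] at h3
    exact h3
  have h5 : (1 / (M : ℝ)) * (n * ((∑ l ∈ Finset.range M, (1 - betaSeq (((l : ℝ) + 1) / (M : ℝ)) K d)) - L * (2 * lamB ^ (j + 1))))
      ≤ (1 / (M : ℝ)) * ∑ i : Fin M, ∑ x : V, Pr (((M : ℝ) - (i.val : ℝ)) / (M : ℝ))
          (fun S => ¬ T.bad S (if i ∈ winL M ℓ L then j + 1 else d) [x]) :=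
    mul_le_mul_of_nonneg_left hsum2 (by positivity)
  refine le_trans (le_of_eq ?_) h5
  field_simp

/-- Level excess. -/
noncomputable def EL (T : TS V K) (d M l : ℕ) : ℝ :=
  ∑ x : V, Pr (((l : ℝ) + 1) / (M : ℝ)) (fun S => ¬ T.bad S d [x])
    - (Fintype.card V : ℝ) * (1 - betaSeq (((l : ℝ) + 1) / (M : ℝ)) K d)

lemma density_mem {M l : ℕ} (hl : l < M) :
    0 ≤ ((l : ℝ) + 1) / (M : ℝ) ∧ ((l : ℝ) + 1) / (M : ℝ) ≤ 1 := by
  have hM : (0 : ℝ) < M := by exact_mod_cast (by omega : 0 < M)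
  constructor
  · positivity
  · rw [div_le_one hM]
    exact_mod_cast hl

lemma EL_nonneg (T : TS V K) (d : ℕ) {M l : ℕ} (hl : l < M) : 0 ≤ EL T d M l := by
  obtain ⟨h0, h1⟩ := density_mem hl
  unfold EL
  have h3 := Finset.sum_le_sum (fun x (_ : x ∈ (Finset.univ : Finset V)) => Pr_notbad_ge T h0 h1 d [x])
  rw [Finset.sum_const, Finset.card_univ, nsmul_eq_mul] at h3
  linarith

/-- The average of `FF` in terms of level excesses. -/
lemma avg_FF_lower (T : TS V K) {d N : ℕ} (hK : 102 ≤ K) (hN : 0 < N) {e : ℝ}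
    (hE : ∀ l ∈ Finset.Ico (100 * N) (101 * N), e ≤ EL T d (K * N) l) :
    (Fintype.card V : ℝ) * ((∑ l ∈ Finset.range (K * N), (1 - betaSeq (((l : ℝ) + 1) / ((K * N : ℕ) : ℝ)) K d))
        / ((K * N : ℕ) : ℝ)) + e / K
      ≤ (∑ τ : V → Fin (K * N), (FF T d τ : ℝ)) / ((K * N : ℕ) : ℝ) ^ (Fintype.card V) := by
  set M := K * N with hMdef
  have hMpos : 0 < M := Nat.mul_pos (by omega) hN
  have hMR : (0 : ℝ) < M := by exact_mod_cast hMpos
  have hKR : (0 : ℝ) < K := by exact_mod_cast (by omega : 0 < K)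
  have hNR : (0 : ℝ) < N := by exact_mod_cast hN
  have hMe : (M : ℝ) = K * N := by rw [hMdef]; push_cast; ring
  rw [avg_FF_eq T d hMpos]
  have e1 := sum_fin_reindex M (fun r => ∑ x : V, Pr r (fun S => ¬ T.bad S d [x]))
  rw [e1]
  set n : ℝ := (Fintype.card V : ℝ) with hn
  have hsub : Finset.Ico (100 * N) (101 * N) ⊆ Finset.range M := by
    intro l hl
    rw [Finset.mem_range]
    have h1 := (Finset.mem_Ico.mp hl).2
    have h2 : 102 * N ≤ K * N := Nat.mul_le_mul_right N hK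
    omega
  -- decomposition
  have h2 : ∑ l ∈ Finset.range M, ∑ x : V, Pr (((l : ℝ) + 1) / (M : ℝ)) (fun S => ¬ T.bad S d [x])
      = n * ∑ l ∈ Finset.range M, (1 - betaSeq (((l : ℝ) + 1) / (M : ℝ)) K d)
        + ∑ l ∈ Finset.range M, EL T d M l := by
    rw [Finset.mul_sum, ← Finset.sum_add_distrib]
    apply Finset.sum_congr rfl
    intro l _
    unfold EL
    ring
  have h3 : (N : ℝ) * e ≤ ∑ l ∈ Finset.range M, EL T d M l := by
    have h4 : ∑ l ∈ Finset.Ico (100 * N) (101 * N), EL T d M l ≤ ∑ l ∈ Finset.range M, EL T d M l :=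
      Finset.sum_le_sum_of_subset_of_nonneg hsub (fun l hl _ => EL_nonneg T d (Finset.mem_range.mp hl))
    have h5 : ∑ _l ∈ Finset.Ico (100 * N) (101 * N), e ≤ ∑ l ∈ Finset.Ico (100 * N) (101 * N), EL T d M l :=
      Finset.sum_le_sum hE
    rw [Finset.sum_const, Nat.card_Ico, nsmul_eq_mul] at h5
    have h6 : 101 * N - 100 * N = N := by omega
    rw [h6] at h5
    linarith
  rw [h2]
  have h7 : e / K = (1 / (M : ℝ)) * ((N : ℝ) * e) := by
    rw [hMe]; field_simp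
  rw [h7, mul_add]
  have h8 := mul_le_mul_of_nonneg_left h3 (by positivity : 0 ≤ 1 / (M : ℝ))
  have h9 : n * ((∑ l ∈ Finset.range M, (1 - betaSeq (((l : ℝ) + 1) / (M : ℝ)) K d)) / (M : ℝ))
      = 1 / (M : ℝ) * (n * ∑ l ∈ Finset.range M, (1 - betaSeq (((l : ℝ) + 1) / (M : ℝ)) K d)) := by
    field_simp
  rw [h9]
  linarith

/-- The total excess at depth `j+1` is bounded by the level excess. -/
lemma sum_exc_le (T : TS V K) {j d : ℕ} (hjd : j + 1 ≤ d) {p : ℝ} (h0 : 0 ≤ p) (h1 : p ≤ 1) :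
    ∑ x, exc T j p x ≤ ∑ x : V, Pr p (fun S => ¬ T.bad S d [x])
      - (Fintype.card V : ℝ) * (1 - betaSeq p K (j + 1)) := by
  have e : ∀ x : V, exc T j p x ≤ Pr p (fun S => ¬ T.bad S d [x]) - (1 - betaSeq p K (j + 1)) := by
    intro x
    unfold exc
    rw [betaSeq_succ]
    have h2 : Pr p (fun S => ¬ RB T j x S) ≤ Pr p (fun S => ¬ T.bad S d [x]) := by
      unfold Pr
      apply Ep_mono h0 h1
      intro S
      by_cases hb : RB T j x S
      · rw [ind_apply_not (P := fun S => ¬ RB T j x S) (not_not.mpr hb)]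
        exact ind_nonneg _ _
      · rw [ind_apply_of (P := fun S => ¬ RB T j x S) hb]
        have h3 : ¬ T.bad S d [x] := fun h => hb (T.bad_of_le hjd [x] h)
        rw [ind_apply_of (P := fun S => ¬ T.bad S d [x]) h3]
    linarith
  have h3 := Finset.sum_le_sum (fun x (_ : x ∈ (Finset.univ : Finset V)) => e x)
  rw [Finset.sum_sub_distrib, Finset.sum_const, Finset.card_univ, nsmul_eq_mul] at h3
  exact h3

end avg

section final

variable {V : Type} [Fintype V] [DecidableEq V] {K : ℕ}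

/-- The window bound at the density of the level `l`. -/
lemma window_bound (T : TS V K) {j d l L N : ℕ} (hK : 408 ≤ K) (hjd : j + 1 ≤ d) (hN : 0 < N)
    (hl1 : 100 * N ≤ l) (hl2 : l < 101 * N) (hL : 2 ≤ L) (hL2 : L ≤ N) :
    Real.log 2 * ((Fintype.card V : ℝ) * ((∑ l ∈ Finset.range (K * N),
          (1 - betaSeq (((l : ℝ) + 1) / ((K * N : ℕ) : ℝ)) K d)) / ((K * N : ℕ) : ℝ))
        - (Fintype.card V : ℝ) * ((L : ℝ) / ((K * N : ℕ) : ℝ)) * (2 * lamB ^ (j + 1)))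
      + h0c * (((L : ℝ) / ((K * N : ℕ) : ℝ)) ^ 2 *
          (∑ c, ∑ u ∈ CC T c, aa T j (((l : ℝ) + 1) / ((K * N : ℕ) : ℝ)) c u
            - 3 * ((L : ℝ) / ((K * N : ℕ) : ℝ)) * (Fintype.card V : ℝ) * (K : ℝ) ^ 2
              * (Rseq 102 (j + 1) + R2seq 102 (j + 1))))
      ≤ Real.log (avgExp T d (K * N)) := by
  set M := K * N with hMdef
  have hMpos : 0 < M := Nat.mul_pos (by omega) hN
  have hMR : (0 : ℝ) < M := by exact_mod_cast hMpos
  have hKR : (0 : ℝ) < K := by exact_mod_cast (by omega : 0 < K)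
  have hNR : (0 : ℝ) < N := by exact_mod_cast hN
  have hMe : (M : ℝ) = K * N := by rw [hMdef]; push_cast; ring
  have hle : (l + 1) + L ≤ M := by
    have : 102 * N ≤ K * N := Nat.mul_le_mul_right N (by omega)
    omega
  have h1 := avg_F2_lower (V := V) T (j := j) (d := d) (ℓ := l + 1) (L := L) (N := N) hK hjd hN (by omega) (by omega)
  rw [← hMdef] at h1
  have h2 := log_avg_ge_F2 T (ℓ := l + 1) (L := L) hjd hMpos hL hle
  have h3 := avg_HP_ge T j (l + 1) L hMpos hle (a' := 102) (by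
    have e : (((l + 1 : ℕ) : ℝ) + L) / M * K = (((l + 1 : ℕ) : ℝ) + L) / N := by
      rw [hMe]; field_simp
    rw [e, div_le_iff₀ hNR]
    have : (l + 1) + L ≤ 102 * N := by omega
    exact_mod_cast this)
  have e : ((l + 1 : ℕ) : ℝ) = (l : ℝ) + 1 := by push_cast; ring
  rw [e] at h3
  have h0c := hbar_pos M (l + 1) L hL hle
  have hh0 := h0c_pos
  have hHP0 : 0 ≤ (∑ τ : V → Fin M, ((HP T j (SSet τ (l + 1)) (WSet τ (l + 1) L)).card : ℝ))
      / (M : ℝ) ^ (Fintype.card V) :=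
    div_nonneg (Finset.sum_nonneg (fun _ _ => Nat.cast_nonneg _)) (pow_nonneg hMR.le _)
  have h4 := mul_le_mul_of_nonneg_left h3 hh0.le
  have h5 := mul_le_mul_of_nonneg_right h0c hHP0
  have h6 := mul_le_mul_of_nonneg_left h1 (Real.log_pos (by norm_num : (1 : ℝ) < 2)).le
  linarith only [h2, h4, h5, h6]

/-- The final real algebra. -/
lemma final_alg {ln2 h₀ A At n K ρ δ' δs Rb Avg lam base g : ℝ}
    (hln : 0 < ln2) (hh : 0 ≤ h₀) (hA : 0 < A) (hn : 0 ≤ n) (hK : 0 < K) (hρ : ρ = δ' / K)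
    (hδ1 : δs / 2 ≤ δ') (hδ2 : δ' ≤ δs) (hδs : 0 < δs) (hRb : 0 ≤ Rb) (h3 : 3 * δs * Rb ≤ A / 2)
    (hg : g = h₀ * A / (2 * ln2)) (hlam : lam ≤ g * δs / 4) (hAvg : base / K ≤ Avg)
    (hAt : A * n * K ≤ At) :
    ln2 * ((base + g * δs ^ 2 / 8) * n / K)
      ≤ ln2 * (n * Avg - n * ρ * lam) + h₀ * (ρ ^ 2 * (At - 3 * ρ * n * K ^ 2 * Rb)) := by
  have hδ' : 0 < δ' := by linarith
  have hg0 : 0 ≤ g := by rw [hg]; positivity
  set w := n / K with hw
  have hw0 : 0 ≤ w := by positivity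
  have hnw : n = w * K := by rw [hw]; field_simp
  have e1 : n * ρ * lam = w * (δ' * lam) := by
    rw [hnw, hρ]; field_simp
  have h1 : w * base ≤ n * Avg := by
    have := mul_le_mul_of_nonneg_left hAvg hn
    have e : n * (base / K) = w * base := by rw [hw]; field_simp
    linarith
  have h2 : ρ ^ 2 * (At - 3 * ρ * n * K ^ 2 * Rb) ≥ δ' ^ 2 * w * (A / 2) := by
    have h4 : ρ ^ 2 * (A * n * K - 3 * ρ * n * K ^ 2 * Rb) ≤ ρ ^ 2 * (At - 3 * ρ * n * K ^ 2 * Rb) :=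
      mul_le_mul_of_nonneg_left (by linarith) (by positivity)
    have e2 : ρ ^ 2 * (A * n * K - 3 * ρ * n * K ^ 2 * Rb) = δ' ^ 2 * w * (A - 3 * δ' * Rb) := by
      rw [hnw, hρ]; field_simp
    rw [e2] at h4
    have h5 : 3 * δ' * Rb ≤ 3 * δs * Rb := by
      apply mul_le_mul_of_nonneg_right _ hRb
      linarith
    have h6 : δ' ^ 2 * w * (A / 2) ≤ δ' ^ 2 * w * (A - 3 * δ' * Rb) :=
      mul_le_mul_of_nonneg_left (by linarith) (by positivity)
    linarith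
  have h3' : g * δs ^ 2 / 8 + δ' * lam ≤ g * δ' ^ 2 := by
    have h4 : δ' * lam ≤ δ' * (g * δs / 4) := mul_le_mul_of_nonneg_left hlam hδ'.le
    have h5 : 0 ≤ g * (δ' - δs / 2) * (δ' + δs / 4) := by
      apply mul_nonneg (mul_nonneg hg0 (by linarith)) (by linarith)
    nlinarith
  have h4 : h₀ * (δ' ^ 2 * w * (A / 2)) = ln2 * (g * δ' ^ 2 * w) := by
    rw [hg]; field_simp
  have h5 := mul_le_mul_of_nonneg_left h2 hh
  have e3 : (base + g * δs ^ 2 / 8) * n / K = w * (base + g * δs ^ 2 / 8) := by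
    rw [hw]; field_simp
  rw [e3, e1]
  have h6 : w * (g * δs ^ 2 / 8 + δ' * lam) ≤ w * (g * δ' ^ 2) := mul_le_mul_of_nonneg_left h3' hw0
  have h7 : ln2 * (w * (base + g * δs ^ 2 / 8)) ≤ ln2 * (n * Avg - w * (δ' * lam) + g * δ' ^ 2 * w) := by
    apply mul_le_mul_of_nonneg_left _ hln.le
    nlinarith
  have e4 : ln2 * (n * Avg - w * (δ' * lam) + g * δ' ^ 2 * w)
      = ln2 * (n * Avg - w * (δ' * lam)) + ln2 * (g * δ' ^ 2 * w) := by ring
  rw [e4, ← h4] at h7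
  linarith

/-- Consequence of a small level excess. -/
lemma exc_at_level (T : TS V K) {j d l N : ℕ} {e₁ lam : ℝ} (hK2 : 408 ≤ K) (hd2 : j + 1 ≤ d)
    (hN0 : 0 < N) (hl1 : 100 * N ≤ l) (hl2 : l < 101 * N)
    (hEl : EL T d (K * N) l ≤ e₁ * (Fintype.card V : ℝ)) (hlam : 2 * lamB ^ (j + 1) ≤ lam) :
    ∑ x, exc T j (((l : ℝ) + 1) / ((K * N : ℕ) : ℝ)) x ≤ (e₁ + lam) * (Fintype.card V : ℝ) := by
  have hNR : (0 : ℝ) < N := by exact_mod_cast hN0
  have hKR : (0 : ℝ) < K := by exact_mod_cast (by omega : 0 < K)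
  have hMe : ((K * N : ℕ) : ℝ) = K * N := by push_cast; ring
  set p := ((l : ℝ) + 1) / ((K * N : ℕ) : ℝ) with hp
  have hlM : l < K * N := by
    have : 102 * N ≤ K * N := Nat.mul_le_mul_right N (by omega)
    omega
  obtain ⟨hp0, hp1⟩ := density_mem hlM
  have hpK : p * K = ((l : ℝ) + 1) / N := by
    rw [hp, hMe]; field_simp
  have hpK1 : 100 ≤ p * K := by
    rw [hpK, le_div_iff₀ hNR]
    have h2 : (100 : ℝ) * N ≤ l := by exact_mod_cast hl1
    linarith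
  have hpK2 : p * K ≤ 102 := by
    rw [hpK, div_le_iff₀ hNR]
    have h2 : (l : ℝ) + 1 ≤ 101 * N := by exact_mod_cast hl2
    linarith
  have hn0 : (0 : ℝ) ≤ (Fintype.card V : ℝ) := Nat.cast_nonneg _
  have h1 := sum_exc_le T hd2 hp0 hp1
  have h3 := tail_of_density (J := j + 1) (d := d) hK2 hpK1 hpK2 hd2
  have h4 := mul_le_mul_of_nonneg_left h3 hn0
  have h6 := mul_le_mul_of_nonneg_right hlam hn0
  unfold EL at hEl
  rw [← hp] at hEl
  linarith only [h1, h4, h6, hEl]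

lemma par_at_level {j l N : ℕ} (hK2 : 408 ≤ K) (hj : 1 ≤ j)
    (hN0 : 0 < N) (hl1 : 100 * N ≤ l) (hl2 : l < 101 * N) :
    Par (((l : ℝ) + 1) / ((K * N : ℕ) : ℝ)) 102 piC K j := by
  have hNR : (0 : ℝ) < N := by exact_mod_cast hN0
  have hKR : (0 : ℝ) < K := by exact_mod_cast (by omega : 0 < K)
  have hMe : ((K * N : ℕ) : ℝ) = K * N := by push_cast; ring
  have hpK : ((l : ℝ) + 1) / ((K * N : ℕ) : ℝ) * K = ((l : ℝ) + 1) / N := by
    rw [hMe]; field_simp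
  apply par_of_density hK2 hj
  · rw [hpK, le_div_iff₀ hNR]
    have h2 : (100 : ℝ) * N ≤ l := by exact_mod_cast hl1
    linarith
  · rw [hpK, div_le_iff₀ hNR]
    have h2 : (l : ℝ) + 1 ≤ 101 * N := by exact_mod_cast hl2
    linarith

/-- The case of a small level excess. -/
lemma case_window (T : TS V K) {j d l N : ℕ} {δs : ℝ} (hK2 : 408 ≤ K) (hd2 : j + 1 ≤ d)
    (hN0 : 0 < N) (hl1 : 100 * N ≤ l) (hl2 : l < 101 * N) (hδs0 : 0 < δs) (hδs1 : δs ≤ 1)
    (hδN : 4 ≤ δs * N)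
    (hδs3 : 3 * δs * (Rseq 102 (j + 1) + R2seq 102 (j + 1)) ≤ Astar 102 piC / 2)
    (hlam : 2 * lamB ^ (j + 1) ≤ (h0c * Astar 102 piC / (2 * Real.log 2)) * δs / 4)
    {base : ℝ}
    (hcalc : base / K ≤ (∑ l ∈ Finset.range (K * N),
          (1 - betaSeq (((l : ℝ) + 1) / ((K * N : ℕ) : ℝ)) K d)) / ((K * N : ℕ) : ℝ))
    (hAt : Astar 102 piC * (Fintype.card V : ℝ) * K
      ≤ ∑ c, ∑ u ∈ CC T c, aa T j (((l : ℝ) + 1) / ((K * N : ℕ) : ℝ)) c u) :
    Real.log 2 * ((base + (h0c * Astar 102 piC / (2 * Real.log 2)) * δs ^ 2 / 8) * (Fintype.card V : ℝ) / K)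
      ≤ Real.log (avgExp T d (K * N)) := by
  have hNR : (0 : ℝ) < N := by exact_mod_cast hN0
  have hKR : (0 : ℝ) < K := by exact_mod_cast (by omega : 0 < K)
  have hMe : ((K * N : ℕ) : ℝ) = K * N := by push_cast; ring
  have hln : 0 < Real.log 2 := Real.log_pos (by norm_num)
  have hRb0 : 0 ≤ Rseq 102 (j + 1) + R2seq 102 (j + 1) :=
    add_nonneg (Rseq_nonneg (by norm_num) _) (R2seq_nonneg (by norm_num) _)
  set L := ⌊δs * N⌋₊ with hL
  have hL1 : (L : ℝ) ≤ δs * N := Nat.floor_le (by positivity)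
  have hL2 : δs * N < L + 1 := Nat.lt_floor_add_one _
  have hL3 : 2 ≤ L := Nat.le_floor (by norm_num; linarith)
  have hL4 : L ≤ N := by
    have h1 : (L : ℝ) ≤ N := by nlinarith
    exact_mod_cast h1
  have hw := window_bound T (j := j) (d := d) (l := l) (L := L) (N := N) hK2 hd2 hN0 hl1 hl2 hL3 hL4
  have hfin := final_alg (ln2 := Real.log 2) (h₀ := h0c) (A := Astar 102 piC)
    (At := ∑ c, ∑ u ∈ CC T c, aa T j (((l : ℝ) + 1) / ((K * N : ℕ) : ℝ)) c u)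
    (n := (Fintype.card V : ℝ)) (K := (K : ℝ))
    (ρ := (L : ℝ) / ((K * N : ℕ) : ℝ)) (δ' := (L : ℝ) / N) (δs := δs)
    (Rb := Rseq 102 (j + 1) + R2seq 102 (j + 1))
    (Avg := (∑ l ∈ Finset.range (K * N),
          (1 - betaSeq (((l : ℝ) + 1) / ((K * N : ℕ) : ℝ)) K d)) / ((K * N : ℕ) : ℝ))
    (lam := 2 * lamB ^ (j + 1)) (base := base) (g := h0c * Astar 102 piC / (2 * Real.log 2))
    hln h0c_pos.le (Astar_pos (by norm_num) piC_pos) (Nat.cast_nonneg _) hKR (by rw [hMe]; field_simp)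
    (by rw [le_div_iff₀ hNR]; nlinarith)
    (by rw [div_le_iff₀ hNR]; exact hL1) hδs0 hRb0 hδs3 rfl hlam hcalc hAt
  exact le_trans hfin hw

end final

/-- The numeric choice of the constants. -/
lemma choose_constants : ∃ (c₀ : ℝ) (j : ℕ) (R δs ε₁ G : ℝ), 0 < c₀ ∧ 1 ≤ j ∧
    (∀ R' : ℝ, 0 ≤ R' → ∀ (K j : ℕ) (p : ℝ), (1 + R') ^ 6 / c₀ ≤ K →
      Par p 102 piC K j → Rseq 102 (j + 1) ≤ R' →
      ∀ (V : Type) [Fintype V] [DecidableEq V] (T : TS V K),
        ∑ x, exc T j p x ≤ (c₀ / (1 + R') ^ 6) * (Fintype.card V : ℝ) →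
        Astar 102 piC * (Fintype.card V : ℝ) * K ≤ ∑ c, ∑ u ∈ CC T c, aa T j p c u) ∧
    R = Rseq 102 (j + 1) ∧ 0 ≤ R ∧ 0 < δs ∧ δs ≤ 1 ∧
    3 * δs * (Rseq 102 (j + 1) + R2seq 102 (j + 1)) ≤ Astar 102 piC / 2 ∧
    2 * lamB ^ (j + 1) ≤ (h0c * Astar 102 piC / (2 * Real.log 2)) * δs / 4 ∧
    0 < ε₁ ∧ 2 * lamB ^ (j + 1) ≤ ε₁ ∧ ε₁ + ε₁ = c₀ / (1 + R) ^ 6 ∧
    0 < G ∧ G = (h0c * Astar 102 piC / (2 * Real.log 2)) * δs ^ 2 / 8 := by
  have hπ := piC_pos
  obtain ⟨c₀, hc₀, hasym⟩ := asym_main (a₁ := 102) (πc := piC) (by norm_num) hπ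
  have hA : 0 < Astar 102 piC := Astar_pos (by norm_num) hπ
  set A := Astar 102 piC with hAdef
  have hh₀ := h0c_pos
  have hln : 0 < Real.log 2 := Real.log_pos (by norm_num)
  set g := h0c * A / (2 * Real.log 2) with hg
  have hg0 : 0 < g := by positivity
  set A₁ := min 1 (A / 6) with hA₁
  have hA₁0 : 0 < A₁ := lt_min (by norm_num) (by positivity)
  have hA₁1 : A₁ ≤ 1 := min_le_left _ _
  have hA₁2 : A₁ ≤ A / 6 := min_le_right _ _
  obtain ⟨j, hj, hJ1, hJ2⟩ := exists_J hc₀ (κ := g * A₁ / 8) (by positivity)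
  have hR0 : 0 ≤ Rseq 102 (j + 1) := Rseq_nonneg (by norm_num) _
  set R := Rseq 102 (j + 1) with hR
  set Rb := R + R2seq 102 (j + 1) with hRb
  have hRb0 : 0 ≤ Rb := add_nonneg hR0 (R2seq_nonneg (by norm_num) _)
  have hlam0 := lamB_pos
  set δs := A₁ / (1 + Rb) with hδs
  have hδs0 : 0 < δs := by positivity
  have hδs1 : δs ≤ 1 := by
    rw [hδs, div_le_one (by positivity)]
    linarith
  have hδs3 : 3 * δs * Rb ≤ A / 2 := by
    have h1 : δs * Rb ≤ A₁ := by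
      rw [hδs, div_mul_eq_mul_div, div_le_iff₀ (by positivity)]
      nlinarith
    linarith
  have hlam : 2 * lamB ^ (j + 1) ≤ g * δs / 4 := by
    have e : g * δs / 4 = (g * A₁ / 4) / (1 + Rb) := by rw [hδs]; ring
    rw [e, le_div_iff₀ (by positivity)]
    linarith
  have hs6 : 0 < (1 + R) ^ 6 := by positivity
  refine ⟨c₀, j, R, δs, c₀ / (2 * (1 + R) ^ 6), g * δs ^ 2 / 8, hc₀, hj, hasym, rfl, hR0, hδs0, hδs1,
    hδs3, hlam, by positivity, ?_, ?_, by positivity, rfl⟩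
  · rw [le_div_iff₀ (by positivity)]
    linarith
  · field_simp
    ring

/-- The universal bound with a constant strictly above `π²/6`. -/
theorem universal_main : ∃ ε₀ : ℝ, 0 < ε₀ ∧ UniversalBound (Real.pi ^ 2 / 6 + ε₀) := by
  obtain ⟨c₀, j, R, δs, ε₁, G, hc₀, hj, hasym, hR, hR0, hδs0, hδs1, hδs3, hlam, hε₁0, hlam2, hε₁e,
    hG0, hG⟩ := choose_constants
  have hln : 0 < Real.log 2 := Real.log_pos (by norm_num)
  set η := min ε₁ G / 2 with hη
  have hη0 : 0 < η := by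
    have := lt_min hε₁0 hG0
    positivity
  have hη1 : 2 * η ≤ ε₁ := by
    have := min_le_left ε₁ G
    rw [hη]; linarith
  have hη2 : 2 * η ≤ G := by
    have := min_le_right ε₁ G
    rw [hη]; linarith
  obtain ⟨d₀, K₀, N₀, hcalc⟩ := calc_main η hη0
  refine ⟨η, hη0, max K₀ (max 408 ⌈(1 + R) ^ 6 / c₀⌉₊), max d₀ (j + 1), ?_⟩
  intro K hK d hd
  have hK1 : K₀ ≤ K := le_trans (le_max_left _ _) hK
  have hK2 : 408 ≤ K := le_trans (le_trans (le_max_left _ _) (le_max_right _ _)) hK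
  have hK3 : (1 + R) ^ 6 / c₀ ≤ K := by
    have h1 : ⌈(1 + R) ^ 6 / c₀⌉₊ ≤ K := le_trans (le_trans (le_max_right _ _) (le_max_right _ _)) hK
    exact le_trans (Nat.le_ceil _) (by exact_mod_cast h1)
  have hd1 : d₀ ≤ d := le_trans (le_max_left _ _) hd
  have hd2 : j + 1 ≤ d := le_trans (le_max_right _ _) hd
  refine ⟨max N₀ ⌈4 / δs⌉₊ + 1, by omega, ?_⟩
  set N := max N₀ ⌈4 / δs⌉₊ + 1 with hN
  have hN0 : 0 < N := by omega
  have hN1 : N₀ ≤ N := by
    have := le_max_left N₀ ⌈4 / δs⌉₊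
    omega
  have hNR : (0 : ℝ) < N := by exact_mod_cast hN0
  have hN2 : 4 / δs ≤ N := by
    have h1 : ⌈4 / δs⌉₊ ≤ N := by
      have := le_max_right N₀ ⌈4 / δs⌉₊
      omega
    exact le_trans (Nat.le_ceil _) (by exact_mod_cast h1)
  have hδN : 4 ≤ δs * N := by
    rw [div_le_iff₀ hδs0] at hN2
    linarith
  intro V _ _ T
  have hcalc' := hcalc d hd1 K hK1 N hN1
  have hMpos : 0 < K * N := Nat.mul_pos (by omega) hN0
  have hKR : (0 : ℝ) < K := by exact_mod_cast (by omega : 0 < K)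
  have hn0 : (0 : ℝ) ≤ (Fintype.card V : ℝ) := Nat.cast_nonneg _
  have hgoal : Real.log 2 * ((Real.pi ^ 2 / 6 + η) * (Fintype.card V : ℝ) / K)
      ≤ Real.log (avgExp T d (K * N)) := by
    by_cases hcase : ∃ l ∈ Finset.Ico (100 * N) (101 * N), EL T d (K * N) l ≤ ε₁ * (Fintype.card V : ℝ)
    · obtain ⟨l, hl, hEl⟩ := hcase
      obtain ⟨hl1, hl2⟩ := Finset.mem_Ico.mp hl
      have hPar := par_at_level (K := K) (j := j) (l := l) (N := N) hK2 hj hN0 hl1 hl2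
      have hexc := exc_at_level T hK2 hd2 hN0 hl1 hl2 hEl hlam2
      rw [hε₁e] at hexc
      have hAt := hasym R hR0 K j _ hK3 hPar hR.ge V T hexc
      have hcw := case_window T (base := Real.pi ^ 2 / 6 - η) hK2 hd2 hN0 hl1 hl2 hδs0 hδs1 hδN hδs3 hlam hcalc' hAt
      refine le_trans ?_ hcw
      apply mul_le_mul_of_nonneg_left _ hln.le
      apply div_le_div_of_nonneg_right _ hKR.le
      apply mul_le_mul_of_nonneg_right _ hn0
      rw [← hG]
      linarith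
    · push Not at hcase
      have h1 := avg_FF_lower T (d := d) (N := N) (by omega) hN0 (e := ε₁ * (Fintype.card V : ℝ))
        (fun l hl => (hcase l hl).le)
      have h2 := log_avg_ge_FF T d hMpos
      refine le_trans ?_ h2
      apply mul_le_mul_of_nonneg_left _ hln.le
      refine le_trans ?_ h1
      have h3 := mul_le_mul_of_nonneg_left hcalc' hn0
      have e1 : (Fintype.card V : ℝ) * ((Real.pi ^ 2 / 6 - η) / K) = (Real.pi ^ 2 / 6 - η) * (Fintype.card V : ℝ) / K := by ring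
      rw [e1] at h3
      have e2 : (Real.pi ^ 2 / 6 + η) * (Fintype.card V : ℝ) / K
          = (Real.pi ^ 2 / 6 - η) * (Fintype.card V : ℝ) / K + 2 * η * (Fintype.card V : ℝ) / K := by ring
      rw [e2]
      have h4 : 2 * η * (Fintype.card V : ℝ) / K ≤ ε₁ * (Fintype.card V : ℝ) / K := by
        apply div_le_div_of_nonneg_right _ hKR.le
        exact mul_le_mul_of_nonneg_right hη1 hn0
      linarith only [h3, h4]
  exact goal_of_log (avgExp_pos T d hMpos) hgoal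

end Vale.Agent.Lib.P336_h66
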